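import Vale.Agent.P178.MathlibUsed
import Vale.Agent.P178.Residues

set_option linter.all false

section

section

/-!
Residue fields, places, tame symbols, and the last terms of the
Gersten complex of a regular local ring.
-/

universe u

noncomputable section

namespace Vale.Agent.P178

variable {A : Type u} [CommRing A]

/-- The residue field of `A` at the prime `P`, as the fraction field of `A / P`. -/
abbrev kappa (P : PrimeSpectrum A) : Type u := FractionRing (A ⧸ P.asIdeal)

/-- A discrete valuation ring of the residue field of `Q` which contains the image of `A`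
and whose maximal ideal contracts to `P`. -/
structure Place (Q P : PrimeSpectrum A) where
  V : ValuationSubring (kappa Q)
  dvr : IsDiscreteValuationRing V
  mem : ∀ x : A, algebraMap A (kappa Q) x ∈ V
  center : ∀ x : A, algebraMap A (kappa Q) x ∈ V.nonunits ↔ x ∈ P.asIdeal

namespace Place

variable {Q P : PrimeSpectrum A} (v : Place Q P)

/-- The normalized valuation of the place `v`. -/
def val (a : kappa Q) : ℤ :=
  haveI := v.dvr
  WithZero.log (Ring.ordFrac v.V a)

/-- The structure map from `A` to the valuation ring of `v`. -/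
def toV : A →+* v.V :=
  (algebraMap A (kappa Q)).codRestrict v.V.toSubring v.mem

theorem residue_toV_eq_zero_iff (x : A) :
    IsLocalRing.residue v.V (v.toV x) = 0 ↔ x ∈ P.asIdeal := by
  rw [IsLocalRing.residue_eq_zero_iff, ← v.center x]
  exact (ValuationSubring.coe_mem_nonunits_iff (a := v.toV x)).symm

/-- The map from `A / P` to the residue field of `v`. -/
def quotMap : A ⧸ P.asIdeal →+* IsLocalRing.ResidueField v.V :=
  Ideal.Quotient.lift P.asIdeal ((IsLocalRing.residue v.V).comp v.toV)
    fun x hx => (v.residue_toV_eq_zero_iff x).2 hx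

theorem quotMap_injective : Function.Injective v.quotMap := by
  rw [injective_iff_map_eq_zero]
  intro a ha
  obtain ⟨x, rfl⟩ := Ideal.Quotient.mk_surjective a
  exact Ideal.Quotient.eq_zero_iff_mem.2 ((v.residue_toV_eq_zero_iff x).1 ha)

/-- The inclusion of the residue field of `P` into the residue field of the place. -/
def resMap : kappa P →+* IsLocalRing.ResidueField v.V :=
  IsFractionRing.lift v.quotMap_injective

/-- The residue degree of the place over `P`. -/
def deg : ℕ :=
  letI := v.resMap.toAlgebra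
  Module.finrank (kappa P) (IsLocalRing.ResidueField v.V)

/-- The norm from the residue field of the place to the residue field of `P`. -/
def norm (x : IsLocalRing.ResidueField v.V) : kappa P :=
  letI := v.resMap.toAlgebra
  Algebra.norm (kappa P) x

open Classical in
/-- The residue class of an element of the valuation ring (and `0` for other elements). -/
def res (a : kappa Q) : IsLocalRing.ResidueField v.V :=
  if h : a ∈ v.V then IsLocalRing.residue v.V ⟨a, h⟩ else 0

/-- The tame symbol at the place `v`. -/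
def tame (a b : kappa Q) : IsLocalRing.ResidueField v.V :=
  v.res ((-1) ^ (v.val a * v.val b) * a ^ v.val b / b ^ v.val a)

end Place

/-- The component at `P` of the residue of an element of the residue field of `Q`:
the map `K₁ → K₀` of the Gersten complex. -/
def bd₁ (Q P : PrimeSpectrum A) (a : kappa Q) : ℤ :=
  ∑ᶠ v : Place Q P, v.val a * v.deg

/-- The component at `P` of the residue of the symbol `{a, b}` of the residue field of `Q`:
the map `K₂ → K₁` of the Gersten complex. -/
def bd₂ (Q P : PrimeSpectrum A) (a b : kappa Q) : kappa P :=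
  ∏ᶠ v : Place Q P, v.norm (v.tame a b)

/-- The prime ideals of height `h`. -/
abbrev HtPrime (A : Type u) [CommRing A] (h : ℕ) : Type u :=
  {P : PrimeSpectrum A // P.asIdeal.height = h}

end Vale.Agent.P178
end
end
end

section

section

universe u

noncomputable section

namespace Vale.Agent.P178

variable {A : Type u} [CommRing A]

namespace Place

variable {Q P : PrimeSpectrum A} (v : Place Q P)

instance : IsDiscreteValuationRing v.V := v.dvr

theorem val_def (a : kappa Q) : v.val a = WithZero.log (Ring.ordFrac v.V a) := rfl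

theorem val_mul {a b : kappa Q} (ha : a ≠ 0) (hb : b ≠ 0) :
    v.val (a * b) = v.val a + v.val b := by
  rw [val_def, val_def, val_def, map_mul, WithZero.log_mul]
  · simpa using ha
  · simpa using hb

theorem val_inv (a : kappa Q) : v.val a⁻¹ = - v.val a := by
  rw [val_def, val_def, map_inv₀, WithZero.log_inv]

theorem val_one : v.val 1 = 0 := by
  rw [val_def, map_one, WithZero.log_one]

theorem val_div {a b : kappa Q} (ha : a ≠ 0) (hb : b ≠ 0) :
    v.val (a / b) = v.val a - v.val b := by
  rw [div_eq_mul_inv, val_mul v ha (inv_ne_zero hb), val_inv, sub_eq_add_neg]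

theorem val_of_isUnit {x : v.V} (hx : IsUnit x) : v.val (x : kappa Q) = 0 := by
  have := Ring.ordFrac_of_isUnit (R := v.V) (K := kappa Q) hx
  rw [val_def]
  erw [this]
  exact WithZero.log_one

theorem val_of_irreducible {x : v.V} (hx : Irreducible x) : v.val (x : kappa Q) = 1 := by
  have := Ring.ordFrac_irreducible (R := v.V) (K := kappa Q) hx
  rw [val_def]
  erw [this]
  exact WithZero.log_exp 1

theorem res_of_mem {a : kappa Q} (ha : a ∈ v.V) :
    v.res a = IsLocalRing.residue v.V ⟨a, ha⟩ := dif_pos ha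

/-- If both entries are units of the valuation ring, the tame symbol is trivial. -/
theorem tame_of_units {a b : kappa Q} (ha : v.val a = 0) (hb : v.val b = 0) :
    v.tame a b = 1 := by
  rw [tame, ha, hb]
  simp only [mul_zero, zpow_zero, mul_one, div_one]
  rw [v.res_of_mem v.V.one_mem]
  exact map_one _

theorem norm_one : v.norm 1 = 1 := by
  let _ := v.resMap.toAlgebra
  exact map_one (Algebra.norm (kappa P))

section model

variable (R : Type u) [CommRing R] [IsDomain R] [Algebra A R] [Algebra.IsIntegral A R]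
  [Algebra R (kappa Q)] [IsScalarTower A R (kappa Q)] [IsFractionRing R (kappa Q)]

omit [IsDomain R] [IsFractionRing R (kappa Q)] in
theorem mem_of_integral (x : R) : algebraMap R (kappa Q) x ∈ v.V := by
  have hx : IsIntegral A x := Algebra.IsIntegral.isIntegral x
  have h1 : IsIntegral A (algebraMap R (kappa Q) x) := hx.algebraMap
  let _ : Algebra A v.V := v.toV.toAlgebra
  have : IsScalarTower A v.V (kappa Q) := IsScalarTower.of_algebraMap_eq fun _ => rfl
  have h2 : IsIntegral v.V (algebraMap R (kappa Q) x) := h1.tower_top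
  obtain ⟨y, hy⟩ := IsIntegrallyClosed.isIntegral_iff.1 h2
  rw [← hy]
  exact y.2

/-- The map from an integral model to the valuation ring. -/
def ofModel : R →+* v.V :=
  (algebraMap R (kappa Q)).codRestrict v.V.toSubring (v.mem_of_integral R)

omit [IsDomain R] [IsFractionRing R (kappa Q)] in
theorem coe_ofModel (x : R) : ((v.ofModel R x : v.V) : kappa Q) = algebraMap R (kappa Q) x := rfl

/-- The center of the place on an integral model. -/
def centerIn : Ideal R := (IsLocalRing.maximalIdeal v.V).comap (v.ofModel R)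

instance : (v.centerIn R).IsPrime := Ideal.IsPrime.comap _

variable {R}

omit [IsDomain R] [IsFractionRing R (kappa Q)] in
theorem mem_centerIn_iff (x : R) :
    x ∈ v.centerIn R ↔ algebraMap R (kappa Q) x ∈ v.V.nonunits :=
  (ValuationSubring.coe_mem_nonunits_iff (a := v.ofModel R x)).symm

variable (R)

omit [IsDomain R] [IsFractionRing R (kappa Q)] in
theorem comap_centerIn : (v.centerIn R).comap (algebraMap A R) = P.asIdeal := by
  ext x
  rw [Ideal.mem_comap, mem_centerIn_iff, ← IsScalarTower.algebraMap_apply, v.center]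

variable {R}

omit [IsDomain R] [IsFractionRing R (kappa Q)] in
theorem isUnit_ofModel {x : R} (hx : x ∉ v.centerIn R) : IsUnit (v.ofModel R x) := by
  by_contra h
  exact hx ((IsLocalRing.mem_maximalIdeal _).2 h)

omit [IsDomain R] [IsFractionRing R (kappa Q)] in
theorem val_of_notMem {x : R} (hx : x ∉ v.centerIn R) :
    v.val (algebraMap R (kappa Q) x) = 0 := by
  rw [← coe_ofModel]
  exact v.val_of_isUnit (v.isUnit_ofModel hx)

end model

end Place

/-- Factor a nonzero element of the fraction field through a prime element. -/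
theorem exists_factor {R K : Type*} [CommRing R] [IsDomain R] [IsNoetherianRing R] [Field K]
    [Algebra R K] [IsFractionRing R K] {g : R} (hg : Prime g) {x : K} (hx : x ≠ 0) :
    ∃ (n : ℤ) (r s : R), ¬ g ∣ r ∧ ¬ g ∣ s ∧
      x = algebraMap R K g ^ n * (algebraMap R K r / algebraMap R K s) := by
  obtain ⟨a, b, hb, rfl⟩ := IsFractionRing.div_surjective (A := R) x
  have hb0 : b ≠ 0 := nonZeroDivisors.ne_zero hb
  have ha0 : a ≠ 0 := by
    rintro rfl
    simp at hx
  obtain ⟨m, r, hr, h1⟩ := WfDvdMonoid.max_power_factor ha0 hg.irreducible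
  obtain ⟨n, s, hs, h2⟩ := WfDvdMonoid.max_power_factor hb0 hg.irreducible
  have hg0 : algebraMap R K g ≠ 0 := by
    simpa using hg.ne_zero
  refine ⟨(m : ℤ) - (n : ℤ), r, s, hr, hs, ?_⟩
  have h3 : algebraMap R K g ^ ((m : ℤ) - (n : ℤ)) =
      algebraMap R K g ^ m / algebraMap R K g ^ n := by
    rw [zpow_sub₀ hg0, zpow_natCast, zpow_natCast]
  rw [h3, h1, h2, map_mul, map_mul, map_pow, map_pow]
  rw [mul_div_mul_comm]

namespace Place

variable {Q P : PrimeSpectrum A} (v : Place Q P)
variable {R : Type u} [CommRing R] [IsDomain R] [Algebra A R] [Algebra.IsIntegral A R]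
  [Algebra R (kappa Q)] [IsScalarTower A R (kappa Q)] [IsFractionRing R (kappa Q)]
  [IsNoetherianRing R]

section center

variable {g : R} (hg : Prime g) (hv : v.centerIn R = Ideal.span {g})

include hv in
omit [IsDomain R] [IsFractionRing R (kappa Q)] [IsNoetherianRing R] in
theorem notMem_centerIn {x : R} (hx : ¬ g ∣ x) : x ∉ v.centerIn R := by
  rw [hv, Ideal.mem_span_singleton]
  exact hx

omit [Algebra A R] [Algebra.IsIntegral A R] [IsScalarTower A R (kappa Q)]
  [IsNoetherianRing R] [IsDomain R] in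
theorem algebraMap_ne_zero {x : R} (hx : ¬ g ∣ x) : algebraMap R (kappa Q) x ≠ 0 := by
  rw [Ne, IsFractionRing.to_map_eq_zero_iff]
  rintro rfl
  exact hx (dvd_zero g)

include hg hv in
/-- Elements of the valuation ring are fractions with denominator outside the center. -/
theorem exists_frac_of_mem {x : kappa Q} (hx : x ∈ v.V) :
    ∃ r s : R, ¬ g ∣ s ∧ x = algebraMap R (kappa Q) r / algebraMap R (kappa Q) s := by
  by_cases hx0 : x = 0
  · refine ⟨0, 1, fun h => hg.not_isUnit (isUnit_of_dvd_one h), ?_⟩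
    simp [hx0]
  obtain ⟨n, r, s, hr, hs, h⟩ := exists_factor (K := kappa Q) hg hx0
  have hg0 : algebraMap R (kappa Q) g ≠ 0 := by simpa using hg.ne_zero
  rcases le_or_gt 0 n with hn | hn
  · obtain ⟨m, rfl⟩ := Int.eq_ofNat_of_zero_le hn
    refine ⟨g ^ m * r, s, hs, ?_⟩
    rw [h, map_mul, map_pow]
    simp only [zpow_natCast]
    rw [mul_div_assoc]
  · exfalso
    obtain ⟨m, rfl⟩ : ∃ m : ℕ, n = -(m + 1 : ℕ) := ⟨(-n - 1).toNat, by omega⟩
    -- then `g ^ (m+1) * x * s = r`
    have h1 : algebraMap R (kappa Q) r = algebraMap R (kappa Q) g *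
        (algebraMap R (kappa Q) g ^ m * x * algebraMap R (kappa Q) s) := by
      have hs0 := algebraMap_ne_zero (Q := Q) hs
      rw [h, zpow_neg, zpow_natCast]
      field_simp
      ring
    have h2 : algebraMap R (kappa Q) r ∈ v.V.nonunits := by
      rw [h1]
      have hgm : algebraMap R (kappa Q) g ∈ v.V.nonunits := by
        rw [← mem_centerIn_iff, hv]
        exact Ideal.mem_span_singleton_self g
      have hm : algebraMap R (kappa Q) g ^ m * x * algebraMap R (kappa Q) s ∈ v.V :=
        mul_mem (mul_mem (pow_mem (v.mem_of_integral R g) m) hx) (v.mem_of_integral R s)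
      rw [ValuationSubring.mem_nonunits_iff] at hgm ⊢
      rw [map_mul]
      exact mul_lt_one_of_lt_of_le hgm ((ValuationSubring.valuation_le_one_iff _ _).2 hm)
    rw [← mem_centerIn_iff, hv, Ideal.mem_span_singleton] at h2
    exact hr h2

include hg hv in
/-- Places with the same principal prime center on a Noetherian integral model are equal. -/
theorem eq_of_center {w : Place Q P} (hw : w.centerIn R = Ideal.span {g}) : v = w := by
  have key : ∀ v w : Place Q P, v.centerIn R = Ideal.span {g} → w.centerIn R = Ideal.span {g} →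
      v.V ≤ w.V := by
    intro v w hv hw x hx
    obtain ⟨r, s, hs, rfl⟩ := v.exists_frac_of_mem hg hv hx
    have hsu := w.isUnit_ofModel (w.notMem_centerIn hw hs)
    obtain ⟨t, ht⟩ := hsu
    have h1 : (algebraMap R (kappa Q) s)⁻¹ = ((t⁻¹ : w.Vˣ) : w.V) := by
      have h2 : ((t : w.V) : kappa Q) = algebraMap R (kappa Q) s := by rw [ht]; rfl
      have h3 : ((t : w.V) : kappa Q) * (((t⁻¹ : w.Vˣ) : w.V) : kappa Q) = 1 := by
        rw [← MulMemClass.coe_mul, Units.mul_inv]
        rfl
      rw [← h2]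
      exact inv_eq_of_mul_eq_one_right h3
    rw [div_eq_mul_inv, h1]
    exact mul_mem (w.mem_of_integral R r) ((t⁻¹ : w.Vˣ) : w.V).2
  have h := le_antisymm (key v w hv hw) (key w v hw hv)
  cases v
  cases w
  simp only at h
  subst h
  rfl

end center

end Place

section ofPrime

variable {R K : Type*} [CommRing R] [IsDomain R] [IsNoetherianRing R] [Field K]
    [Algebra R K] [IsFractionRing R K] {g : R} (hg : Prime g)

/-- The valuation subring attached to a principal prime ideal. -/
def primeSubring : ValuationSubring K where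
  carrier := {x | ∃ r s : R, ¬ g ∣ s ∧ x = algebraMap R K r / algebraMap R K s}
  mul_mem' := by
    rintro _ _ ⟨r, s, hs, rfl⟩ ⟨r', s', hs', rfl⟩
    refine ⟨r * r', s * s', fun h => ?_, ?_⟩
    · rcases hg.dvd_or_dvd h with h | h
      exacts [hs h, hs' h]
    · rw [map_mul, map_mul, div_mul_div_comm]
  one_mem' := ⟨1, 1, fun h => hg.not_isUnit (isUnit_of_dvd_one h), by simp⟩
  add_mem' := by
    rintro _ _ ⟨r, s, hs, rfl⟩ ⟨r', s', hs', rfl⟩
    have h1 : algebraMap R K s ≠ 0 := by
      rw [Ne, IsFractionRing.to_map_eq_zero_iff]; rintro rfl; exact hs (dvd_zero g)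
    have h2 : algebraMap R K s' ≠ 0 := by
      rw [Ne, IsFractionRing.to_map_eq_zero_iff]; rintro rfl; exact hs' (dvd_zero g)
    refine ⟨r * s' + s * r', s * s', fun h => ?_, ?_⟩
    · rcases hg.dvd_or_dvd h with h | h
      exacts [hs h, hs' h]
    · rw [map_add, map_mul, map_mul, map_mul, div_add_div _ _ h1 h2]
  zero_mem' := ⟨0, 1, fun h => hg.not_isUnit (isUnit_of_dvd_one h), by simp⟩
  neg_mem' := by
    rintro _ ⟨r, s, hs, rfl⟩
    exact ⟨-r, s, hs, by rw [map_neg, neg_div]⟩
  mem_or_inv_mem' := by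
    intro x
    by_cases hx0 : x = 0
    · left
      exact ⟨0, 1, fun h => hg.not_isUnit (isUnit_of_dvd_one h), by simp [hx0]⟩
    obtain ⟨n, r, s, hr, hs, h⟩ := exists_factor (K := K) hg hx0
    rcases le_total 0 n with hn | hn
    · left
      obtain ⟨m, rfl⟩ := Int.eq_ofNat_of_zero_le hn
      refine ⟨g ^ m * r, s, hs, ?_⟩
      rw [h, map_mul, map_pow]
      simp only [zpow_natCast]
      rw [mul_div_assoc]
    · right
      obtain ⟨m, rfl⟩ : ∃ m : ℕ, n = -(m : ℤ) := ⟨(-n).toNat, by omega⟩
      refine ⟨g ^ m * s, r, hr, ?_⟩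
      rw [h, map_mul, map_pow, mul_inv, zpow_neg, inv_inv, zpow_natCast, inv_div, mul_div_assoc]

theorem algebraMap_mem_primeSubring (r : R) : algebraMap R K r ∈ primeSubring (K := K) hg :=
  ⟨r, 1, fun h => hg.not_isUnit (isUnit_of_dvd_one h), by simp⟩

theorem isUnit_primeSubring {r : R} (hr : ¬ g ∣ r) :
    IsUnit (⟨algebraMap R K r, algebraMap_mem_primeSubring hg r⟩ : primeSubring (K := K) hg) := by
  have h1 : algebraMap R K r ≠ 0 := by
      rw [Ne, IsFractionRing.to_map_eq_zero_iff]; rintro rfl; exact hr (dvd_zero g)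
  refine IsUnit.of_mul_eq_one ⟨(algebraMap R K r)⁻¹, ⟨1, r, hr, by simp⟩⟩ ?_
  ext
  exact mul_inv_cancel₀ h1

/-- The prime element as an element of the valuation ring. -/
def primeElt : primeSubring (K := K) hg := ⟨algebraMap R K g, algebraMap_mem_primeSubring hg g⟩

theorem primeElt_not_isUnit : ¬ IsUnit (primeElt (K := K) hg) := by
  rintro ⟨t, ht⟩
  have h3 : ((t : primeSubring (K := K) hg) : K) *
      (((t⁻¹ : (primeSubring (K := K) hg)ˣ) : primeSubring (K := K) hg) : K) = 1 := by
    rw [← MulMemClass.coe_mul, Units.mul_inv]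
    rfl
  obtain ⟨r, s, hs, hrs⟩ := ((t⁻¹ : (primeSubring (K := K) hg)ˣ) : primeSubring (K := K) hg).2
  rw [hrs, ht] at h3
  have h1 : algebraMap R K s ≠ 0 := by
      rw [Ne, IsFractionRing.to_map_eq_zero_iff]; rintro rfl; exact hs (dvd_zero g)
  have h4 : algebraMap R K g * algebraMap R K r = algebraMap R K s := by
    have : (primeElt (K := K) hg : K) = algebraMap R K g := rfl
    rw [this] at h3
    field_simp at h3
    exact h3
  rw [← map_mul] at h4
  exact hs ⟨r, (IsFractionRing.injective R K h4).symm⟩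

theorem primeSubring_associated {x : primeSubring (K := K) hg} (hx : x ≠ 0) :
    ∃ n : ℕ, Associated (primeElt (K := K) hg ^ n) x := by
  obtain ⟨x, r, s, hs, rfl⟩ := x
  have h1 : algebraMap R K s ≠ 0 := by
    rw [Ne, IsFractionRing.to_map_eq_zero_iff]; rintro rfl; exact hs (dvd_zero g)
  have hr0 : r ≠ 0 := by
    rintro rfl
    apply hx
    ext
    simp
  obtain ⟨n, r', hr', h⟩ := WfDvdMonoid.max_power_factor hr0 hg.irreducible
  refine ⟨n, ?_⟩
  obtain ⟨t, ht⟩ := isUnit_primeSubring (K := K) hg hr'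
  obtain ⟨w, hw⟩ := isUnit_primeSubring (K := K) hg hs
  refine ⟨t * w⁻¹, ?_⟩
  have h2 : (⟨algebraMap R K r / algebraMap R K s, r, s, hs, rfl⟩ : primeSubring (K := K) hg) *
      (w : primeSubring (K := K) hg) = primeElt (K := K) hg ^ n * (t : primeSubring (K := K) hg) := by
    ext
    rw [MulMemClass.coe_mul, MulMemClass.coe_mul, SubmonoidClass.coe_pow, hw, ht]
    change algebraMap R K r / algebraMap R K s * algebraMap R K s =
      algebraMap R K g ^ n * algebraMap R K r'
    rw [div_mul_cancel₀ _ h1, h, map_mul, map_pow]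
  rw [Units.val_mul, ← mul_assoc, ← h2, mul_assoc, Units.mul_inv, mul_one]

theorem primeElt_ne_zero : primeElt (K := K) hg ≠ 0 := by
  intro h
  have h1 : (primeElt (K := K) hg : K) = 0 := by rw [h]; rfl
  have h2 : algebraMap R K g = 0 := h1
  rw [IsFractionRing.to_map_eq_zero_iff] at h2
  exact hg.ne_zero h2

theorem primeElt_dvd {x : primeSubring (K := K) hg} (hx : ¬ IsUnit x) :
    primeElt (K := K) hg ∣ x := by
  by_cases hx0 : x = 0
  · rw [hx0]; exact dvd_zero _
  obtain ⟨n, hn⟩ := primeSubring_associated hg hx0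
  rcases Nat.eq_zero_or_pos n with h0 | h0
  · exfalso
    rw [h0, pow_zero] at hn
    exact hx (associated_one_iff_isUnit.1 hn.symm)
  · exact (dvd_pow_self _ h0.ne').trans hn.dvd

theorem primeElt_irreducible : Irreducible (primeElt (K := K) hg) := by
  refine ⟨primeElt_not_isUnit hg, fun {a b} hab => ?_⟩
  by_contra hcon
  rw [not_or] at hcon
  obtain ⟨a', ha'⟩ := primeElt_dvd hg hcon.1
  obtain ⟨b', hb'⟩ := primeElt_dvd hg hcon.2
  have h1 : primeElt (K := K) hg * (a' * (primeElt (K := K) hg * b')) =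
      primeElt (K := K) hg * 1 := by
    rw [mul_one]
    conv_rhs => rw [hab, ha', hb']
    ring
  have h2 := mul_left_cancel₀ (primeElt_ne_zero hg) h1
  have h3 : primeElt (K := K) hg * (a' * b') = 1 := by
    rw [← h2]; ring
  exact primeElt_not_isUnit hg (IsUnit.of_mul_eq_one _ h3)

theorem isDiscreteValuationRing_primeSubring :
    IsDiscreteValuationRing (primeSubring (K := K) hg) :=
  IsDiscreteValuationRing.ofHasUnitMulPowIrreducibleFactorization
    ⟨primeElt (K := K) hg, primeElt_irreducible hg, fun {_} hx => primeSubring_associated hg hx⟩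

theorem mem_nonunits_primeSubring_iff (r : R) :
    algebraMap R K r ∈ (primeSubring (K := K) hg).nonunits ↔ g ∣ r := by
  have h := ValuationSubring.coe_mem_nonunits_iff (A := primeSubring (K := K) hg)
    (a := ⟨algebraMap R K r, algebraMap_mem_primeSubring hg r⟩)
  change algebraMap R K r ∈ (primeSubring (K := K) hg).nonunits ↔ _ at h
  rw [h, IsLocalRing.mem_maximalIdeal, mem_nonunits_iff]
  constructor
  · intro h1
    by_contra h2
    exact h1 (isUnit_primeSubring hg h2)
  · rintro ⟨c, rfl⟩ h2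
    have h3 : (⟨algebraMap R K (g * c), algebraMap_mem_primeSubring hg (g * c)⟩ :
        primeSubring (K := K) hg) = primeElt (K := K) hg *
          ⟨algebraMap R K c, algebraMap_mem_primeSubring hg c⟩ := by
      ext
      exact map_mul _ _ _
    rw [h3] at h2
    exact primeElt_not_isUnit hg (isUnit_of_mul_isUnit_left h2)

end ofPrime

section exists_place

variable (Q P : PrimeSpectrum A)
variable {R : Type u} [CommRing R] [IsDomain R] [IsNoetherianRing R] [Algebra A R]
  [Algebra R (kappa Q)] [IsScalarTower A R (kappa Q)] [IsFractionRing R (kappa Q)]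
  {g : R} (hg : Prime g) (hP : (Ideal.span {g}).comap (algebraMap A R) = P.asIdeal)

/-- The place attached to a principal prime ideal of a Noetherian model over `P`. -/
def placeOf : Place Q P where
  V := primeSubring hg
  dvr := isDiscreteValuationRing_primeSubring hg
  mem x := by
    rw [IsScalarTower.algebraMap_apply A R (kappa Q)]
    exact algebraMap_mem_primeSubring hg _
  center x := by
    rw [IsScalarTower.algebraMap_apply A R (kappa Q), mem_nonunits_primeSubring_iff hg, ← hP,
      Ideal.mem_comap, Ideal.mem_span_singleton]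

theorem centerIn_placeOf [Algebra.IsIntegral A R] :
    (placeOf Q P hg hP).centerIn R = Ideal.span {g} := by
  ext x
  rw [Place.mem_centerIn_iff, Ideal.mem_span_singleton]
  exact mem_nonunits_primeSubring_iff hg x

theorem val_placeOf_self : (placeOf Q P hg hP).val (algebraMap R (kappa Q) g) = 1 :=
  (placeOf Q P hg hP).val_of_irreducible (x := primeElt hg) (primeElt_irreducible hg)

end exists_place

end Vale.Agent.P178
end
end
end

section

section

universe u

noncomputable section

namespace Vale.Agent.P178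

variable {A : Type u} [CommRing A]

namespace Place

variable {Q P : PrimeSpectrum A} (v : Place Q P)

theorem resMap_algebraMap (a : A) :
    v.resMap (algebraMap A (kappa P) a) = IsLocalRing.residue v.V (v.toV a) := by
  rw [IsScalarTower.algebraMap_apply A (A ⧸ P.asIdeal) (kappa P)]
  rw [resMap, IsFractionRing.lift_algebraMap]
  rfl

variable {R : Type u} [CommRing R] [IsDomain R] [Algebra A R] [Algebra.IsIntegral A R]
  [Algebra R (kappa Q)] [IsScalarTower A R (kappa Q)] [IsFractionRing R (kappa Q)]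
  [IsNoetherianRing R]

section residue

variable {g : R} (hg : Prime g) (hv : v.centerIn R = Ideal.span {g})
variable {F : Type u} [Field F] [Algebra (kappa P) F] (ψ : R →+* F)
  (hA : ∀ a : A, ψ (algebraMap A R a) = algebraMap (kappa P) F (algebraMap A (kappa P) a))
  (hker : RingHom.ker ψ = Ideal.span {g})
  (hfrac : ∀ y : F, ∃ r s : R, ψ s ≠ 0 ∧ y = ψ r / ψ s)

include hg hv hA hker hfrac in
theorem exists_residue_equiv :
    ∃ e : F →+* IsLocalRing.ResidueField v.V, Function.Bijective e ∧
      (∀ x : R, e (ψ x) = IsLocalRing.residue v.V (v.ofModel R x)) ∧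
      e.comp (algebraMap (kappa P) F) = v.resMap := by
  have hkc : RingHom.ker ψ = v.centerIn R := hker.trans hv.symm
  let ψ' : R ⧸ v.centerIn R →+* F :=
    Ideal.Quotient.lift (v.centerIn R) ψ (fun x hx => by
      rw [← hkc, RingHom.mem_ker] at hx; exact hx)
  have hψ' : Function.Injective ψ' := by
    rw [injective_iff_map_eq_zero]
    intro a ha
    obtain ⟨x, rfl⟩ := Ideal.Quotient.mk_surjective a
    rw [Ideal.Quotient.eq_zero_iff_mem, ← hkc, RingHom.mem_ker]
    exact ha
  let _ : Algebra (R ⧸ v.centerIn R) F := ψ'.toAlgebra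
  have : FaithfulSMul (R ⧸ v.centerIn R) F := (faithfulSMul_iff_algebraMap_injective _ _).2 hψ'
  have : IsFractionRing (R ⧸ v.centerIn R) F := IsFractionRing.of_field _ _ (by
    intro z
    obtain ⟨r, s, hs, hz⟩ := hfrac z
    exact ⟨Ideal.Quotient.mk _ r, Ideal.Quotient.mk _ s, hz⟩)
  let θ : R ⧸ v.centerIn R →+* IsLocalRing.ResidueField v.V :=
    Ideal.Quotient.lift (v.centerIn R) ((IsLocalRing.residue v.V).comp (v.ofModel R))
      (fun x hx => by
        rw [RingHom.comp_apply, IsLocalRing.residue_eq_zero_iff]; exact hx)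
  have hθ : Function.Injective θ := by
    rw [injective_iff_map_eq_zero]
    intro a ha
    obtain ⟨x, rfl⟩ := Ideal.Quotient.mk_surjective a
    rw [Ideal.Quotient.eq_zero_iff_mem]
    have h1 : IsLocalRing.residue v.V (v.ofModel R x) = 0 := ha
    rw [IsLocalRing.residue_eq_zero_iff] at h1
    exact h1
  let e : F →+* IsLocalRing.ResidueField v.V := IsFractionRing.lift hθ
  have he : ∀ x : R, e (ψ x) = IsLocalRing.residue v.V (v.ofModel R x) := by
    intro x
    exact IsFractionRing.lift_algebraMap hθ (Ideal.Quotient.mk _ x)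
  refine ⟨e, ⟨e.injective, ?_⟩, he, ?_⟩
  · intro y
    obtain ⟨y, rfl⟩ := IsLocalRing.residue_surjective y
    obtain ⟨r, s, hs, hy⟩ := v.exists_frac_of_mem (R := R) hg hv y.2
    have hsc : s ∉ v.centerIn R := v.notMem_centerIn hv hs
    have hsu := v.isUnit_ofModel hsc
    have hψs : ψ s ≠ 0 := by
      intro h
      apply hsc
      rw [← hkc, RingHom.mem_ker, h]
    refine ⟨ψ r / ψ s, ?_⟩
    rw [map_div₀, he, he]
    have h0 : IsLocalRing.residue v.V (v.ofModel R s) ≠ 0 := by
      rw [Ne, IsLocalRing.residue_eq_zero_iff]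
      exact hsc
    rw [div_eq_iff h0, ← map_mul]
    congr 1
    ext
    rw [MulMemClass.coe_mul, coe_ofModel, coe_ofModel, hy]
    rw [div_mul_cancel₀]
    exact algebraMap_ne_zero hs
  · apply IsFractionRing.ringHom_ext (A := A ⧸ P.asIdeal)
    intro a
    obtain ⟨a, rfl⟩ := Ideal.Quotient.mk_surjective a
    have h1 : algebraMap (A ⧸ P.asIdeal) (kappa P) (Ideal.Quotient.mk _ a) =
      algebraMap A (kappa P) a := rfl
    rw [h1, resMap_algebraMap, RingHom.comp_apply, ← hA, he]
    congr 1
    ext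
    rw [coe_ofModel, ← IsScalarTower.algebraMap_apply]
    rfl

include hg hv hA hker hfrac in
theorem norm_residue (x : R) :
    v.norm (IsLocalRing.residue v.V (v.ofModel R x)) = Algebra.norm (kappa P) (ψ x) := by
  obtain ⟨e, he, hx, hc⟩ := v.exists_residue_equiv hg hv ψ hA hker hfrac
  let _ : Algebra (kappa P) (IsLocalRing.ResidueField v.V) := v.resMap.toAlgebra
  let e' : F ≃ₐ[kappa P] IsLocalRing.ResidueField v.V :=
    AlgEquiv.ofRingEquiv (f := RingEquiv.ofBijective e he) (fun a => by
      change (e.comp (algebraMap (kappa P) F)) a = _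
      rw [hc]
      rfl)
  have h := Algebra.norm_eq_of_algEquiv e' (ψ x)
  rw [← h]
  change Algebra.norm (kappa P) (IsLocalRing.residue v.V (v.ofModel R x)) =
    Algebra.norm (kappa P) (e (ψ x))
  rw [hx]

include hg hv hA hker hfrac in
theorem deg_eq : v.deg = Module.finrank (kappa P) F := by
  obtain ⟨e, he, hx, hc⟩ := v.exists_residue_equiv hg hv ψ hA hker hfrac
  let _ : Algebra (kappa P) (IsLocalRing.ResidueField v.V) := v.resMap.toAlgebra
  let e' : F ≃ₐ[kappa P] IsLocalRing.ResidueField v.V :=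
    AlgEquiv.ofRingEquiv (f := RingEquiv.ofBijective e he) (fun a => by
      change (e.comp (algebraMap (kappa P) F)) a = _
      rw [hc]
      rfl)
  exact (LinearEquiv.finrank_eq e'.toLinearEquiv).symm

end residue

end Place

end Vale.Agent.P178
end
end
end

section

section

universe u

noncomputable section

namespace Vale.Agent.P178

variable {A : Type u} [CommRing A]

/-- Incomparability of primes over the same prime in an integral extension. -/
theorem eq_of_le_of_comap_eq {R : Type*} [CommRing R] [Algebra A R] [Algebra.IsIntegral A R]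
    {q q' : Ideal R} [q.IsPrime] (hle : q ≤ q')
    (h : q.comap (algebraMap A R) = q'.comap (algebraMap A R)) : q = q' := by
  refine le_antisymm hle fun x hx => ?_
  by_contra hxq
  have := Ideal.comap_lt_comap_of_integral_mem_sdiff hle ⟨hx, hxq⟩
    (Algebra.IsIntegral.isIntegral (R := A) x)
  exact this.ne h

namespace Place

variable {Q P : PrimeSpectrum A} (v : Place Q P)

theorem norm_mul (x y : IsLocalRing.ResidueField v.V) :
    v.norm (x * y) = v.norm x * v.norm y := by
  let _ := v.resMap.toAlgebra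
  exact map_mul (Algebra.norm (kappa P)) x y

theorem norm_inv {x : IsLocalRing.ResidueField v.V} (hx : x ≠ 0) :
    v.norm x⁻¹ = (v.norm x)⁻¹ := by
  have h : v.norm x * v.norm x⁻¹ = 1 := by
    rw [← norm_mul, mul_inv_cancel₀ hx, norm_one]
  exact (inv_eq_of_mul_eq_one_right h).symm

variable {R : Type u} [CommRing R] [IsDomain R] [Algebra A R] [Algebra.IsIntegral A R]
  [Algebra R (kappa Q)] [IsScalarTower A R (kappa Q)] [IsFractionRing R (kappa Q)]

omit [IsDomain R] [IsFractionRing R (kappa Q)] in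
theorem res_algebraMap (x : R) :
    v.res (algebraMap R (kappa Q) x) = IsLocalRing.residue v.V (v.ofModel R x) :=
  v.res_of_mem (v.mem_of_integral R x)

omit [IsDomain R] [IsFractionRing R (kappa Q)] in
theorem residue_ne_zero {x : R} (hx : x ∉ v.centerIn R) :
    IsLocalRing.residue v.V (v.ofModel R x) ≠ 0 := by
  rw [Ne, IsLocalRing.residue_eq_zero_iff]
  exact hx

omit [IsDomain R] [IsFractionRing R (kappa Q)] in
theorem res_algebraMap_inv {x : R} (hx : x ∉ v.centerIn R) :
    v.res (algebraMap R (kappa Q) x)⁻¹ = (IsLocalRing.residue v.V (v.ofModel R x))⁻¹ := by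
  obtain ⟨t, ht⟩ := v.isUnit_ofModel hx
  have h3 : ((t : v.V) : kappa Q) * (((t⁻¹ : v.Vˣ) : v.V) : kappa Q) = 1 := by
    rw [← MulMemClass.coe_mul, Units.mul_inv]
    rfl
  have h4 : (algebraMap R (kappa Q) x)⁻¹ = (((t⁻¹ : v.Vˣ) : v.V) : kappa Q) := by
    rw [← coe_ofModel, ← ht]
    exact inv_eq_of_mul_eq_one_right h3
  rw [h4, v.res_of_mem ((t⁻¹ : v.Vˣ) : v.V).2, ← ht]
  refine (eq_inv_of_mul_eq_one_right ?_)
  rw [← map_mul]
  change IsLocalRing.residue v.V ((t : v.V) * ((t⁻¹ : v.Vˣ) : v.V)) = 1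
  rw [Units.mul_inv, map_one]

omit [IsDomain R] [IsFractionRing R (kappa Q)] in
theorem tame_left {g b : R} (hg : v.val (algebraMap R (kappa Q) g) = 1)
    (hb : b ∉ v.centerIn R) :
    v.tame (algebraMap R (kappa Q) g) (algebraMap R (kappa Q) b) =
      (IsLocalRing.residue v.V (v.ofModel R b))⁻¹ := by
  rw [tame, hg, v.val_of_notMem hb, ← v.res_algebraMap_inv hb]
  congr 1
  simp

omit [IsDomain R] [IsFractionRing R (kappa Q)] in
theorem tame_right {g b : R} (hg : v.val (algebraMap R (kappa Q) g) = 1)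
    (hb : b ∉ v.centerIn R) :
    v.tame (algebraMap R (kappa Q) b) (algebraMap R (kappa Q) g) =
      IsLocalRing.residue v.V (v.ofModel R b) := by
  rw [tame, hg, v.val_of_notMem hb, ← v.res_algebraMap]
  congr 1
  simp

end Place

section boundary

variable (Q P : PrimeSpectrum A)
variable {R : Type u} [CommRing R] [IsDomain R] [Algebra A R] [Algebra.IsIntegral A R]
  [Algebra R (kappa Q)] [IsScalarTower A R (kappa Q)] [IsFractionRing R (kappa Q)]

omit [IsDomain R] [IsFractionRing R (kappa Q)] in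
/-- No contribution if both entries are units at all primes over `P`. -/
theorem bd₂_eq_one {a b : R}
    (ha : ∀ q : Ideal R, q.IsPrime → q.comap (algebraMap A R) = P.asIdeal → a ∉ q)
    (hb : ∀ q : Ideal R, q.IsPrime → q.comap (algebraMap A R) = P.asIdeal → b ∉ q) :
    bd₂ Q P (algebraMap R (kappa Q) a) (algebraMap R (kappa Q) b) = 1 := by
  rw [bd₂]
  rw [finprod_congr (g := fun _ => 1), finprod_one]
  intro v
  rw [v.tame_of_units, v.norm_one]
  · exact v.val_of_notMem (ha _ inferInstance (v.comap_centerIn R))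
  · exact v.val_of_notMem (hb _ inferInstance (v.comap_centerIn R))

omit [IsDomain R] [IsFractionRing R (kappa Q)] in
theorem bd₁_eq_zero {a : R}
    (ha : ∀ q : Ideal R, q.IsPrime → q.comap (algebraMap A R) = P.asIdeal → a ∉ q) :
    bd₁ Q P (algebraMap R (kappa Q) a) = 0 := by
  rw [bd₁]
  rw [finsum_congr (g := fun _ => 0), finsum_zero]
  intro v
  rw [v.val_of_notMem (ha _ inferInstance (v.comap_centerIn R)), zero_mul]

variable [IsNoetherianRing R] {g : R} (hg : Prime g)
  (hP : (Ideal.span {g}).comap (algebraMap A R) = P.asIdeal)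
  {F : Type u} [Field F] [Algebra (kappa P) F] (ψ : R →+* F)
  (hA : ∀ a : A, ψ (algebraMap A R a) = algebraMap (kappa P) F (algebraMap A (kappa P) a))
  (hker : RingHom.ker ψ = Ideal.span {g})
  (hfrac : ∀ y : F, ∃ r s : R, ψ s ≠ 0 ∧ y = ψ r / ψ s)

omit [IsNoetherianRing R] [IsDomain R] [IsFractionRing R (kappa Q)] in
include hg hP in
theorem notMem_center_of_ne {v : Place Q P} (hv : v.centerIn R ≠ Ideal.span {g}) :
    g ∉ v.centerIn R := by
  intro h
  apply hv
  have h1 : Ideal.span {g} ≤ v.centerIn R := by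
    rw [Ideal.span_singleton_le_iff_mem]; exact h
  have h2 : (Ideal.span {g}).IsPrime := (Ideal.span_singleton_prime hg.ne_zero).2 hg
  exact (eq_of_le_of_comap_eq (A := A) h1 (by rw [hP, v.comap_centerIn])).symm

include hg hP hA hker hfrac in
theorem bd₂_left {b : R}
    (hb : ∀ q : Ideal R, q.IsPrime → q.comap (algebraMap A R) = P.asIdeal → b ∉ q) :
    bd₂ Q P (algebraMap R (kappa Q) g) (algebraMap R (kappa Q) b) =
      (Algebra.norm (kappa P) (ψ b))⁻¹ := by
  rw [bd₂, finprod_eq_single _ (placeOf Q P hg hP)]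
  · have hb' := hb _ inferInstance ((placeOf Q P hg hP).comap_centerIn R)
    rw [(placeOf Q P hg hP).tame_left (val_placeOf_self Q P hg hP) hb',
      Place.norm_inv _ (Place.residue_ne_zero _ hb'),
      Place.norm_residue _ hg (centerIn_placeOf Q P hg hP) ψ hA hker hfrac]
  · intro v hv
    have hv' : v.centerIn R ≠ Ideal.span {g} := fun h =>
      hv (v.eq_of_center hg h (centerIn_placeOf Q P hg hP))
    rw [v.tame_of_units, v.norm_one]
    · exact v.val_of_notMem (notMem_center_of_ne Q P hg hP hv')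
    · exact v.val_of_notMem (hb _ inferInstance (v.comap_centerIn R))

include hg hP hA hker hfrac in
theorem bd₂_right {b : R}
    (hb : ∀ q : Ideal R, q.IsPrime → q.comap (algebraMap A R) = P.asIdeal → b ∉ q) :
    bd₂ Q P (algebraMap R (kappa Q) b) (algebraMap R (kappa Q) g) =
      Algebra.norm (kappa P) (ψ b) := by
  rw [bd₂, finprod_eq_single _ (placeOf Q P hg hP)]
  · have hb' := hb _ inferInstance ((placeOf Q P hg hP).comap_centerIn R)
    rw [(placeOf Q P hg hP).tame_right (val_placeOf_self Q P hg hP) hb',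
      Place.norm_residue _ hg (centerIn_placeOf Q P hg hP) ψ hA hker hfrac]
  · intro v hv
    have hv' : v.centerIn R ≠ Ideal.span {g} := fun h =>
      hv (v.eq_of_center hg h (centerIn_placeOf Q P hg hP))
    rw [v.tame_of_units, v.norm_one]
    · exact v.val_of_notMem (hb _ inferInstance (v.comap_centerIn R))
    · exact v.val_of_notMem (notMem_center_of_ne Q P hg hP hv')

include hg hP hA hker hfrac in
theorem bd₁_prime :
    bd₁ Q P (algebraMap R (kappa Q) g) = Module.finrank (kappa P) F := by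
  rw [bd₁, finsum_eq_single _ (placeOf Q P hg hP)]
  · rw [val_placeOf_self Q P hg hP, one_mul,
      Place.deg_eq _ hg (centerIn_placeOf Q P hg hP) ψ hA hker hfrac]
  · intro v hv
    have hv' : v.centerIn R ≠ Ideal.span {g} := fun h =>
      hv (v.eq_of_center hg h (centerIn_placeOf Q P hg hP))
    rw [v.val_of_notMem (notMem_center_of_ne Q P hg hP hv'), zero_mul]

end boundary

end Vale.Agent.P178
end
end
end

section

section

universe u

noncomputable section

namespace Vale.Agent.P178

variable {A : Type u} [CommRing A]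

/-- The normalization of `A / P`. -/
abbrev Nrm (P : PrimeSpectrum A) : Type u := integralClosure (A ⧸ P.asIdeal) (kappa P)

instance isFractionRing_nrm (P : PrimeSpectrum A) : IsFractionRing (Nrm P) (kappa P) :=
  integralClosure.isFractionRing_of_finite_extension (kappa P) (kappa P)

instance isIntegrallyClosed_nrm (P : PrimeSpectrum A) : IsIntegrallyClosed (Nrm P) :=
  integralClosure.isIntegrallyClosedOfFiniteExtension (kappa P)

instance isIntegral_nrm (P : PrimeSpectrum A) : Algebra.IsIntegral A (Nrm P) := by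
  have : Algebra.IsIntegral A (A ⧸ P.asIdeal) := inferInstance
  exact Algebra.IsIntegral.trans (A ⧸ P.asIdeal)

theorem finite_nrm (P : PrimeSpectrum A) [Module.Finite (A ⧸ P.asIdeal) (Nrm P)] :
    Module.Finite A (Nrm P) :=
  Module.Finite.trans (A ⧸ P.asIdeal) (Nrm P)

section integral

variable [IsLocalRing A] {R : Type*} [CommRing R] [Algebra A R] [Algebra.IsIntegral A R]

theorem comap_eq_maximalIdeal (M : Ideal R) [M.IsMaximal] :
    M.comap (algebraMap A R) = IsLocalRing.maximalIdeal A :=
  IsLocalRing.eq_maximalIdeal (Ideal.isMaximal_comap_of_isIntegral_of_isMaximal M)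

theorem isMaximal_of_comap_eq (M : Ideal R) [M.IsPrime]
    (h : M.comap (algebraMap A R) = IsLocalRing.maximalIdeal A) : M.IsMaximal :=
  Ideal.isMaximal_of_isIntegral_of_isMaximal_comap M (by rw [h]; infer_instance)

end integral

theorem finite_maximalIdeals [IsLocalRing A] (R : Type*) [CommRing R]
    [Algebra A R] [Module.Finite A R] : {M : Ideal R | M.IsMaximal}.Finite := by
  have h := Algebra.QuasiFinite.finite_primesOver (S := R) (IsLocalRing.maximalIdeal A)
  refine h.subset fun M hM => ?_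
  have hM' : M.IsMaximal := hM
  exact ⟨hM'.isPrime, ⟨(comap_eq_maximalIdeal (A := A) M).symm⟩⟩

/-- `P` is a prime of coheight one in the local ring `A`. -/
structure IsCurve [IsLocalRing A] (P : PrimeSpectrum A) : Prop where
  ne : P.asIdeal ≠ IsLocalRing.maximalIdeal A
  eq : ∀ q : Ideal A, q.IsPrime → P.asIdeal < q → q = IsLocalRing.maximalIdeal A

theorem comap_bot_nrm (P : PrimeSpectrum A) :
    (⊥ : Ideal (Nrm P)).comap (algebraMap A (Nrm P)) = P.asIdeal := by
  ext x
  have h1 : algebraMap A (Nrm P) x = 0 ↔ algebraMap A (kappa P) x = 0 := by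
    rw [IsScalarTower.algebraMap_apply A (Nrm P) (kappa P)]
    exact (IsFractionRing.to_map_eq_zero_iff (R := Nrm P) (K := kappa P)).symm
  rw [Ideal.mem_comap, Ideal.mem_bot, h1,
    IsScalarTower.algebraMap_apply A (A ⧸ P.asIdeal) (kappa P),
    IsFractionRing.to_map_eq_zero_iff]
  exact Ideal.Quotient.eq_zero_iff_mem

section curve

variable [IsLocalRing A] [IsNoetherianRing A] {P : PrimeSpectrum A}

omit [IsLocalRing A] in
theorem isNoetherianRing_nrm (P : PrimeSpectrum A)
    [Module.Finite (A ⧸ P.asIdeal) (Nrm P)] : IsNoetherianRing (Nrm P) :=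
  IsNoetherianRing.of_finite (A ⧸ P.asIdeal) (Nrm P)

variable [Module.Finite (A ⧸ P.asIdeal) (Nrm P)]

theorem IsCurve.isDedekindDomain (hP : IsCurve P) : IsDedekindDomain (Nrm P) :=
  { isNoetherianRing_nrm P, isIntegrallyClosed_nrm P with
    maximalOfPrime := by
      intro q hq0 hq
      have h0 := comap_bot_nrm P
      have hlt : P.asIdeal < q.comap (algebraMap A (Nrm P)) := by
        refine lt_of_le_of_ne ?_ ?_
        · exact h0.symm.le.trans (Ideal.comap_mono bot_le)
        · intro h
          apply hq0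
          have := eq_of_le_of_comap_eq (A := A) (q := (⊥ : Ideal (Nrm P))) (q' := q) bot_le
            (h0.trans h)
          exact this.symm
      exact isMaximal_of_comap_eq q (hP.eq _ inferInstance hlt) }

theorem IsCurve.isPrincipalIdealRing (hP : IsCurve P) : IsPrincipalIdealRing (Nrm P) := by
  have := hP.isDedekindDomain
  have := finite_nrm P
  exact IsPrincipalIdealRing.of_finite_maximals (finite_maximalIdeals (A := A) (Nrm P))

omit [IsNoetherianRing A] [Module.Finite (A ⧸ P.asIdeal) (Nrm P)] in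
theorem IsCurve.bot_not_isMaximal (hP : IsCurve P) : ¬ (⊥ : Ideal (Nrm P)).IsMaximal := by
  intro h
  apply hP.ne
  exact (comap_bot_nrm P).symm.trans (comap_eq_maximalIdeal _)

end curve

end Vale.Agent.P178
end
end
end

section

section

universe u

noncomputable section

namespace Vale.Agent.P178

variable {A : Type u} [CommRing A]

namespace Place

variable {Q P : PrimeSpectrum A} (v : Place Q P)

theorem val_zpow (a : kappa Q) (n : ℤ) : v.val (a ^ n) = n * v.val a := by
  rw [val_def, val_def, map_zpow₀, WithZero.log_zpow]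
  simp

theorem exists_unit_of_val_eq_zero {x : kappa Q} (hx0 : x ≠ 0) (hx : v.val x = 0) :
    ∃ t : v.Vˣ, ((t : v.V) : kappa Q) = x := by
  have h1 : Ring.ordFrac v.V x = 1 := by
    have h2 : Ring.ordFrac v.V x ≠ 0 := by simpa using hx0
    rw [val_def] at hx
    rw [← WithZero.exp_log h2, hx, WithZero.exp_zero]
  rcases v.V.mem_or_inv_mem x with h | h
  · have h3 := (Ring.isUnit_iff_ordFrac_one_of_isDiscreteValuationRing (R := v.V)
      (K := kappa Q) (x := ⟨x, h⟩)).2 h1
    exact ⟨h3.unit, rfl⟩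
  · have h4 : Ring.ordFrac v.V x⁻¹ = 1 := by rw [map_inv₀, h1, inv_one]
    have h3 := (Ring.isUnit_iff_ordFrac_one_of_isDiscreteValuationRing (R := v.V)
      (K := kappa Q) (x := ⟨x⁻¹, h⟩)).2 h4
    refine ⟨h3.unit⁻¹, ?_⟩
    have h5 : ((h3.unit : v.V) : kappa Q) * ((h3.unit⁻¹ : v.Vˣ) : v.V) = 1 := by
      rw [← MulMemClass.coe_mul, Units.mul_inv]
      rfl
    have h6 : ((h3.unit : v.V) : kappa Q) = x⁻¹ := rfl
    rw [h6] at h5
    exact (eq_inv_of_mul_eq_one_right h5).trans (inv_inv x)

theorem res_inv {x : kappa Q} (hx0 : x ≠ 0) (hx : v.val x = 0) :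
    v.res x⁻¹ = (v.res x)⁻¹ := by
  obtain ⟨t, rfl⟩ := v.exists_unit_of_val_eq_zero hx0 hx
  have h3 : ((t : v.V) : kappa Q) * (((t⁻¹ : v.Vˣ) : v.V) : kappa Q) = 1 := by
    rw [← MulMemClass.coe_mul, Units.mul_inv]
    rfl
  rw [inv_eq_of_mul_eq_one_right h3, v.res_of_mem ((t⁻¹ : v.Vˣ) : v.V).2,
    v.res_of_mem (t : v.V).2]
  refine (eq_inv_of_mul_eq_one_right ?_)
  rw [← map_mul]
  change IsLocalRing.residue v.V ((t : v.V) * ((t⁻¹ : v.Vˣ) : v.V)) = 1
  rw [Units.mul_inv, map_one]

theorem res_ne_zero {x : kappa Q} (hx0 : x ≠ 0) (hx : v.val x = 0) : v.res x ≠ 0 := by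
  obtain ⟨t, rfl⟩ := v.exists_unit_of_val_eq_zero hx0 hx
  rw [v.res_of_mem (t : v.V).2, Ne, IsLocalRing.residue_eq_zero_iff, IsLocalRing.mem_maximalIdeal,
    mem_nonunits_iff, not_not]
  exact t.isUnit

theorem val_neg_one : v.val (-1) = 0 := by
  have h := v.val_of_isUnit (x := -1) isUnit_one.neg
  have h2 : ((-1 : v.V) : kappa Q) = -1 := rfl
  rw [h2] at h
  exact h

theorem val_tame_arg {a b : kappa Q} (ha : a ≠ 0) (hb : b ≠ 0) :
    v.val ((-1) ^ (v.val a * v.val b) * a ^ v.val b / b ^ v.val a) = 0 := by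
  have h1 : (-1 : kappa Q) ≠ 0 := neg_ne_zero.2 one_ne_zero
  rw [val_div v (mul_ne_zero (zpow_ne_zero _ h1) (zpow_ne_zero _ ha)) (zpow_ne_zero _ hb),
    val_mul v (zpow_ne_zero _ h1) (zpow_ne_zero _ ha), v.val_zpow, v.val_zpow,
    v.val_zpow, val_neg_one]
  ring

theorem tame_inv_left {a b : kappa Q} (ha : a ≠ 0) (hb : b ≠ 0) :
    v.tame a⁻¹ b = (v.tame a b)⁻¹ := by
  have h1 : (-1 : kappa Q) ≠ 0 := neg_ne_zero.2 one_ne_zero
  rw [tame, tame, ← v.res_inv _ (v.val_tame_arg ha hb)]
  · congr 1
    rw [val_inv, inv_div, div_eq_mul_inv, div_eq_mul_inv, mul_inv, neg_mul, zpow_neg, inv_zpow,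
      zpow_neg, inv_inv]
    ring
  · exact div_ne_zero (mul_ne_zero (zpow_ne_zero _ h1) (zpow_ne_zero _ ha)) (zpow_ne_zero _ hb)

end Place

theorem bd₂_inv_left (Q P : PrimeSpectrum A) {a b : kappa Q} (ha : a ≠ 0) (hb : b ≠ 0) :
    bd₂ Q P a⁻¹ b = (bd₂ Q P a b)⁻¹ := by
  rw [bd₂, bd₂, ← finprod_inv_distrib]
  refine finprod_congr fun v => ?_
  rw [v.tame_inv_left ha hb, Place.norm_inv]
  exact v.res_ne_zero (by
    have h1 : (-1 : kappa Q) ≠ 0 := neg_ne_zero.2 one_ne_zero
    exact div_ne_zero (mul_ne_zero (zpow_ne_zero _ h1) (zpow_ne_zero _ ha)) (zpow_ne_zero _ hb))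
    (v.val_tame_arg ha hb)

theorem bd₁_inv (Q P : PrimeSpectrum A) (a : kappa Q) :
    bd₁ Q P a⁻¹ = - bd₁ Q P a := by
  rw [bd₁, bd₁, ← finsum_neg_distrib]
  refine finsum_congr fun v => ?_
  rw [v.val_inv, neg_mul]

theorem bd₁_one (Q P : PrimeSpectrum A) : bd₁ Q P 1 = 0 := by
  rw [bd₁, finsum_congr (g := fun _ => 0), finsum_zero]
  intro v
  rw [v.val_one, zero_mul]

section group

variable (A) (n : ℕ)

/-- Families of elements of the residue fields at the primes of height `n + 1`. -/
abbrev C₁ : Type u := (P : HtPrime A (n + 1)) → (kappa P.1)ˣ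

variable {A n}

/-- The family is a product of boundaries of symbols. -/
def IsBdry (u : C₁ A n) : Prop :=
  ∃ (ι : Type) (_ : Fintype ι) (Q : ι → HtPrime A n) (a b : (i : ι) → (kappa (Q i).1)ˣ),
    ∀ P, (u P : kappa P.1) = ∏ i, bd₂ (Q i).1 P.1 (a i) (b i)

theorem IsBdry.one : IsBdry (1 : C₁ A n) :=
  ⟨Empty, inferInstance, fun i => i.elim, fun i => i.elim, fun i => i.elim, fun P => by simp⟩

theorem IsBdry.mul {u w : C₁ A n} (hu : IsBdry u) (hw : IsBdry w) : IsBdry (u * w) := by
  obtain ⟨ι, _, Q, a, b, h⟩ := hu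
  obtain ⟨ι', _, Q', a', b', h'⟩ := hw
  refine ⟨ι ⊕ ι', inferInstance, Sum.elim Q Q', fun i => ?_, fun i => ?_, fun P => ?_⟩
  · exact match i with
    | Sum.inl i => a i
    | Sum.inr i => a' i
  · exact match i with
    | Sum.inl i => b i
    | Sum.inr i => b' i
  · rw [Fintype.prod_sum_type, Pi.mul_apply, Units.val_mul, h, h']
    rfl

theorem IsBdry.inv {u : C₁ A n} (hu : IsBdry u) : IsBdry u⁻¹ := by
  obtain ⟨ι, _, Q, a, b, h⟩ := hu
  refine ⟨ι, inferInstance, Q, fun i => (a i)⁻¹, b, fun P => ?_⟩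
  rw [Pi.inv_apply, Units.val_inv_eq_inv_val, h, ← Finset.prod_inv_distrib]
  refine Finset.prod_congr rfl fun i _ => ?_
  rw [Units.val_inv_eq_inv_val, bd₂_inv_left _ _ (a i).ne_zero (b i).ne_zero]

theorem IsBdry.of_symbol {u : C₁ A n} (Q : HtPrime A n) (a b : (kappa Q.1)ˣ)
    (h : ∀ P, (u P : kappa P.1) = bd₂ Q.1 P.1 a b) : IsBdry u :=
  ⟨Unit, inferInstance, fun _ => Q, fun _ => a, fun _ => b, fun P => by simp [h]⟩

end group

end Vale.Agent.P178
end
end
end

section

section

universe u

namespace Vale.Agent.P178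

open IsLocalRing

/-- An ideal generated by two elements modulo its square has cotangent space of dimension at
most two. -/
theorem finrank_cotangent_le {C : Type*} [CommRing C] (M : Ideal C) [M.IsMaximal] {a b : C}
    (ha : a ∈ M) (hb : b ∈ M)
    (h : ∀ z ∈ M, ∃ r s : C, z - (r * a + s * b) ∈ M ^ 2) :
    Module.finrank (C ⧸ M) M.Cotangent ≤ 1 + 1 := by
  let _ : Field (C ⧸ M) := Ideal.Quotient.field M
  classical
  let S : Finset M.Cotangent := {M.toCotangent ⟨a, ha⟩, M.toCotangent ⟨b, hb⟩}
  have hS : Submodule.span (C ⧸ M) (S : Set M.Cotangent) = ⊤ := by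
    rw [eq_top_iff]
    rintro z -
    obtain ⟨⟨z, hz⟩, rfl⟩ := M.toCotangent_surjective z
    obtain ⟨r, s, hrs⟩ := h z hz
    have h1 : M.toCotangent ⟨z, hz⟩ =
        (Ideal.Quotient.mk M r) • M.toCotangent ⟨a, ha⟩ +
          (Ideal.Quotient.mk M s) • M.toCotangent ⟨b, hb⟩ := by
      have h2 : M.toCotangent ⟨z, hz⟩ = M.toCotangent (r • ⟨a, ha⟩ + s • ⟨b, hb⟩) := by
        rw [Ideal.toCotangent_eq]
        simpa using hrs
      rw [h2, map_add, map_smul, map_smul]
      rfl
    rw [h1]
    refine add_mem (Submodule.smul_mem _ _ (Submodule.subset_span ?_))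
      (Submodule.smul_mem _ _ (Submodule.subset_span ?_)) <;> simp [S]
  calc Module.finrank (C ⧸ M) M.Cotangent
      = Module.finrank (C ⧸ M) (⊤ : Submodule (C ⧸ M) M.Cotangent) := by rw [finrank_top]
    _ = Module.finrank (C ⧸ M) (Submodule.span (C ⧸ M) (S : Set M.Cotangent)) := by rw [hS]
    _ ≤ S.card := finrank_span_finset_le_card S
    _ ≤ 1 + 1 := Finset.card_le_two

section glue

variable {A : Type u} [CommRing A] [IsNoetherianRing A]
  {B₁ B₂ F : Type u} [CommRing B₁] [CommRing B₂] [CommRing F]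
  [Algebra A B₁] [Algebra A B₂] [Algebra A F]
  (f₁ : B₁ →ₐ[A] F) (f₂ : B₂ →ₐ[A] F)

/-- The fibre product of two algebras. -/
def glue : Subalgebra A (B₁ × B₂) :=
  AlgHom.equalizer (f₁.comp (AlgHom.fst A B₁ B₂)) (f₂.comp (AlgHom.snd A B₁ B₂))

omit [IsNoetherianRing A] in
theorem mem_glue_iff (x : B₁ × B₂) : x ∈ glue f₁ f₂ ↔ f₁ x.1 = f₂ x.2 := Iff.rfl

/-- First projection. -/
def gfst : glue f₁ f₂ →ₐ[A] B₁ := (AlgHom.fst A B₁ B₂).comp (glue f₁ f₂).val

/-- Second projection. -/
def gsnd : glue f₁ f₂ →ₐ[A] B₂ := (AlgHom.snd A B₁ B₂).comp (glue f₁ f₂).val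

omit [IsNoetherianRing A] in
theorem gfst_apply (x : glue f₁ f₂) : gfst f₁ f₂ x = (x : B₁ × B₂).1 := rfl

omit [IsNoetherianRing A] in
theorem gsnd_apply (x : glue f₁ f₂) : gsnd f₁ f₂ x = (x : B₁ × B₂).2 := rfl

instance finite_glue [Module.Finite A B₁] [Module.Finite A B₂] :
    Module.Finite A (glue f₁ f₂) := by
  have : IsNoetherian A (B₁ × B₂) := inferInstance
  exact Module.IsNoetherian.finite A (Subalgebra.toSubmodule (glue f₁ f₂))

omit [IsNoetherianRing A] in
theorem gfst_surjective (h₂ : Function.Surjective f₂) : Function.Surjective (gfst f₁ f₂) := by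
  intro b
  obtain ⟨b', hb'⟩ := h₂ (f₁ b)
  exact ⟨⟨(b, b'), hb'.symm⟩, rfl⟩

omit [IsNoetherianRing A] in
theorem gsnd_surjective (h₁ : Function.Surjective f₁) : Function.Surjective (gsnd f₁ f₂) := by
  intro b
  obtain ⟨b', hb'⟩ := h₁ (f₂ b)
  exact ⟨⟨(b', b), hb'⟩, rfl⟩

omit [IsNoetherianRing A] in
theorem glue_ext {x y : glue f₁ f₂} (h1 : gfst f₁ f₂ x = gfst f₁ f₂ y)
    (h2 : gsnd f₁ f₂ x = gsnd f₁ f₂ y) : x = y :=
  Subtype.ext (Prod.ext h1 h2)

omit [IsNoetherianRing A] in
theorem ker_mul_ker {x y : glue f₁ f₂} (hx : gfst f₁ f₂ x = 0) (hy : gsnd f₁ f₂ y = 0) :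
    x * y = 0 := by
  apply glue_ext
  · rw [map_mul, hx, zero_mul, map_zero]
  · rw [map_mul, hy, mul_zero, map_zero]

section props

variable (h₁ : Function.Surjective f₁) (h₂ : Function.Surjective f₂)

include h₁ in
omit [IsNoetherianRing A] in
theorem ker_gfst_le [IsLocalRing B₂] (hk₂ : RingHom.ker f₂ = maximalIdeal B₂)
    (M : Ideal (glue f₁ f₂)) (hM : M.IsMaximal) : RingHom.ker (gfst f₁ f₂) ≤ M := by
  by_contra hcon
  obtain ⟨y, hy, hyM⟩ := SetLike.not_le_iff_exists.1 hcon
  have hle : RingHom.ker (gsnd f₁ f₂) ≤ M := by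
    intro z hz
    have h0 : y * z = 0 := ker_mul_ker f₁ f₂ hy hz
    have : y * z ∈ M := by rw [h0]; exact zero_mem _
    exact (hM.isPrime.mem_or_mem this).resolve_left hyM
  have hs := gsnd_surjective f₁ f₂ h₁
  have hmax : (M.map (gsnd f₁ f₂)).IsMaximal := by
    rcases Ideal.map_eq_top_or_isMaximal_of_surjective (gsnd f₁ f₂) hs hM with h | h
    · exfalso
      have h3 : (M.map (gsnd f₁ f₂)).comap (gsnd f₁ f₂) = M := by
        rw [Ideal.comap_map_of_surjective _ hs, ← RingHom.ker_eq_comap_bot, sup_eq_left]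
        exact hle
      rw [h, Ideal.comap_top] at h3
      exact hM.ne_top h3.symm
    · exact h
  have h3 : (M.map (gsnd f₁ f₂)).comap (gsnd f₁ f₂) = M := by
    rw [Ideal.comap_map_of_surjective _ hs, ← RingHom.ker_eq_comap_bot, sup_eq_left]
    exact hle
  apply hyM
  rw [← h3, Ideal.mem_comap, eq_maximalIdeal hmax, ← hk₂, RingHom.mem_ker]
  have := (mem_glue_iff f₁ f₂ y).1 y.2
  rw [gsnd_apply, ← this]
  have h5 : gfst f₁ f₂ y = 0 := hy
  rw [gfst_apply] at h5
  rw [h5, map_zero]

include h₁ h₂ in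
omit [IsNoetherianRing A] in
theorem glue_embedding [IsLocalRing B₂] [IsPrincipalIdealRing B₁]
    {x : B₁} {t : B₂} (hk₁ : RingHom.ker f₁ = Ideal.span {x})
    (hk₂ : RingHom.ker f₂ = maximalIdeal B₂) (ht : maximalIdeal B₂ = Ideal.span {t})
    (hx : (Ideal.span {x}).IsMaximal)
    (M : Ideal (glue f₁ f₂)) (hM : M.IsMaximal) :
    Module.finrank (glue f₁ f₂ ⧸ M) M.Cotangent ≤ 1 + 1 := by
  have hle := ker_gfst_le f₁ f₂ h₁ hk₂ M hM
  have hs := gfst_surjective f₁ f₂ h₂
  have h3 : (M.map (gfst f₁ f₂)).comap (gfst f₁ f₂) = M := by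
    rw [Ideal.comap_map_of_surjective _ hs, ← RingHom.ker_eq_comap_bot, sup_eq_left]
    exact hle
  have hmax : (M.map (gfst f₁ f₂)).IsMaximal := by
    rcases Ideal.map_eq_top_or_isMaximal_of_surjective (gfst f₁ f₂) hs hM with h | h
    · exfalso
      rw [h, Ideal.comap_top] at h3
      exact hM.ne_top h3.symm
    · exact h
  have hfx : f₁ x = 0 := by
    rw [← RingHom.mem_ker, hk₁]; exact Ideal.mem_span_singleton_self x
  have hft : f₂ t = 0 := by
    rw [← RingHom.mem_ker, hk₂, ht]; exact Ideal.mem_span_singleton_self t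
  let xh : glue f₁ f₂ := ⟨(x, 0), by rw [mem_glue_iff, hfx, map_zero]⟩
  let th : glue f₁ f₂ := ⟨(0, t), by rw [mem_glue_iff, hft, map_zero]⟩
  by_cases hN : M.map (gfst f₁ f₂) = RingHom.ker f₁
  · have hmem : ∀ z : glue f₁ f₂, z ∈ M ↔ f₁ (gfst f₁ f₂ z) = 0 := by
      intro z
      rw [← RingHom.mem_ker, ← hN, ← Ideal.mem_comap, h3]
    refine finrank_cotangent_le M (a := xh) (b := th) ?_ ?_ ?_
    · rw [hmem]; exact hfx
    · rw [hmem]; exact map_zero f₁
    · intro z hz
      have hz1 := (hmem z).1 hz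
      have hz2 : f₂ (gsnd f₁ f₂ z) = 0 := by
        have := (mem_glue_iff f₁ f₂ z).1 z.2
        rw [gsnd_apply, ← this]
        exact hz1
      rw [← RingHom.mem_ker, hk₁, Ideal.mem_span_singleton'] at hz1
      rw [← RingHom.mem_ker, hk₂, ht, Ideal.mem_span_singleton'] at hz2
      obtain ⟨β, hβ⟩ := hz1
      obtain ⟨β', hβ'⟩ := hz2
      obtain ⟨r, hr⟩ := gfst_surjective f₁ f₂ h₂ β
      obtain ⟨s, hs⟩ := gsnd_surjective f₁ f₂ h₁ β'
      refine ⟨r, s, ?_⟩
      have : z - (r * xh + s * th) = 0 := by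
        rw [sub_eq_zero]
        apply glue_ext
        · rw [map_add, map_mul, map_mul, hr, ← hβ]
          change β * x = β * x + gfst f₁ f₂ s * 0
          ring
        · rw [map_add, map_mul, map_mul, hs, ← hβ']
          change β' * t = gsnd f₁ f₂ r * 0 + β' * t
          ring
      rw [this]
      exact zero_mem _
  · have hsup : M.map (gfst f₁ f₂) ⊔ RingHom.ker f₁ = ⊤ :=
      Ideal.IsMaximal.coprime_of_ne hmax (by rw [hk₁]; exact hx) hN
    obtain ⟨z, hz, w, hw, hzw⟩ := Submodule.mem_sup.1
      ((Ideal.eq_top_iff_one _).1 hsup)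
    have hfz : f₁ z = 1 := by
      have h4 : f₁ (z + w) = 1 := by rw [hzw, map_one]
      rw [map_add, (RingHom.mem_ker).1 hw, add_zero] at h4
      exact h4
    let zh : glue f₁ f₂ := ⟨(z, 1), by rw [mem_glue_iff, hfz, map_one]⟩
    have hzh : zh ∈ M := by
      rw [← h3]
      exact hz
    have hker2 : RingHom.ker (gfst f₁ f₂) ≤ M ^ 2 := by
      intro y hy
      have h4 : y = zh * y := by
        apply glue_ext
        · rw [map_mul, (RingHom.mem_ker).1 hy, mul_zero]
        · rw [map_mul]
          change gsnd f₁ f₂ y = 1 * gsnd f₁ f₂ y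
          rw [one_mul]
      rw [h4, pow_two]
      exact Ideal.mul_mem_mul hzh (hle hy)
    obtain ⟨ν, hν⟩ := (IsPrincipalIdealRing.principal (M.map (gfst f₁ f₂)))
    have hνm : ν ∈ M.map (gfst f₁ f₂) := by
      rw [hν]; exact Submodule.mem_span_singleton_self ν
    obtain ⟨νh, hνh, rfl⟩ := (Ideal.mem_map_iff_of_surjective _ hs).1 hνm
    refine finrank_cotangent_le M (a := νh) (b := 0) hνh (zero_mem _) ?_
    intro m hm
    have hm1 : gfst f₁ f₂ m ∈ Ideal.span {gfst f₁ f₂ νh} := by
      have : gfst f₁ f₂ m ∈ M.map (gfst f₁ f₂) := Ideal.mem_map_of_mem _ hm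
      rw [hν] at this
      exact this
    obtain ⟨β, hβ⟩ := Ideal.mem_span_singleton'.1 hm1
    obtain ⟨r, hr⟩ := gfst_surjective f₁ f₂ h₂ β
    refine ⟨r, 0, hker2 ?_⟩
    rw [RingHom.mem_ker, map_sub, map_add, map_mul, map_mul, hr, hβ, map_zero, zero_mul, add_zero,
      sub_self]

end props

end glue

end Vale.Agent.P178
end
end

section

section

namespace Vale.Agent.P178

open Module Submodule

/-- A subspace of codimension at most `c` is complemented by `c` vectors. -/
theorem exists_complement_vectors {k V : Type*} [Field k] [AddCommGroup V] [Module k V]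
    [FiniteDimensional k V] (U : Submodule k V) (c : ℕ) (h : finrank k (V ⧸ U) ≤ c) :
    ∃ z : Fin c → V, U ⊔ span k (Set.range z) = ⊤ := by
  classical
  let b := finBasis k (V ⧸ U)
  choose ℓ hℓ using fun j => U.mkQ_surjective (b j)
  refine ⟨fun j => if hj : j.1 < finrank k (V ⧸ U) then ℓ ⟨j.1, hj⟩ else 0, ?_⟩
  rw [← map_mkQ_eq_top, eq_top_iff, ← b.span_eq, map_span, span_le]
  rintro _ ⟨j, rfl⟩
  apply subset_span
  refine ⟨_, ⟨⟨j.1, lt_of_lt_of_le j.2 h⟩, rfl⟩, ?_⟩
  simp [hℓ]

/-- Choose `r` vectors in `U` such that the quotient by their span has dimension at most `c`. -/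
theorem exists_vectors_in_subspace {k V : Type*} [Field k] [AddCommGroup V] [Module k V]
    [FiniteDimensional k V] (U : Submodule k V) (r c : ℕ) (hV : finrank k V ≤ r + c)
    (h : finrank k (V ⧸ U) ≤ c) :
    ∃ g : Fin r → V, (∀ i, g i ∈ U) ∧ finrank k (V ⧸ span k (Set.range g)) ≤ c := by
  classical
  let b := finBasis k U
  let g : Fin r → V := fun i => if hi : i.1 < finrank k U then (b ⟨i.1, hi⟩ : V) else 0
  have hgU : ∀ i, g i ∈ U := by
    intro i
    by_cases hi : i.1 < finrank k U
    · simp only [g, hi, dif_pos]; exact (b _).2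
    · simp only [g, hi, dif_neg, not_false_iff]; exact U.zero_mem
  refine ⟨g, hgU, ?_⟩
  rcases le_or_gt (finrank k U) r with hr | hr
  · have : span k (Set.range g) = U := by
      apply le_antisymm
      · rw [span_le]; rintro _ ⟨i, rfl⟩; exact hgU i
      · intro x hx
        have hx' : (⟨x, hx⟩ : U) ∈ span k (Set.range b) := by rw [b.span_eq]; trivial
        have := Submodule.mem_map_of_mem (f := U.subtype) hx'
        rw [map_span] at this
        refine span_mono ?_ this
        rintro _ ⟨_, ⟨j, rfl⟩, rfl⟩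
        refine ⟨⟨j.1, lt_of_lt_of_le j.2 hr⟩, ?_⟩
        simp [g]
    rw [this]; exact h
  · have hli : LinearIndependent k g := by
      have h1 : LinearIndependent k (fun i : Fin r => b ⟨i.1, i.2.trans hr⟩) :=
        b.linearIndependent.comp (fun i : Fin r => (⟨i.1, i.2.trans hr⟩ : Fin (finrank k U)))
          (by intro i j hij; simpa [Fin.ext_iff] using hij)
      have h2 := h1.map' U.subtype (by simp)
      have heq : g = U.subtype ∘ (fun i : Fin r => b ⟨i.1, i.2.trans hr⟩) := by
        ext i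
        simp [g, i.2.trans hr]
      rw [heq]
      exact h2
    have h3 := finrank_span_eq_card hli
    have h4 := finrank_quotient_add_finrank (span k (Set.range g))
    simp at h3
    omega

end Vale.Agent.P178
end
end

section

section

namespace Vale.Agent.P178

open IsLocalRing Ideal

theorem encard_range_le {α : Type*} {r : ℕ} (g : Fin r → α) :
    (Set.range g).encard ≤ r := by
  rw [← Set.image_univ]
  refine (Set.encard_image_le _ _).trans ?_
  simp

/-- If the maximal ideal of a Noetherian local ring is generated by `r + c` elements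
`g, z` and the dimension is at least `r + c`, then the quotient by `g` is regular of
dimension `c`. -/
theorem regular_quotient {R : Type*} [CommRing R] [IsLocalRing R] [IsNoetherianRing R]
    (r c : ℕ) (g : Fin r → R) (z : Fin c → R)
    (hmax : maximalIdeal R = span (Set.range g) ⊔ span (Set.range z))
    (hdim : ((r + c : ℕ) : WithBot ℕ∞) ≤ ringKrullDim R) :
    IsRegularLocalRing (R ⧸ span (Set.range g)) ∧
      ringKrullDim (R ⧸ span (Set.range g)) = c := by
  set I := span (Set.range g) with hI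
  have hle : I ≤ maximalIdeal R := hmax ▸ le_sup_left
  have hne : I ≠ ⊤ := fun h => (maximalIdeal.isMaximal R).ne_top (top_le_iff.mp (h ▸ hle))
  have : Nontrivial (R ⧸ I) := Ideal.Quotient.nontrivial_iff.mpr hne
  have : IsLocalRing (R ⧸ I) :=
    IsLocalRing.of_surjective' (Ideal.Quotient.mk I) Ideal.Quotient.mk_surjective
  have hmaxq : maximalIdeal (R ⧸ I) = span (Set.range (Ideal.Quotient.mk I ∘ z)) := by
    have h1 : maximalIdeal (R ⧸ I) = (maximalIdeal R).map (Ideal.Quotient.mk I) := by
      symm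
      apply IsLocalRing.eq_maximalIdeal
      refine Ideal.IsMaximal.map_of_surjective_of_ker_le Ideal.Quotient.mk_surjective ?_
      rw [Ideal.mk_ker]; exact hle
    rw [h1, hmax, Ideal.map_sup, Ideal.map_quotient_self, bot_sup_eq, Ideal.map_span,
      Set.range_comp]
  have hfin : (maximalIdeal (R ⧸ I)).spanFinrank ≤ c := by
    rw [hmaxq]
    have := Submodule.spanFinrank_span_le_encard (R := R ⧸ I) (Set.range (Ideal.Quotient.mk I ∘ z))
    have h2 := this.trans (encard_range_le (Ideal.Quotient.mk I ∘ z))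
    exact_mod_cast h2
  have hdim' : (c : WithBot ℕ∞) ≤ ringKrullDim (R ⧸ I) := by
    have h3 := ringKrullDim_le_ringKrullDim_quotient_add_encard (R := R) (Set.range g) (by
      rw [IsLocalRing.ringJacobson_eq_maximalIdeal]
      intro x hx
      exact hle (subset_span hx))
    have h4 : ((Set.range g).encard : WithBot ℕ∞) ≤ (r : WithBot ℕ∞) := by
      exact_mod_cast encard_range_le g
    have h5 : ((r + c : ℕ) : WithBot ℕ∞) ≤ ringKrullDim (R ⧸ I) + r :=
      hdim.trans (h3.trans (by gcongr))
    rw [add_comm] at h5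
    push_cast at h5
    exact (ENat.WithBot.add_le_add_natCast_right_iff).mp h5
  have hreg : IsRegularLocalRing (R ⧸ I) := by
    apply IsRegularLocalRing.of_spanFinrank_maximalIdeal_le
    refine le_trans ?_ hdim'
    exact_mod_cast hfin
  refine ⟨hreg, le_antisymm ?_ hdim'⟩
  refine (ringKrullDim_le_spanFinrank_maximalIdeal (R ⧸ I)).trans ?_
  exact_mod_cast hfin

end Vale.Agent.P178
end
end

section

section

namespace Vale.Agent.P178

open IsLocalRing Ideal Module

/-- An element `x` of the maximal ideal outside its square extends to a generating family of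
length `finrank` of the cotangent space. -/
theorem exists_gens_of_notMem_sq {R : Type*} [CommRing R] [IsLocalRing R] [IsNoetherianRing R]
    (n : ℕ) (hn : finrank (ResidueField R) (CotangentSpace R) ≤ n + 1) (x : R)
    (hx : x ∈ maximalIdeal R) (hx2 : x ∉ maximalIdeal R ^ 2) :
    ∃ z : Fin n → R, maximalIdeal R = span {x} ⊔ span (Set.range z) := by
  let t : maximalIdeal R → CotangentSpace R := (maximalIdeal R).toCotangent
  have hx0 : t ⟨x, hx⟩ ≠ 0 := by
    intro h
    exact hx2 ((Ideal.toCotangent_eq_zero _ _).mp h)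
  have h1 : finrank (ResidueField R)
      (CotangentSpace R ⧸ Submodule.span (ResidueField R) {t ⟨x, hx⟩}) ≤ n := by
    have h2 : finrank (ResidueField R)
        (CotangentSpace R ⧸ Submodule.span (ResidueField R) {t ⟨x, hx⟩}) +
        finrank (ResidueField R) (Submodule.span (ResidueField R) {t ⟨x, hx⟩}) =
        finrank (ResidueField R) (CotangentSpace R) := Submodule.finrank_quotient_add_finrank
      (Submodule.span (ResidueField R) {t ⟨x, hx⟩})
    have h3 : finrank (ResidueField R) (Submodule.span (ResidueField R) {t ⟨x, hx⟩}) = 1 :=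
      finrank_span_singleton (K := ResidueField R) hx0
    omega
  obtain ⟨z, hz⟩ := exists_complement_vectors _ n h1
  choose y hy using fun i => (maximalIdeal R).toCotangent_surjective (z i)
  refine ⟨fun i => (y i : R), ?_⟩
  have h4 : Submodule.span (ResidueField R)
      (t '' (insert ⟨x, hx⟩ (Set.range y))) = ⊤ := by
    rw [Set.image_insert_eq, Submodule.span_insert, ← Set.range_comp]
    have : (t ∘ y) = z := funext hy
    rw [this, hz]
  have h4' : Submodule.span R (insert ⟨x, hx⟩ (Set.range y)) = ⊤ :=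
    CotangentSpace.span_image_eq_top_iff.mp h4
  have h5 := congrArg (Submodule.map (maximalIdeal R).subtype) h4'
  rw [Submodule.map_span, Submodule.map_top, Submodule.range_subtype] at h5
  refine h5.symm.trans ?_
  rw [Set.image_insert_eq, ← Set.range_comp, Submodule.span_insert]
  rfl

theorem regular_isDomain_aux (n : ℕ) : ∀ (R : Type*) [CommRing R] [IsRegularLocalRing R],
    ringKrullDim R = n → IsDomain R := by
  induction n with
  | zero =>
    intro R _ _ h
    have h1 := IsRegularLocalRing.spanFinrank_maximalIdeal (R := R)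
    rw [h] at h1
    have h2 : (maximalIdeal R).spanFinrank = 0 := by exact_mod_cast h1
    have h3 : maximalIdeal R = ⊥ := by
      rwa [Submodule.spanFinrank_eq_zero_iff_eq_bot (maximalIdeal R).fg_of_isNoetherianRing] at h2
    have h4 : IsField R := IsLocalRing.isField_iff_maximalIdeal_eq.mpr h3
    exact h4.isDomain
  | succ n ih =>
    intro R _ _ h
    have hfr : finrank (ResidueField R) (CotangentSpace R) ≤ n + 1 := by
      have := (IsRegularLocalRing.iff_finrank_cotangentSpace R).mp inferInstance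
      rw [h] at this
      exact le_of_eq (by exact_mod_cast this)
    -- the maximal ideal is not a minimal prime
    have hmin : ∀ q ∈ minimalPrimes R, ¬ maximalIdeal R ≤ q := by
      intro q hq hle
      have hqp : q.IsPrime := hq.1.1
      have h1 : q = maximalIdeal R := ((maximalIdeal.isMaximal R).eq_of_le hqp.ne_top hle).symm
      have h2 : (maximalIdeal R).height = 0 := by
        rw [← h1]
        exact Ideal.height_eq_zero_iff.mpr hq
      have h3 := IsLocalRing.maximalIdeal_height_eq_ringKrullDim (R := R)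
      rw [h, h2] at h3
      have h4 : (0 : WithBot ℕ∞) = ((n + 1 : ℕ) : WithBot ℕ∞) := h3
      have h5 : (0 : ℕ) = n + 1 := by exact_mod_cast h4
      omega
    have hsq : ¬ maximalIdeal R ≤ maximalIdeal R ^ 2 := by
      intro hle
      have h0 : maximalIdeal R = ⊥ := by
        apply Submodule.eq_bot_of_le_smul_of_le_jacobson_bot (maximalIdeal R) (maximalIdeal R)
          (maximalIdeal R).fg_of_isNoetherianRing
        · rwa [smul_eq_mul, ← pow_two]
        · exact (IsLocalRing.jacobson_eq_maximalIdeal _ bot_ne_top).ge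
      obtain ⟨q, hq⟩ := Ideal.nonempty_minimalPrimes (R := R) (I := ⊥) top_ne_bot.symm
      exact hmin q hq (h0 ▸ bot_le)
    have hfinite : (minimalPrimes R).Finite := minimalPrimes.finite_of_isNoetherianRing R
    obtain ⟨x, hx, hxn⟩ : ∃ x ∈ maximalIdeal R, x ∉ ⋃ K ∈ insert (maximalIdeal R ^ 2)
        (minimalPrimes R), (K : Set R) := by
      have := (Ideal.subset_union_prime_finite (R := R) (f := fun K : Ideal R => K)
        (hfinite.insert (maximalIdeal R ^ 2)) (maximalIdeal R ^ 2) (maximalIdeal R ^ 2)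
        (I := maximalIdeal R) (by
          intro K hK h1 _
          rcases hK with hK | hK
          · exact absurd hK h1
          · exact hK.1.1)).not.mpr (by
          push Not
          intro K hK
          rcases hK with hK | hK
          · rw [hK]; exact hsq
          · exact hmin K hK)
      exact Set.not_subset.mp this
    have hx2 : x ∉ maximalIdeal R ^ 2 := fun h' => hxn (by
      simp only [Set.mem_iUnion]
      exact ⟨_, Set.mem_insert _ _, h'⟩)
    have hxm : ∀ q ∈ minimalPrimes R, x ∉ q := fun q hq h' => hxn (by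
      simp only [Set.mem_iUnion]
      exact ⟨_, Set.mem_insert_of_mem _ hq, h'⟩)
    obtain ⟨z, hz⟩ := exists_gens_of_notMem_sq n hfr x hx hx2
    have hrange : Set.range (fun _ : Fin 1 => x) = {x} := by simp
    obtain ⟨hreg, hdim⟩ := regular_quotient 1 n (fun _ : Fin 1 => x) z (by rw [hrange]; exact hz)
      (by rw [h, add_comm])
    have hdom := ih _ hdim
    rw [hrange] at hdom
    have hprime : (span {x}).IsPrime := (Ideal.Quotient.isDomain_iff_prime _).mp hdom
    obtain ⟨q, hq, hqx⟩ := Ideal.exists_minimalPrimes_le (J := span {x}) (I := (⊥ : Ideal R)) bot_le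
    have hqm : q ∈ minimalPrimes R := hq
    have hqp : q.IsPrime := hqm.1.1
    have hq0 : q = ⊥ := by
      apply Submodule.eq_bot_of_le_smul_of_le_jacobson_bot (span {x}) q
        q.fg_of_isNoetherianRing
      · intro y hy
        obtain ⟨w, rfl⟩ := Ideal.mem_span_singleton'.mp (hqx hy)
        have : w ∈ q := (hqp.mem_or_mem hy).resolve_right (hxm q hqm)
        rw [mul_comm]
        exact Submodule.smul_mem_smul (Ideal.mem_span_singleton_self x) this
      · rw [IsLocalRing.jacobson_eq_maximalIdeal _ bot_ne_top, Ideal.span_le,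
          Set.singleton_subset_iff]
        exact hx
    rw [hq0] at hqp
    exact IsDomain.of_bot_isPrime R

/-- A regular local ring is a domain. -/
theorem regular_isDomain (R : Type*) [CommRing R] [IsRegularLocalRing R] : IsDomain R := by
  apply regular_isDomain_aux (maximalIdeal R).spanFinrank R
  exact IsRegularLocalRing.spanFinrank_maximalIdeal.symm

end Vale.Agent.P178
end
end

section

section

namespace Vale.Agent.P178

open IsLocalRing Ideal Module Polynomial

/-- If the contraction `p ∩ R` of a prime `p` of `R[X]` has regular localization then so does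
`p`. -/
theorem polynomial_localization_regular {R : Type*} [CommRing R] (p : Ideal R[X]) [p.IsPrime]
    (hreg : IsRegularLocalRing (Localization.AtPrime (p.comap C))) :
    IsRegularLocalRing (Localization.AtPrime p) := by
  let q := p.comap C
  let S := (Localization.AtPrime q)[X]
  let pc := Submonoid.map Polynomial.C.toMonoidHom q.primeCompl
  let : Algebra R[X] S := algebra R (Localization.AtPrime q)
  have : IsLocalization pc S := Polynomial.isLocalization _ _
  let pS := p.map (algebraMap R[X] S)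
  have disj : Disjoint (pc : Set R[X]) (p : Set R[X]) := by
    simpa [pc, q] using! Set.disjoint_image_left.mpr
      (Set.disjoint_compl_left_iff_subset.mpr (fun _ a ↦ a))
  have : pS.IsPrime := IsLocalization.isPrime_of_isPrime_disjoint pc _ _ ‹_› disj
  have : IsLocalization.AtPrime (Localization.AtPrime pS) p := by
    convert IsLocalization.isLocalization_isLocalization_atPrime_isLocalization pc
      (Localization.AtPrime pS) pS
    exact (IsLocalization.under_map_of_isPrime_disjoint pc _ ‹_› disj).symm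
  have eq : comap C pS = maximalIdeal (Localization.AtPrime q) := by
    rw [← IsLocalization.map_under q.primeCompl _ (comap C pS),
      ← IsLocalization.map_under q.primeCompl _ (maximalIdeal (Localization.AtPrime q))]
    simp only [comap_comap, S, pS]
    rw [← Polynomial.algebraMap_eq (R := Localization.AtPrime q),
      ← IsScalarTower.algebraMap_eq R (Localization.AtPrime q) (Localization.AtPrime q)[X],
      IsScalarTower.algebraMap_eq R R[X] (Localization.AtPrime q)[X], ← comap_comap,
      ← Ideal.under_def R[X], IsLocalization.under_map_of_isPrime_disjoint pc _ ‹_› disj]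
    simp [q, IsLocalization.AtPrime.under_maximalIdeal (Localization.AtPrime q) q]
  have hreg' : IsRegularLocalRing (Localization.AtPrime pS) :=
    isRegularLocalRing_localization_atPrime_of_comap_eq_maximalIdeal _ pS eq
  exact @IsRegularLocalRing.of_ringEquiv (Localization.AtPrime pS) _ hreg'
    (Localization.AtPrime p) _ (IsLocalization.algEquiv p.primeCompl
    (Localization.AtPrime pS) (Localization.AtPrime p)).toRingEquiv

theorem localization_regular_of_ringEquiv {R R' : Type*} [CommRing R] [CommRing R']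
    (e : R ≃+* R') (p : Ideal R') [p.IsPrime] (q : Ideal R) [q.IsPrime] (hq : q = p.comap e)
    (h : IsRegularLocalRing (Localization.AtPrime q)) :
    IsRegularLocalRing (Localization.AtPrime p) := by
  subst hq
  exact IsRegularLocalRing.of_ringEquiv <| IsLocalization.ringEquivOfRingEquiv
    (Localization.AtPrime (p.comap e)) (Localization.AtPrime p) e (e.map_primeCompl_comap_eq p)

/-- Localizations of polynomial rings over a regular local ring at primes over the maximal ideal
are regular. -/
theorem mvPolynomial_localization_regular {A : Type*} [CommRing A] [IsRegularLocalRing A]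
    (m : ℕ) : ∀ (n : Ideal (MvPolynomial (Fin m) A)) [n.IsPrime],
      n.comap (algebraMap A _) = maximalIdeal A → IsRegularLocalRing (Localization.AtPrime n) := by
  induction m with
  | zero =>
    intro n _ hn
    let e : MvPolynomial (Fin 0) A ≃ₐ[A] A := MvPolynomial.isEmptyAlgEquiv A (Fin 0)
    have h1 : IsRegularLocalRing (Localization.AtPrime (maximalIdeal A)) := by
      let e' : A ≃ₐ[A] (Localization.AtPrime (maximalIdeal A)) :=
        IsLocalization.atUnits A (maximalIdeal A).primeCompl (fun x ↦ by simpa using! fun a ↦ a)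
      exact IsRegularLocalRing.of_ringEquiv e'.toRingEquiv
    refine localization_regular_of_ringEquiv e.symm.toRingEquiv n (maximalIdeal A) ?_ h1
    rw [← hn]
    ext x
    simp only [Ideal.mem_comap]
    rw [← e.symm.commutes x]
    rfl
  | succ m ih =>
    intro n _ hn
    let e : MvPolynomial (Fin (m + 1)) A ≃ₐ[A] (MvPolynomial (Fin m) A)[X] :=
      MvPolynomial.finSuccEquiv A m
    let N : Ideal (MvPolynomial (Fin m) A)[X] := n.comap e.symm
    have hN : N.IsPrime := Ideal.comap_isPrime _ _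
    have h1 : (N.comap C).comap (algebraMap A (MvPolynomial (Fin m) A)) = maximalIdeal A := by
      rw [← hn]
      ext x
      simp only [Ideal.mem_comap, N]
      rw [← e.symm.commutes x]
      rfl
    have h2 := ih (N.comap C) h1
    have h3 := polynomial_localization_regular N h2
    refine localization_regular_of_ringEquiv e.symm.toRingEquiv n N rfl h3

end Vale.Agent.P178
end
end

section

section

namespace Vale.Agent.P178

open IsLocalRing Ideal Module Polynomial

/-- Height of a maximal ideal of a polynomial ring with integral residue ring. -/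
theorem height_mvPolynomial {A : Type*} [CommRing A] [IsNoetherianRing A]
    (m : ℕ) : ∀ (n : Ideal (MvPolynomial (Fin m) A)) [n.IsMaximal],
      (∀ f : MvPolynomial (Fin m) A, IsIntegral A (Ideal.Quotient.mk n f)) →
      n.height = (n.comap (algebraMap A _)).height + m := by
  induction m with
  | zero =>
    intro n _ hn
    let e : A ≃+* MvPolynomial (Fin 0) A := (MvPolynomial.isEmptyAlgEquiv A (Fin 0)).symm.toRingEquiv
    have h1 : n.comap (algebraMap A _) = n.comap e := by
      ext x
      simp only [Ideal.mem_comap]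
      rw [← (MvPolynomial.isEmptyAlgEquiv A (Fin 0)).symm.commutes x]
      rfl
    rw [h1, e.height_comap]
    simp
  | succ m ih =>
    intro n hmax hn
    let e : MvPolynomial (Fin (m + 1)) A ≃ₐ[A] (MvPolynomial (Fin m) A)[X] :=
      MvPolynomial.finSuccEquiv A m
    let e' := e.symm.toRingEquiv
    let N : Ideal (MvPolynomial (Fin m) A)[X] := n.comap e'
    have hNp : N.IsPrime := Ideal.comap_isPrime _ _
    have hN : N.IsMaximal := Ideal.comap_isMaximal_of_equiv e'
    have hNh : N.height = n.height := e'.height_comap n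
    have h1 : (N.comap C).comap (algebraMap A (MvPolynomial (Fin m) A)) =
        n.comap (algebraMap A _) := by
      ext x
      simp only [Ideal.mem_comap, N]
      rw [← e.symm.commutes x]
      rfl
    -- integrality of the quotient
    have hint : ∀ g : (MvPolynomial (Fin m) A)[X], IsIntegral A (Ideal.Quotient.mk N g) := by
      intro g
      obtain ⟨p, hp, hpe⟩ := hn (e' g)
      refine ⟨p, hp, ?_⟩
      have h2 : Ideal.Quotient.mk n (p.aeval (e' g)) = 0 := by
        rw [← hpe, Polynomial.eval₂_eq_sum_range, Polynomial.aeval_eq_sum_range, map_sum]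
        refine Finset.sum_congr rfl fun i _ => ?_
        rw [Algebra.smul_def, map_mul, map_pow]
        rfl
      have h3 : p.aeval g ∈ N := by
        change e' (p.aeval g) ∈ n
        have : e' (p.aeval g) = p.aeval (e' g) := by
          exact (Polynomial.aeval_algHom_apply e.symm.toAlgHom g p).symm
        rw [this]
        exact Ideal.Quotient.eq_zero_iff_mem.mp h2
      have h4 := Ideal.Quotient.eq_zero_iff_mem.mpr h3
      rw [← h4, Polynomial.eval₂_eq_sum_range, Polynomial.aeval_eq_sum_range, map_sum]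
      refine Finset.sum_congr rfl fun i _ => ?_
      rw [Algebra.smul_def, map_mul, map_pow]
      rfl
    have hmax' : (N.comap C).IsMaximal := by
      have hI : ((Ideal.Quotient.mk N).comp C).IsIntegral := by
        intro x
        obtain ⟨g, rfl⟩ := Ideal.Quotient.mk_surjective x
        obtain ⟨p, hp, hpe⟩ := hint g
        refine ⟨p.map (algebraMap A (MvPolynomial (Fin m) A)), hp.map _, ?_⟩
        rw [Polynomial.eval₂_map, ← hpe]
        congr 1
      have hbot : (⊥ : Ideal ((MvPolynomial (Fin m) A)[X] ⧸ N)).IsMaximal :=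
        (Ideal.bot_quotient_isMaximal_iff N).mpr hN
      have := Ideal.isMaximal_comap_of_isIntegral_of_isMaximal'
        (R := MvPolynomial (Fin m) A) (S := (MvPolynomial (Fin m) A)[X] ⧸ N)
        ((Ideal.Quotient.mk N).comp C) hI ⊥
      rwa [← Ideal.comap_comap, ← RingHom.ker_eq_comap_bot, Ideal.mk_ker] at this
    have hint' : ∀ f : MvPolynomial (Fin m) A, IsIntegral A (Ideal.Quotient.mk (N.comap C) f) := by
      intro f
      obtain ⟨p, hp, hpe⟩ := hint (C f)
      refine ⟨p, hp, ?_⟩
      apply (Ideal.quotientMap_injective (I := N) (f := C))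
      rw [map_zero, ← hpe, Polynomial.hom_eval₂]
      rfl
    have h5 := ih (N.comap C) hint'
    have hlies : N.LiesOver (N.comap C) := ⟨rfl⟩
    have h6 := Polynomial.height_eq_height_add_one (N.comap C) N
    rw [← hNh, h6, h5, h1]
    push_cast
    ring

end Vale.Agent.P178
end
end

section

section

namespace Vale.Agent.P178

open Ideal Module

theorem cotangent_span_eq_top_iff {S : Type*} [CommRing S] (n : Ideal S)
    (X : Set n) :
    Submodule.span (S ⧸ n) (n.toCotangent '' X) = ⊤ ↔
      n ≤ Ideal.span (Subtype.val '' X) ⊔ n ^ 2 := by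
  rw [← (Submodule.restrictScalars_injective S ..).eq_iff,
    Submodule.restrictScalars_span _ _ Ideal.Quotient.mk_surjective,
    Submodule.restrictScalars_top, ← Submodule.map_span]
  have h1 : Submodule.map n.toCotangent (Submodule.span S X) = ⊤ ↔
      Submodule.span S X ⊔ LinearMap.ker n.toCotangent = ⊤ := by
    constructor
    · intro h
      rw [← Submodule.comap_map_eq, h, Submodule.comap_top]
    · intro h
      have := congrArg (Submodule.map n.toCotangent) h
      rw [Submodule.map_sup, Submodule.map_top, Ideal.toCotangent_range] at this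
      rw [← this, left_eq_sup, Submodule.map_le_iff_le_comap]
      exact fun x hx => by
        rw [Submodule.mem_comap, LinearMap.mem_ker.mp hx]; exact Submodule.zero_mem _
  rw [h1]
  have h2 : Submodule.span S X ⊔ LinearMap.ker n.toCotangent = ⊤ ↔
      Submodule.map n.subtype (Submodule.span S X ⊔ LinearMap.ker n.toCotangent) = n := by
    constructor
    · intro h
      rw [h, Submodule.map_top, Submodule.range_subtype]
    · intro h
      apply Submodule.map_injective_of_injective n.injective_subtype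
      rw [h, Submodule.map_top, Submodule.range_subtype]
  rw [h2, Submodule.map_sup, Ideal.map_toCotangent_ker, Submodule.map_span]
  constructor
  · intro h
    exact h.symm.le
  · intro h
    refine le_antisymm ?_ h
    refine sup_le ?_ (Ideal.pow_le_self two_ne_zero)
    rw [Submodule.span_le]
    rintro _ ⟨x, _, rfl⟩
    exact x.2

/-- Selection of `r` elements of `I` and `c` further elements generating the cotangent space. -/
theorem exists_gens_in_ideal {S : Type*} [CommRing S] [IsNoetherianRing S] (n : Ideal S)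
    [n.IsMaximal] (I : Ideal S) (hI : I ≤ n) (r c : ℕ)
    (a : Fin (r + c) → S) (ha : ∀ i, a i ∈ n) (hna : n ≤ span (Set.range a) ⊔ n ^ 2)
    (b : Fin c → S) (hb : ∀ i, b i ∈ n) (hnb : n ≤ span (Set.range b) ⊔ I ⊔ n ^ 2) :
    ∃ g : Fin r → S, (∀ i, g i ∈ I) ∧ ∃ z : Fin c → S, (∀ i, z i ∈ n) ∧
      n ≤ span (Set.range g) ⊔ span (Set.range z) ⊔ n ^ 2 := by
  let : Field (S ⧸ n) := Ideal.Quotient.field n
  have hfinV0 : Module.Finite S n.Cotangent :=
    Module.Finite.of_surjective n.toCotangent n.toCotangent_surjective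
  have hfinV : Module.Finite (S ⧸ n) n.Cotangent := Module.Finite.of_restrictScalars_finite S _ _
  have hV : finrank (S ⧸ n) n.Cotangent ≤ r + c := by
    have h1 : Submodule.span (S ⧸ n) (n.toCotangent '' (Set.range fun i => ⟨a i, ha i⟩)) = ⊤ := by
      rw [cotangent_span_eq_top_iff, ← Set.range_comp]
      exact hna
    rw [← Set.range_comp] at h1
    have h2 := finrank_range_le_card (R := S ⧸ n) (n.toCotangent ∘ fun i => (⟨a i, ha i⟩ : n))
    rw [Set.finrank, h1, finrank_top] at h2
    simpa using h2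
  let U : Submodule (S ⧸ n) n.Cotangent := Submodule.span (S ⧸ n) (n.toCotangent '' {x | (x : S) ∈ I})
  have hVU : finrank (S ⧸ n) (n.Cotangent ⧸ U) ≤ c := by
    have h1 : Submodule.span (S ⧸ n) (n.toCotangent ''
        ((Set.range fun i => (⟨b i, hb i⟩ : n)) ∪ {x | (x : S) ∈ I})) = ⊤ := by
      rw [cotangent_span_eq_top_iff, Set.image_union, Ideal.span_union, ← Set.range_comp]
      refine hnb.trans ?_
      have hle : I ≤ span (Subtype.val '' {x : n | (x : S) ∈ I}) := by
        intro x hx
        exact Ideal.subset_span ⟨(⟨x, hI hx⟩ : n), hx, rfl⟩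
      gcongr
      exact le_of_eq rfl
    rw [Set.image_union, Submodule.span_union, ← Set.range_comp] at h1
    have h2 : Submodule.span (S ⧸ n) (Set.range (U.mkQ ∘ (n.toCotangent ∘
        fun i => (⟨b i, hb i⟩ : n)))) = ⊤ := by
      rw [Set.range_comp U.mkQ, ← Submodule.map_span, Submodule.map_mkQ_eq_top, sup_comm]
      exact h1
    have h3 := finrank_range_le_card (R := S ⧸ n) (U.mkQ ∘ (n.toCotangent ∘
      fun i => (⟨b i, hb i⟩ : n)))
    rw [Set.finrank, h2, finrank_top] at h3
    simpa using h3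
  obtain ⟨g, hgU, hg⟩ := exists_vectors_in_subspace U r c hV hVU
  obtain ⟨z, hz⟩ := exists_complement_vectors _ c hg
  have hlift : ∀ x ∈ U, ∃ y : n, (y : S) ∈ I ∧ n.toCotangent y = x := by
    intro x hx
    have h1 : x ∈ (Submodule.span (S ⧸ n) (n.toCotangent '' {x | (x : S) ∈ I})).restrictScalars S :=
      hx
    rw [Submodule.restrictScalars_span _ _ Ideal.Quotient.mk_surjective] at h1
    have h2 : {x : n | (x : S) ∈ I} = ((Submodule.comap n.subtype I : Submodule S n) : Set n) := rfl
    rw [h2, ← Submodule.map_span, Submodule.span_eq] at h1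
    obtain ⟨y, hy, hyx⟩ := h1
    exact ⟨y, hy, hyx⟩
  choose g' hg'I hg' using fun i => hlift (g i) (hgU i)
  choose z' hz' using fun i => n.toCotangent_surjective (z i)
  refine ⟨fun i => g' i, hg'I, fun i => z' i, fun i => (z' i).2, ?_⟩
  have h1 : Submodule.span (S ⧸ n) (n.toCotangent '' (Set.range g' ∪ Set.range z')) = ⊤ := by
    rw [Set.image_union, Submodule.span_union, ← Set.range_comp, ← Set.range_comp]
    have e1 : n.toCotangent ∘ g' = g := funext hg'
    have e2 : n.toCotangent ∘ z' = z := funext hz'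
    rw [e1, e2]
    exact hz
  rw [cotangent_span_eq_top_iff, Set.image_union, Ideal.span_union, ← Set.range_comp,
    ← Set.range_comp] at h1
  exact h1

end Vale.Agent.P178
end
end

section

section

namespace Vale.Agent.P178

open Ideal Module IsLocalRing

theorem le_sup_sq_of_map_le {S : Type*} [CommRing S] (n : Ideal S) [n.IsMaximal]
    (K : Ideal S)
    (h : maximalIdeal (Localization.AtPrime n) ≤ K.map (algebraMap S (Localization.AtPrime n))) :
    n ≤ K ⊔ n ^ 2 := by
  intro x hx
  have h1 : algebraMap S (Localization.AtPrime n) x ∈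
      K.map (algebraMap S (Localization.AtPrime n)) := by
    apply h
    rw [← Localization.AtPrime.map_eq_maximalIdeal]
    exact Ideal.mem_map_of_mem _ hx
  rw [IsLocalization.algebraMap_mem_map_algebraMap_iff n.primeCompl] at h1
  obtain ⟨s, hs, hsx⟩ := h1
  obtain ⟨v, w, hw, hvw⟩ := Ideal.IsMaximal.exists_inv (I := n) inferInstance hs
  have h2 : x = v * (s * x) + w * x := by
    rw [← mul_assoc, ← add_mul, hvw, one_mul]
  rw [h2]
  refine Submodule.add_mem_sup (Ideal.mul_mem_left _ _ hsx) ?_
  rw [pow_two]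
  exact Ideal.mul_mem_mul hw hx

theorem exists_gens_of_regular {S : Type*} [CommRing S] (n : Ideal S) [n.IsMaximal]
    (hreg : IsRegularLocalRing (Localization.AtPrime n)) (D : ℕ) (hD : n.height = D) :
    ∃ a : Fin D → S, (∀ i, a i ∈ n) ∧ n ≤ span (Set.range a) ⊔ n ^ 2 := by
  let B := Localization.AtPrime n
  have h1 : (maximalIdeal B).spanFinrank = D := by
    have h2 := IsRegularLocalRing.spanFinrank_maximalIdeal (R := B)
    rw [IsLocalization.AtPrime.ringKrullDim_eq_height n B, hD] at h2
    exact_mod_cast h2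
  have hfg : (maximalIdeal B).FG := (maximalIdeal B).fg_of_isNoetherianRing
  have hfin := Submodule.FG.finite_generators hfg
  have hcard : (maximalIdeal B).generators.ncard = D :=
    (Submodule.FG.generators_ncard hfg).trans h1
  have hcard' : Nat.card (maximalIdeal B).generators = D := hcard
  have : Finite (maximalIdeal B).generators := hfin
  let e : Fin D ≃ (maximalIdeal B).generators := (Finite.equivFinOfCardEq hcard').symm
  have hspan : Ideal.span (Set.range fun i => ((e i : (maximalIdeal B).generators) : B)) =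
      maximalIdeal B := by
    have : (Set.range fun i => ((e i : (maximalIdeal B).generators) : B)) =
        (maximalIdeal B).generators := by
      ext x
      constructor
      · rintro ⟨i, rfl⟩
        exact (e i).2
      · intro hx
        exact ⟨e.symm ⟨x, hx⟩, by simp⟩
    rw [this]
    exact Submodule.span_generators _
  choose a u hau using fun i : Fin D => IsLocalization.exists_mk'_eq n.primeCompl
    ((e i : (maximalIdeal B).generators) : B)
  have hmem : ∀ i, ((e i : (maximalIdeal B).generators) : B) ∈ maximalIdeal B := fun i =>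
    hspan.le (Ideal.subset_span ⟨i, rfl⟩)
  refine ⟨a, fun i => ?_, ?_⟩
  · have h3 := hmem i
    rw [← hau i, IsLocalization.AtPrime.mk'_mem_maximal_iff B n] at h3
    exact h3
  · apply le_sup_sq_of_map_le
    rw [← hspan, Ideal.span_le]
    rintro _ ⟨i, rfl⟩
    have h4 : algebraMap S B (a i) ∈ (span (Set.range a)).map (algebraMap S B) :=
      Ideal.mem_map_of_mem _ (Ideal.subset_span ⟨i, rfl⟩)
    have h5 : ((e i : (maximalIdeal B).generators) : B) =
        IsLocalization.mk' B 1 (u i) * algebraMap S B (a i) := by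
      rw [← hau i, mul_comm, IsLocalization.mul_mk'_eq_mk'_of_mul, mul_one]
    simp only [SetLike.mem_coe]
    rw [h5]
    exact Ideal.mul_mem_left _ _ h4

theorem maximalIdeal_eq_of_le_sup_sq {S : Type*} [CommRing S] [IsNoetherianRing S] (n : Ideal S)
    [n.IsPrime] (K : Ideal S) (hK : K ≤ n) (h : n ≤ K ⊔ n ^ 2) :
    maximalIdeal (Localization.AtPrime n) = K.map (algebraMap S (Localization.AtPrime n)) := by
  let B := Localization.AtPrime n
  have h0 : n.map (algebraMap S B) = maximalIdeal B := Localization.AtPrime.map_eq_maximalIdeal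
  have hKle : K.map (algebraMap S B) ≤ maximalIdeal B := h0 ▸ Ideal.map_mono hK
  refine le_antisymm ?_ hKle
  have h1 := Ideal.map_mono (f := algebraMap S B) h
  rw [Ideal.map_sup, Ideal.map_pow, h0] at h1
  apply Submodule.le_of_le_smul_of_le_jacobson_bot (maximalIdeal B).fg_of_isNoetherianRing
    (IsLocalRing.jacobson_eq_maximalIdeal _ bot_ne_top).ge
  rwa [smul_eq_mul, ← pow_two]

end Vale.Agent.P178
end
end

section

section

namespace Vale.Agent.P178

open MvPolynomial

theorem finite_quotient_of_monic_like {A : Type*} [CommRing A] (m : ℕ)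
    (K : Ideal (MvPolynomial (Fin m) A)) (D : Fin m → ℕ)
    (l : Fin m → MvPolynomial (Fin m) A) (hl : ∀ j, (l j).totalDegree < D j)
    (hK : ∀ j, X j ^ D j - l j ∈ K) :
    Module.Finite A (MvPolynomial (Fin m) A ⧸ K) := by
  classical
  let T := MvPolynomial (Fin m) A
  let s : Set (Fin m →₀ ℕ) := {α | ∀ j, α j < D j}
  have hs : s.Finite := by
    have h1 : s ⊆ (Finset.Iic (Finsupp.equivFunOnFinite.symm D) : Finset (Fin m →₀ ℕ)) := by
      intro α hα
      simp only [Finset.coe_Iic, Set.mem_Iic]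
      intro j
      exact (hα j).le
    exact (Finset.finite_toSet _).subset h1
  let M : Submodule A T := Submodule.span A ((fun α => monomial α (1 : A)) '' s)
  let N : Submodule A T := M ⊔ K.restrictScalars A
  have key : ∀ n : ℕ, ∀ f : T, f.totalDegree < n → f ∈ N := by
    intro n
    induction n with
    | zero => intro f hf; omega
    | succ n ih =>
      intro f hf
      rw [f.as_sum]
      refine Submodule.sum_mem _ fun α hα => ?_
      have hdeg : (α.sum fun _ e => e) ≤ n :=
        (le_totalDegree hα).trans (Nat.lt_succ_iff.mp hf)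
      by_cases hαs : α ∈ s
      · refine Submodule.mem_sup_left ?_
        have : monomial α (coeff α f) = coeff α f • monomial α (1 : A) := by
          rw [smul_monomial, smul_eq_mul, mul_one]
        rw [this]
        exact Submodule.smul_mem _ _ (Submodule.subset_span ⟨α, hαs, rfl⟩)
      · simp only [s, Set.mem_ofPred_eq, not_forall, not_lt] at hαs
        obtain ⟨j, hj⟩ := hαs
        let β : Fin m →₀ ℕ := α - Finsupp.single j (D j)
        have hαβ : α = β + Finsupp.single j (D j) := by
          ext i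
          simp only [β, Finsupp.coe_add, Finsupp.coe_tsub, Pi.add_apply, Pi.sub_apply]
          by_cases hi : i = j
          · subst hi; simp only [Finsupp.single_eq_same]; omega
          · simp [Ne.symm hi]
        have hsum : (α.sum fun _ e => e) = (β.sum fun _ e => e) + D j := by
          conv_lhs => rw [hαβ]
          rw [Finsupp.sum_add_index' (fun _ => rfl) (fun _ _ _ => rfl)]
          simp
        have h1 : monomial α (coeff α f) = monomial β (coeff α f) * X j ^ D j := by
          rw [X_pow_eq_monomial, monomial_mul, ← hαβ, mul_one]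
        have h2 : monomial α (coeff α f) = monomial β (coeff α f) * l j +
            monomial β (coeff α f) * (X j ^ D j - l j) := by
          rw [h1]; ring
        rw [h2]
        refine Submodule.add_mem _ (ih _ ?_) (Submodule.mem_sup_right ?_)
        · refine lt_of_le_of_lt (totalDegree_mul _ _) ?_
          have h3 := totalDegree_monomial_le (R := A) β (coeff α f)
          have h4 := hl j
          have h5 : (β.sum fun _ => id) = (β.sum fun _ e => e) := rfl
          omega
        · exact Ideal.mul_mem_left _ _ (hK j)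
  have htop : N = ⊤ := by
    rw [eq_top_iff]
    intro f _
    exact key (f.totalDegree + 1) f (Nat.lt_succ_self _)
  have hMfin : Module.Finite A M := by
    rw [Module.Finite.iff_fg]
    exact Submodule.fg_span (hs.image _)
  let q : T →ₗ[A] (T ⧸ K) := (Ideal.Quotient.mkₐ A K).toLinearMap
  refine Module.Finite.of_surjective (q.comp M.subtype) ?_
  intro y
  obtain ⟨f, rfl⟩ := Ideal.Quotient.mk_surjective y
  have hf : f ∈ N := by rw [htop]; trivial
  obtain ⟨a, ha, b, hb, hab⟩ := Submodule.mem_sup.mp hf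
  refine ⟨⟨a, ha⟩, ?_⟩
  change Ideal.Quotient.mk K a = Ideal.Quotient.mk K f
  rw [← hab, map_add, Ideal.Quotient.eq_zero_iff_mem.mpr hb, add_zero]

/-- A monic polynomial evaluated at a variable has the expected leading term. -/
theorem totalDegree_aeval_monic_sub {A : Type*} [CommRing A] [Nontrivial A] {m : ℕ} (j : Fin m)
    (p : Polynomial A) (hp : p.Monic) (hd : 0 < p.natDegree) :
    (Polynomial.aeval (X j : MvPolynomial (Fin m) A) p - X j ^ p.natDegree).totalDegree <
      p.natDegree := by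
  have h1 : Polynomial.aeval (X j : MvPolynomial (Fin m) A) p - X j ^ p.natDegree =
      ∑ i ∈ Finset.range p.natDegree, C (p.coeff i) * X j ^ i := by
    rw [Polynomial.aeval_eq_sum_range, Finset.sum_range_succ, hp.coeff_natDegree, one_smul,
      add_sub_cancel_right]
    exact Finset.sum_congr rfl fun i _ => by rw [smul_eq_C_mul]
  rw [h1]
  refine lt_of_le_of_lt (totalDegree_finsetSum_le (d := p.natDegree - 1) fun i hi => ?_)
    (by omega)
  refine (totalDegree_mul _ _).trans ?_
  have h2 : (X j ^ i : MvPolynomial (Fin m) A).totalDegree ≤ i := by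
    rw [totalDegree_X_pow]
  rw [totalDegree_C]
  have := Finset.mem_range.mp hi
  omega

end Vale.Agent.P178
end
end

section

section

namespace Vale.Agent.P178

open Ideal

theorem coset_avoidance_aux {R : Type*} [CommRing R] (J : Ideal R) (x : R) (n : ℕ) :
    ∀ s : Finset (Ideal R), s.card ≤ n → (∀ q ∈ s, q.IsPrime) → (∀ q ∈ s, ¬ J ≤ q) →
      ∃ j ∈ J, ∀ q ∈ s, x + j ∉ q := by
  classical
  induction n with
  | zero =>
    intro s hs _ _
    refine ⟨0, J.zero_mem, ?_⟩
    have : s = ∅ := Finset.card_eq_zero.mp (Nat.le_zero.mp hs)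
    simp [this]
  | succ n ih =>
    intro s hs hp hJ
    rcases s.eq_empty_or_nonempty with rfl | ⟨q₀, hq₀⟩
    · exact ⟨0, J.zero_mem, by simp⟩
    let s' := (s.erase q₀).filter fun q => ¬ q ≤ q₀
    have hs's : s' ⊆ s := (Finset.filter_subset _ _).trans (Finset.erase_subset _ _)
    have hcard : s'.card ≤ n := by
      have h1 : s'.card ≤ (s.erase q₀).card := Finset.card_le_card (Finset.filter_subset _ _)
      have h2 := Finset.card_erase_of_mem hq₀
      omega
    obtain ⟨j, hj, hjs⟩ := ih s' hcard (fun q hq => hp q (hs's hq)) (fun q hq => hJ q (hs's hq))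
    have hgood : ∀ j', (∀ q ∈ s', x + j' ∉ q) → x + j' ∉ q₀ → ∀ q ∈ s, x + j' ∉ q := by
      intro j' h1 h2 q hq hmem
      by_cases hqq : q ≤ q₀
      · exact h2 (hqq hmem)
      · refine h1 q ?_ hmem
        refine Finset.mem_filter.mpr ⟨Finset.mem_erase.mpr ⟨?_, hq⟩, hqq⟩
        rintro rfl
        exact hqq le_rfl
    by_cases hx : x + j ∈ q₀
    · have hq₀p := hp q₀ hq₀
      have hnot : ¬ (J ⊓ s'.inf id) ≤ q₀ := by
        intro hle
        rcases hq₀p.inf_le.mp hle with h | h
        · exact hJ q₀ hq₀ h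
        · obtain ⟨q, hq, hqle⟩ := (hq₀p.inf_le').mp h
          exact (Finset.mem_filter.mp hq).2 hqle
      obtain ⟨y, hy, hyq⟩ := Set.not_subset.mp hnot
      have hyJ : y ∈ J := hy.1
      have hys : ∀ q ∈ s', y ∈ q := fun q hq => (Finset.inf_le hq : s'.inf id ≤ id q) hy.2
      refine ⟨j + y, J.add_mem hj hyJ, hgood _ ?_ ?_⟩
      · intro q hq hmem
        apply hjs q hq
        rw [← add_assoc] at hmem
        exact (Ideal.add_mem_iff_left q (hys q hq)).mp hmem
      · intro hmem
        rw [← add_assoc] at hmem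
        exact hyq ((Ideal.add_mem_iff_right q₀ hx).mp hmem)
    · exact ⟨j, hj, hgood j hjs hx⟩

/-- Coset version of prime avoidance. -/
theorem coset_avoidance {R : Type*} [CommRing R] (Q : Set (Ideal R)) (hQ : Q.Finite)
    (hp : ∀ q ∈ Q, q.IsPrime) (J : Ideal R) (hJ : ∀ q ∈ Q, ¬ J ≤ q) (x : R) :
    ∃ j ∈ J, ∀ q ∈ Q, x + j ∉ q := by
  obtain ⟨j, hj, h⟩ := coset_avoidance_aux J x hQ.toFinset.card hQ.toFinset le_rfl
    (fun q hq => hp q (hQ.mem_toFinset.mp hq)) (fun q hq => hJ q (hQ.mem_toFinset.mp hq))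
  exact ⟨j, hj, fun q hq => h q (hQ.mem_toFinset.mpr hq)⟩

end Vale.Agent.P178
end
end

section

section

namespace Vale.Agent.P178

open Ideal

/-- Simultaneous choice of elements of `I` modulo the squares of finitely many maximal ideals. -/
theorem crt_select {S : Type*} [CommRing S] {ι : Type*} [Finite ι] (n : ι → Ideal S)
    (hn : ∀ i, (n i).IsMaximal) (hne : ∀ i j, i ≠ j → n i ≠ n j) (I : Ideal S)
    (hI : ∀ i, I ≤ n i) (g : ι → S) (hg : ∀ i, g i ∈ I) :
    ∃ G ∈ I, ∀ i, G - g i ∈ (n i) ^ 2 := by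
  classical
  have := Fintype.ofFinite ι
  have hcop : Pairwise (Function.onFun IsCoprime n) := fun i j hij =>
    Ideal.isCoprime_iff_sup_eq.mpr ((hn i).coprime_of_ne (hn j) (hne i j hij))
  have he : ∀ i, ∃ e : S, ∀ j, e - (if j = i then 1 else 0) ∈ n j := fun i =>
    Ideal.exists_forall_sub_mem_ideal hcop (fun j => if j = i then 1 else 0)
  choose e he using he
  refine ⟨∑ i, e i * g i, I.sum_mem fun i _ => I.mul_mem_left _ (hg i), ?_⟩
  intro i
  have h1 : ∑ j, e j * g j - g i = ∑ j, (e j - (if i = j then 1 else 0)) * g j := by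
    simp [sub_mul, Finset.sum_sub_distrib]
  rw [h1]
  refine Ideal.sum_mem _ fun j _ => ?_
  rw [pow_two]
  exact Ideal.mul_mem_mul (he j i) (hI i (hg j))

end Vale.Agent.P178
end
end

section

section

namespace Vale.Agent.P178

open Ideal

/-- Common denominators for finitely generated submodules. -/
theorem exists_common_denominator {R M : Type*} [CommRing R] [AddCommGroup M] [Module R M]
    (p : Ideal R) [hp : p.IsPrime] (N L : Submodule R M) (hL : L.FG)
    (h : ∀ x ∈ L, ∃ s, s ∉ p ∧ s • x ∈ N) : ∃ s, s ∉ p ∧ ∀ x ∈ L, s • x ∈ N := by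
  classical
  obtain ⟨X, hX⟩ := hL
  have key : ∀ Y : Finset M, (∀ x ∈ Y, x ∈ L) → ∃ s, s ∉ p ∧ ∀ x ∈ Y, s • x ∈ N := by
    intro Y
    induction Y using Finset.induction_on with
    | empty => intro _; exact ⟨1, fun h1 => hp.ne_top ((Ideal.eq_top_iff_one p).mpr h1), by simp⟩
    | insert y Y _ ih =>
      intro hY
      obtain ⟨s, hs, hsY⟩ := ih fun x hx => hY x (Finset.mem_insert_of_mem hx)
      obtain ⟨t, ht, hty⟩ := h y (hY y (Finset.mem_insert_self _ _))
      refine ⟨s * t, fun hst => (hp.mem_or_mem hst).elim hs ht, ?_⟩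
      intro x hx
      rcases Finset.mem_insert.mp hx with rfl | hx
      · rw [mul_smul]; exact N.smul_mem _ hty
      · rw [mul_comm, mul_smul]; exact N.smul_mem _ (hsY x hx)
  obtain ⟨s, hs, hsX⟩ := key X fun x hx => hX ▸ Submodule.subset_span hx
  refine ⟨s, hs, fun x hx => ?_⟩
  rw [← hX] at hx
  induction hx using Submodule.span_induction with
  | mem x hx => exact hsX x hx
  | zero => simp
  | add x y _ _ hx hy => rw [smul_add]; exact N.add_mem hx hy
  | smul a x _ hx => rw [smul_comm]; exact N.smul_mem _ hx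

/-- Nakayama at a prime, element version. -/
theorem exists_mul_mem_of_le_sup_sq {R : Type*} [CommRing R] [IsNoetherianRing R]
    (I₁ : Ideal R) [hp : I₁.IsPrime] (b : Ideal R)
    (h : ∀ z ∈ I₁, ∃ s, s ∉ I₁ ∧ s * z ∈ b ⊔ I₁ ^ 2) :
    ∃ u, u ∉ I₁ ∧ ∀ z ∈ I₁, u * z ∈ b := by
  have h1 : ∀ z ∈ I₁, ∃ s, s ∉ I₁ ∧ s • z ∈ b := by
    let B := Localization.AtPrime I₁
    have h0 : I₁.map (algebraMap R B) = IsLocalRing.maximalIdeal B :=
      Localization.AtPrime.map_eq_maximalIdeal
    have h2 : I₁.map (algebraMap R B) ≤ b.map (algebraMap R B) ⊔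
        I₁.map (algebraMap R B) • I₁.map (algebraMap R B) := by
      rw [Ideal.map_le_iff_le_comap]
      intro z hz
      obtain ⟨s, hs, hsz⟩ := h z hz
      rw [Ideal.mem_comap]
      have h3 : algebraMap R B (s * z) ∈ b.map (algebraMap R B) ⊔
        I₁.map (algebraMap R B) • I₁.map (algebraMap R B) := by
        have := Ideal.mem_map_of_mem (algebraMap R B) hsz
        rwa [Ideal.map_sup, Ideal.map_pow, pow_two] at this
      rw [map_mul] at h3
      have hu : IsUnit (algebraMap R B s) := IsLocalization.map_units B (⟨s, hs⟩ : I₁.primeCompl)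
      exact (Ideal.unit_mul_mem_iff_mem _ hu).mp h3
    have h4 : I₁.map (algebraMap R B) ≤ b.map (algebraMap R B) := by
      refine Submodule.le_of_le_smul_of_le_jacobson_bot
        (I := I₁.map (algebraMap R B)) (I₁.map (algebraMap R B)).fg_of_isNoetherianRing ?_ h2
      rw [h0]
      exact (IsLocalRing.jacobson_eq_maximalIdeal _ bot_ne_top).ge
    intro z hz
    have h5 := h4 (Ideal.mem_map_of_mem (algebraMap R B) hz)
    rw [IsLocalization.algebraMap_mem_map_algebraMap_iff I₁.primeCompl] at h5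
    obtain ⟨s, hs, hsz⟩ := h5
    exact ⟨s, hs, hsz⟩
  exact exists_common_denominator I₁ b I₁ I₁.fg_of_isNoetherianRing h1

end Vale.Agent.P178
end
end

section

section

namespace Vale.Agent.P178

open Ideal Matrix

/-- Generic determinant: `N + lam • diagonal δ` is nonsingular modulo `P` for some `lam`. -/
theorem exists_det_notMem {A : Type*} [CommRing A] (P : Ideal A) [hP : P.IsPrime]
    (hmax : ¬ P.IsMaximal) (m : ℕ) (N : Matrix (Fin m) (Fin m) A) (δ : Fin m → A)
    (hδ : ∀ j, δ j ∉ P) :
    ∃ lam : A, (N + Matrix.diagonal (fun j => lam * δ j)).det ∉ P := by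
  classical
  let k := FractionRing (A ⧸ P)
  let f : A →+* k := (algebraMap (A ⧸ P) k).comp (Ideal.Quotient.mk P)
  have hf : ∀ a, f a = 0 ↔ a ∈ P := by
    intro a
    rw [← Ideal.Quotient.eq_zero_iff_mem]
    exact (IsFractionRing.injective (A ⧸ P) k).eq_iff' (map_zero _)
  have hinf : Infinite (A ⧸ P) := by
    by_contra hfin
    rw [not_infinite_iff_finite] at hfin
    apply hmax
    rw [Ideal.Quotient.maximal_ideal_iff_isField_quotient]
    exact Finite.isField_of_domain (A ⧸ P)
  have hinf' : (Set.range f).Infinite := by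
    have h1 : Set.range f = Set.range (algebraMap (A ⧸ P) k) := by
      ext x
      constructor
      · rintro ⟨a, rfl⟩; exact ⟨_, rfl⟩
      · rintro ⟨y, rfl⟩
        obtain ⟨a, rfl⟩ := Ideal.Quotient.mk_surjective y
        exact ⟨a, rfl⟩
    rw [h1]
    exact Set.infinite_range_of_injective (IsFractionRing.injective (A ⧸ P) k)
  have hδ0 : ∀ j, f (δ j) ≠ 0 := fun j h => hδ j ((hf _).mp h)
  let N' : Matrix (Fin m) (Fin m) k := Matrix.of fun i j => - ((f (δ i))⁻¹ * f (N i j))
  have hroots : {x | (N'.charpoly).IsRoot x}.Finite :=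
    Polynomial.finite_setOfPred_isRoot (Matrix.charpoly_monic N').ne_zero
  obtain ⟨_, ⟨lam, rfl⟩, hlam⟩ := (hinf'.sdiff hroots).nonempty
  refine ⟨lam, fun hmem => hlam ?_⟩
  rw [← hf, RingHom.map_det] at hmem
  have h2 : f.mapMatrix (N + Matrix.diagonal (fun j => lam * δ j)) =
      Matrix.diagonal (fun j => f (δ j)) * (Matrix.scalar (Fin m) (f lam) - N') := by
    ext i j
    rw [Matrix.diagonal_mul]
    simp only [RingHom.mapMatrix_apply, Matrix.map_apply, Matrix.add_apply, map_add,
      Matrix.sub_apply, Matrix.scalar_apply, N', Matrix.of_apply, sub_neg_eq_add]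
    by_cases hij : i = j
    · subst hij
      simp only [Matrix.diagonal_apply_eq, map_mul]
      rw [mul_add, ← mul_assoc (f (δ i)) _ _, mul_inv_cancel₀ (hδ0 i), one_mul]
      ring
    · simp only [Matrix.diagonal_apply_ne _ hij, map_zero]
      rw [mul_add, ← mul_assoc (f (δ i)) _ _, mul_inv_cancel₀ (hδ0 i), one_mul]
      ring
  rw [h2, Matrix.det_mul, Matrix.det_diagonal] at hmem
  have h3 : ∏ j, f (δ j) ≠ 0 := Finset.prod_ne_zero_iff.mpr fun j _ => hδ0 j
  have h4 := (mul_eq_zero.mp hmem).resolve_left h3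
  change (N'.charpoly).IsRoot (f lam)
  rw [Polynomial.IsRoot, Matrix.eval_charpoly]
  exact h4

end Vale.Agent.P178
end
end

section

section

namespace Vale.Agent.P178

open Ideal MvPolynomial

theorem exists_reduce_mod_linear {A : Type*} [CommRing A] {m : ℕ} (P : Ideal A) [hP : P.IsPrime]
    (s a : Fin m → A) (hs : ∀ j, s j ∉ P) (f : MvPolynomial (Fin m) A) :
    ∃ σ, σ ∉ P ∧ ∃ c : A, C σ * f - C c ∈
      span (Set.range fun j => (C (s j) * X j - C (a j) : MvPolynomial (Fin m) A)) := by
  induction f using MvPolynomial.induction_on with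
  | C b => exact ⟨1, fun h1 => hP.ne_top ((Ideal.eq_top_iff_one P).mpr h1), b, by simp⟩
  | add f g hf hg =>
    obtain ⟨σ, hσ, c, hc⟩ := hf
    obtain ⟨τ, hτ, d, hd⟩ := hg
    refine ⟨σ * τ, fun h => (hP.mem_or_mem h).elim hσ hτ, c * τ + d * σ, ?_⟩
    have : C (σ * τ) * (f + g) - C (c * τ + d * σ) =
        C τ * (C σ * f - C c) + C σ * (C τ * g - C d) := by
      simp only [C_mul, C_add]; ring
    rw [this]
    exact Ideal.add_mem _ (Ideal.mul_mem_left _ _ hc) (Ideal.mul_mem_left _ _ hd)
  | mul_X f j hf =>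
    obtain ⟨σ, hσ, c, hc⟩ := hf
    refine ⟨σ * s j, fun h => (hP.mem_or_mem h).elim hσ (hs j), c * a j, ?_⟩
    have : C (σ * s j) * (f * X j) - C (c * a j) =
        C (s j) * X j * (C σ * f - C c) + C c * (C (s j) * X j - C (a j)) := by
      simp only [C_mul]; ring
    rw [this]
    exact Ideal.add_mem _ (Ideal.mul_mem_left _ _ hc)
      (Ideal.mul_mem_left _ _ (Ideal.subset_span ⟨j, rfl⟩))

theorem exists_lambda_unramified {A : Type*} [CommRing A] [IsNoetherianRing A] {m : ℕ}
    (I₁ : Ideal (MvPolynomial (Fin m) A)) [hI₁ : I₁.IsPrime] (P : Ideal A)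
    (hP : P = I₁.comap C) (hPmax : ¬ P.IsMaximal) (s a : Fin m → A) (hs : ∀ j, s j ∉ P)
    (hε : ∀ j, (C (s j) * X j - C (a j) : MvPolynomial (Fin m) A) ∈ I₁)
    (g : Fin m → MvPolynomial (Fin m) A) (hg : ∀ j, g j ∈ I₁)
    (ρ : MvPolynomial (Fin m) A) (hρ : ρ ∉ I₁) :
    ∃ lam : A, ∀ h : Fin m → MvPolynomial (Fin m) A, (∀ j, h j ∈ I₁ ^ 2) →
      ∃ u, u ∉ I₁ ∧ ∀ z ∈ I₁, u * z ∈ P.map (C : A →+* MvPolynomial (Fin m) A) ⊔
        span (Set.range fun j => g j + C lam * ρ * (C (s j) * X j - C (a j)) + h j) := by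
  classical
  let T := MvPolynomial (Fin m) A
  let ε : Fin m → T := fun j => C (s j) * X j - C (a j)
  have hPp : P.IsPrime := hP ▸ Ideal.comap_isPrime _ _
  let PS : Ideal T := P.map (C : A →+* T)
  have hPS : PS ≤ I₁ := by
    rw [Ideal.map_le_iff_le_comap, hP]
  have hεI : span (Set.range ε) ≤ I₁ := by
    rw [Ideal.span_le]; rintro _ ⟨j, rfl⟩; exact hε j
  -- elements of `I₁`
  have hB2 : ∀ z ∈ I₁, ∃ σ, σ ∉ P ∧ C σ * z ∈ span (Set.range ε) ⊔ PS := by
    intro z hz
    obtain ⟨σ, hσ, c, hc⟩ := exists_reduce_mod_linear P s a hs z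
    have hcI : (C c : T) ∈ I₁ := by
      have h1 := hεI hc
      have h2 : (C σ * z : T) ∈ I₁ := Ideal.mul_mem_left _ _ hz
      simpa using Ideal.sub_mem _ h2 h1
    have hcP : c ∈ P := by rw [hP]; exact hcI
    refine ⟨σ, hσ, ?_⟩
    have : (C σ * z : T) = (C σ * z - C c) + C c := by ring
    rw [this]
    exact Submodule.add_mem_sup hc (Ideal.mem_map_of_mem _ hcP)
  -- linear parts of the `g j`
  have hlin : ∀ j, ∃ σ, σ ∉ P ∧ ∃ c : Fin m → A,
      C σ * g j - ∑ l, C (c l) * ε l ∈ PS ⊔ I₁ ^ 2 := by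
    intro j
    obtain ⟨σ, hσ, h1⟩ := hB2 (g j) (hg j)
    obtain ⟨y, hy, w, hw, hyw⟩ := Submodule.mem_sup.mp h1
    obtain ⟨Γ, hΓ⟩ := (Submodule.mem_span_range_iff_exists_fun T).mp hy
    choose τ hτ c hc using fun l => exists_reduce_mod_linear P s a hs (Γ l)
    -- common denominator
    let t : A := ∏ l, τ l
    have ht : t ∉ P := by
      intro h
      obtain ⟨l, _, hl⟩ := hPp.prod_mem_iff.mp h
      exact hτ l hl
    refine ⟨t * σ, fun h => (hPp.mem_or_mem h).elim ht hσ,
      fun l => (∏ l' ∈ Finset.univ.erase l, τ l') * c l, ?_⟩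
    have h2 : (C (t * σ) * g j : T) = ∑ l, C t * (Γ l * ε l) + C t * w := by
      have : (C σ * g j : T) = ∑ l, Γ l * ε l + w := by
        rw [← hyw, ← hΓ]; simp [smul_eq_mul]
      rw [C_mul, mul_assoc, this, mul_add, Finset.mul_sum]
    rw [h2]
    have h3 : ∀ l, (C t : T) = C (∏ l' ∈ Finset.univ.erase l, τ l') * C (τ l) := by
      intro l
      rw [← C_mul, Finset.prod_erase_mul _ _ (Finset.mem_univ l)]
    have h4 : (∑ l, C t * (Γ l * ε l) + C t * w -
        ∑ l, C ((∏ l' ∈ Finset.univ.erase l, τ l') * c l) * ε l : T) =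
        C t * w + ∑ l, (C (∏ l' ∈ Finset.univ.erase l, τ l') * (C (τ l) * Γ l - C (c l))) * ε l := by
      rw [add_comm (∑ l, _) (C t * w), add_sub_assoc, ← Finset.sum_sub_distrib]
      congr 1
      refine Finset.sum_congr rfl fun l _ => ?_
      rw [h3 l, C_mul]
      ring
    rw [h4]
    refine Submodule.add_mem_sup (Ideal.mul_mem_left _ _ hw) (Ideal.sum_mem _ fun l _ => ?_)
    rw [pow_two]
    exact Ideal.mul_mem_mul (Ideal.mul_mem_left _ _ (hεI (hc l))) (hε l)
  choose σ hσ c hc using hlin
  obtain ⟨τ, hτ, r, hr⟩ := exists_reduce_mod_linear P s a hs ρ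
  have hrP : r ∉ P := by
    intro h
    have h1 : (C r : T) ∈ I₁ := by rw [hP] at h; exact h
    have h2 : (C τ * ρ : T) ∈ I₁ := by
      have := Ideal.add_mem _ (hεI hr) h1
      simpa using this
    rcases hI₁.mem_or_mem h2 with h3 | h3
    · exact hτ (by rw [hP]; exact h3)
    · exact hρ h3
  obtain ⟨lam, hlam⟩ := exists_det_notMem P hPmax m (Matrix.of fun j l => τ * c j l)
    (fun j => σ j * r) (fun j h => (hPp.mem_or_mem h).elim (hσ j) hrP)
  refine ⟨lam, fun h hh => ?_⟩
  let F : Fin m → T := fun j => g j + C lam * ρ * ε j + h j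
  let M : Matrix (Fin m) (Fin m) A :=
    (Matrix.of fun j l => τ * c j l) + Matrix.diagonal (fun j => lam * (σ j * r))
  let b : Ideal T := PS ⊔ span (Set.range F)
  have hFM : ∀ j, (∑ l, C (M j l) * ε l : T) ∈ b ⊔ I₁ ^ 2 := by
    intro j
    have h1 : (∑ l, C (M j l) * ε l : T) = C τ * ∑ l, C (c j l) * ε l +
        C (lam * (σ j * r)) * ε j := by
      simp only [M, Matrix.add_apply, Matrix.of_apply, C_add, add_mul, Finset.sum_add_distrib,
        Finset.mul_sum, C_mul, mul_assoc]
      congr 1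
      rw [Finset.sum_eq_single j]
      · simp [Matrix.diagonal_apply_eq, C_mul, mul_assoc]
      · intro l _ hl
        simp [Matrix.diagonal_apply_ne _ (Ne.symm hl)]
      · simp
    have h2 : (∑ l, C (M j l) * ε l : T) = C (τ * σ j) * F j
        - (C τ * (C (σ j) * g j - ∑ l, C (c j l) * ε l)
          + C (lam * σ j) * ((C τ * ρ - C r) * ε j) + C (τ * σ j) * h j) := by
      rw [h1]
      simp only [F, C_mul]
      ring
    rw [h2]
    refine Ideal.sub_mem _ (Submodule.mem_sup_left (Ideal.mul_mem_left _ _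
      (Submodule.mem_sup_right (Ideal.subset_span ⟨j, rfl⟩)))) ?_
    refine Ideal.add_mem _ (Ideal.add_mem _ ?_ ?_) ?_
    · refine Ideal.mul_mem_left _ _ ?_
      have : PS ⊔ I₁ ^ 2 ≤ b ⊔ I₁ ^ 2 := sup_le_sup_right le_sup_left _
      exact this (hc j)
    · refine Ideal.mul_mem_left _ _ (Submodule.mem_sup_right ?_)
      rw [pow_two]
      exact Ideal.mul_mem_mul (hεI hr) (hε j)
    · exact Ideal.mul_mem_left _ _ (Submodule.mem_sup_right (hh j))
  have hdetε : ∀ l, (C M.det * ε l : T) ∈ b ⊔ I₁ ^ 2 := by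
    intro l
    have h1 : (C M.det * ε l : T) = ∑ j, C (M.adjugate l j) * ∑ k, C (M j k) * ε k := by
      have h2 : ∀ k, ∑ j, M.adjugate l j * M j k = if l = k then M.det else 0 := by
        intro k
        have := congrFun (congrFun (Matrix.adjugate_mul M) l) k
        rw [Matrix.mul_apply] at this
        rw [this, Matrix.smul_apply, Matrix.one_apply]
        simp
      calc (C M.det * ε l : T) = ∑ k, C (if l = k then M.det else 0) * ε k := by
            rw [Finset.sum_eq_single l]
            · simp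
            · intro k _ hk; simp [Ne.symm hk]
            · simp
        _ = ∑ k, (∑ j, C (M.adjugate l j) * C (M j k)) * ε k := by
            refine Finset.sum_congr rfl fun k _ => ?_
            rw [← h2 k, map_sum]
            simp only [C_mul]
        _ = ∑ k, ∑ j, C (M.adjugate l j) * C (M j k) * ε k :=
            Finset.sum_congr rfl fun k _ => Finset.sum_mul _ _ _
        _ = ∑ j, ∑ k, C (M.adjugate l j) * C (M j k) * ε k := Finset.sum_comm
        _ = _ := by
            refine Finset.sum_congr rfl fun j _ => ?_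
            rw [Finset.mul_sum]
            exact Finset.sum_congr rfl fun k _ => mul_assoc _ _ _
    rw [h1]
    exact Ideal.sum_mem _ fun j _ => Ideal.mul_mem_left _ _ (hFM j)
  have hspan : ∀ y ∈ span (Set.range ε), (C M.det * y : T) ∈ b ⊔ I₁ ^ 2 := by
    intro y hy
    obtain ⟨Γ, hΓ⟩ := (Submodule.mem_span_range_iff_exists_fun T).mp hy
    rw [← hΓ, Finset.mul_sum]
    refine Ideal.sum_mem _ fun l _ => ?_
    rw [smul_eq_mul, mul_left_comm]
    exact Ideal.mul_mem_left _ _ (hdetε l)
  have hdetI : (C M.det : T) ∉ I₁ := by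
    intro h'
    apply hlam
    rw [hP]
    exact h'
  apply exists_mul_mem_of_le_sup_sq I₁ b
  intro z hz
  obtain ⟨σ', hσ', h1⟩ := hB2 z hz
  obtain ⟨y, hy, w, hw, hyw⟩ := Submodule.mem_sup.mp h1
  refine ⟨C M.det * C σ', ?_, ?_⟩
  · intro h'
    rcases hI₁.mem_or_mem h' with h'' | h''
    · exact hdetI h''
    · exact hσ' (by rw [hP]; exact h'')
  · rw [mul_assoc, ← hyw, mul_add]
    exact Ideal.add_mem _ (hspan y hy)
      (Submodule.mem_sup_left (Submodule.mem_sup_left (Ideal.mul_mem_left _ _ hw)))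

end Vale.Agent.P178
end
end

section

section

namespace Vale.Agent.P178

open Ideal Module

theorem exists_gens_of_finrank_cotangent {R : Type*} [CommRing R] [IsNoetherianRing R]
    (M : Ideal R) [M.IsMaximal] (c : ℕ) (h : finrank (R ⧸ M) M.Cotangent ≤ c) :
    ∃ b : Fin c → R, (∀ i, b i ∈ M) ∧ M ≤ span (Set.range b) ⊔ M ^ 2 := by
  let : Field (R ⧸ M) := Ideal.Quotient.field M
  have hfinV0 : Module.Finite R M.Cotangent :=
    Module.Finite.of_surjective M.toCotangent M.toCotangent_surjective
  have hfinV : Module.Finite (R ⧸ M) M.Cotangent := Module.Finite.of_restrictScalars_finite R _ _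
  have h1 : finrank (R ⧸ M) (M.Cotangent ⧸ (⊥ : Submodule (R ⧸ M) M.Cotangent)) ≤ c := by
    rw [(Submodule.quotEquivOfEqBot (⊥ : Submodule (R ⧸ M) M.Cotangent) rfl).finrank_eq]
    exact h
  obtain ⟨z, hz⟩ := exists_complement_vectors _ c h1
  rw [bot_sup_eq] at hz
  choose z' hz' using fun i => M.toCotangent_surjective (z i)
  refine ⟨fun i => z' i, fun i => (z' i).2, ?_⟩
  have h2 : Submodule.span (R ⧸ M) (M.toCotangent '' (Set.range z')) = ⊤ := by
    rw [← Set.range_comp]
    have e2 : M.toCotangent ∘ z' = z := funext hz'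
    rw [e2]
    exact hz
  rw [cotangent_span_eq_top_iff, ← Set.range_comp] at h2
  exact h2

/-- Regularity of the localization of a quotient. -/
theorem regular_localization_quotient {T : Type*} [CommRing T] [IsNoetherianRing T]
    (q : Ideal T) [q.IsMaximal] (r c : ℕ) (H : Fin r → T) (z : Fin c → T)
    (hH : ∀ i, H i ∈ q) (hz : ∀ i, z i ∈ q)
    (hq : q ≤ span (Set.range H) ⊔ span (Set.range z) ⊔ q ^ 2)
    (hht : q.height = (r + c : ℕ))
    (M : Ideal (T ⧸ span (Set.range H))) [M.IsMaximal]
    (hM : M.comap (Ideal.Quotient.mk _) = q) :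
    IsRegularLocalRing (Localization.AtPrime M) ∧
      ringKrullDim (Localization.AtPrime M) = c := by
  let K := span (Set.range H)
  let B := Localization.AtPrime q
  let K' := K.map (algebraMap T B)
  have hKq : K ≤ q := by
    rw [Ideal.span_le]; rintro _ ⟨i, rfl⟩; exact hH i
  have hzq : span (Set.range z) ≤ q := by
    rw [Ideal.span_le]; rintro _ ⟨i, rfl⟩; exact hz i
  have h1 := maximalIdeal_eq_of_le_sup_sq q (K ⊔ span (Set.range z)) (sup_le hKq hzq) hq
  rw [Ideal.map_sup, Ideal.map_span, Ideal.map_span, ← Set.range_comp, ← Set.range_comp] at h1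
  have h2 : ((r + c : ℕ) : WithBot ℕ∞) ≤ ringKrullDim B := by
    rw [IsLocalization.AtPrime.ringKrullDim_eq_height q B, hht]
    rfl
  obtain ⟨h3, h4⟩ := regular_quotient r c _ _ h1 h2
  have hK' : K' = span (Set.range (algebraMap T B ∘ H)) := by
    rw [Set.range_comp, ← Ideal.map_span]
  rw [← hK'] at h3 h4
  have hloc := (inferInstance : IsLocalization (Algebra.algebraMapSubmonoid (T ⧸ K) q.primeCompl)
    (B ⧸ K'))
  have hsub : Algebra.algebraMapSubmonoid (T ⧸ K) q.primeCompl = M.primeCompl := by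
    ext x
    constructor
    · rintro ⟨y, hy, rfl⟩
      intro hyM
      apply hy
      rw [← hM]
      exact hyM
    · intro hx
      obtain ⟨y, rfl⟩ := Ideal.Quotient.mk_surjective x
      refine ⟨y, ?_, rfl⟩
      intro hyq
      apply hx
      have : y ∈ M.comap (Ideal.Quotient.mk _) := hM ▸ hyq
      exact this
  rw [hsub] at hloc
  let e : (B ⧸ K') ≃+* Localization.AtPrime M :=
    (IsLocalization.algEquiv M.primeCompl (B ⧸ K') (Localization.AtPrime M)).toRingEquiv
  exact ⟨IsRegularLocalRing.of_ringEquiv e, (ringKrullDim_eq_of_ringEquiv e).symm.trans h4⟩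

end Vale.Agent.P178
end
end

section

section

namespace Vale.Agent.P178

open Ideal

theorem isDomain_of_localizations {E : Type*} [CommRing E] [Nontrivial E] (p : Ideal E)
    [hp : p.IsPrime] (h1 : ∀ M : Ideal E, M.IsMaximal → p ≤ M)
    (h2 : ∀ (M : Ideal E) [M.IsMaximal], IsDomain (Localization.AtPrime M)) : IsDomain E := by
  have hzero : ∀ (M : Ideal E) [M.IsMaximal] (x : E),
      algebraMap E (Localization.AtPrime M) x = 0 ↔ ∃ t, t ∉ M ∧ t * x = 0 := by
    intro M _ x
    rw [IsLocalization.map_eq_zero_iff M.primeCompl]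
    constructor
    · rintro ⟨t, ht⟩; exact ⟨t, t.2, ht⟩
    · rintro ⟨t, ht, htx⟩; exact ⟨⟨t, ht⟩, htx⟩
  have hcl : ∀ s z : E, s ∉ p → s * z = 0 → z = 0 := by
    intro s z hs hsz
    by_contra hz
    have hann : Ideal.span {z} ≠ ⊥ := by simpa using hz
    -- the annihilator is contained in a maximal ideal
    let a : Ideal E := (Submodule.span E {z}).annihilator
    have ha : a ≠ ⊤ := by
      intro h
      apply hz
      have h1' : (1 : E) ∈ a := h ▸ Submodule.mem_top
      have := (Submodule.mem_annihilator_span_singleton z 1).mp h1'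
      simpa using this
    obtain ⟨M, hM, haM⟩ := Ideal.exists_le_maximal a ha
    have := h2 M
    have h3 : algebraMap E (Localization.AtPrime M) s * algebraMap E (Localization.AtPrime M) z
        = 0 := by
      rw [← map_mul, hsz, map_zero]
    rcases mul_eq_zero.mp h3 with h4 | h4
    · obtain ⟨t, ht, hts⟩ := (hzero M s).mp h4
      have h5 : t * s ∈ p := by rw [hts]; exact p.zero_mem
      rcases hp.mem_or_mem h5 with h6 | h6
      · exact ht (h1 M hM h6)
      · exact hs h6
    · obtain ⟨t, ht, htz⟩ := (hzero M z).mp h4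
      apply ht
      apply haM
      exact (Submodule.mem_annihilator_span_singleton z t).mpr (by simpa using htz)
  have hnzd : NoZeroDivisors E := by
    refine ⟨fun {x y} hxy => ?_⟩
    obtain ⟨M, hM⟩ := Ideal.exists_maximal E
    have := h2 M
    have h3 : algebraMap E (Localization.AtPrime M) x * algebraMap E (Localization.AtPrime M) y
        = 0 := by
      rw [← map_mul, hxy, map_zero]
    rcases mul_eq_zero.mp h3 with h4 | h4
    · obtain ⟨t, ht, htx⟩ := (hzero M x).mp h4
      exact Or.inl (hcl t x (fun h => ht (h1 M hM h)) htx)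
    · obtain ⟨t, ht, hty⟩ := (hzero M y).mp h4
      exact Or.inr (hcl t y (fun h => ht (h1 M hM h)) hty)
  exact NoZeroDivisors.to_isDomain E

/-- Birationality from a reduced point in a single fibre. -/
theorem exists_denominator_of_unique_prime {A E : Type*} [CommRing A] [CommRing E] [Algebra A E]
    [Module.Finite A E] (P : Ideal A) [hP : P.IsPrime] (p : Ideal E) [hp : p.IsPrime]
    (huniq : ∀ q : Ideal E, q.IsPrime → q.comap (algebraMap A E) = P → q = p)
    (hres : ∀ x : E, ∃ s a : A, s ∉ P ∧ algebraMap A E s * x - algebraMap A E a ∈ p)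
    (hun : ∃ u, u ∉ p ∧ ∀ z ∈ p, u * z ∈ P.map (algebraMap A E)) :
    ∀ x : E, ∃ s a : A, s ∉ P ∧ algebraMap A E s * x = algebraMap A E a := by
  obtain ⟨u, hu, hup⟩ := hun
  -- step 1
  have h1 : ∃ s, s ∉ P ∧ algebraMap A E s ∈ P.map (algebraMap A E) ⊔ span {u} := by
    by_contra hcon
    push Not at hcon
    have hdisj : Disjoint ((P.map (algebraMap A E) ⊔ span {u} : Ideal E) : Set E)
        (Algebra.algebraMapSubmonoid E P.primeCompl : Set E) := by
      rw [Set.disjoint_left]
      rintro x hx ⟨s, hs, rfl⟩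
      exact hcon s hs hx
    obtain ⟨q, hqp, hq1, hq2⟩ := Ideal.exists_le_prime_disjoint _ _ hdisj
    have h3 : q.comap (algebraMap A E) = P := by
      apply le_antisymm
      · intro a ha
        by_contra haP
        exact Set.disjoint_left.mp hq2 ha ⟨a, haP, rfl⟩
      · rw [← Ideal.map_le_iff_le_comap]
        exact le_sup_left.trans hq1
    have h4 := huniq q hqp h3
    apply hu
    rw [← h4]
    exact hq1 (Submodule.mem_sup_right (Ideal.mem_span_singleton_self u))
  obtain ⟨s', hs', hs'm⟩ := h1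
  obtain ⟨w, hw, y, hy, hwy⟩ := Submodule.mem_sup.mp hs'm
  obtain ⟨e, rfl⟩ := Ideal.mem_span_singleton'.mp hy
  let L : Submodule A E := LinearMap.range (Algebra.linearMap A E)
  have h2 : ∀ x : E, ∃ σ, σ ∉ P ∧ σ • x ∈ L ⊔ P • (⊤ : Submodule A E) := by
    intro x
    obtain ⟨s, a, hs, hsa⟩ := hres x
    refine ⟨s' * s, fun h => (hP.mem_or_mem h).elim hs' hs, ?_⟩
    have h3 : algebraMap A E s' * (algebraMap A E s * x - algebraMap A E a) ∈
        P.map (algebraMap A E) := by
      rw [← hwy, add_mul]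
      refine Ideal.add_mem _ (Ideal.mul_mem_right _ _ hw) ?_
      rw [mul_assoc]
      exact Ideal.mul_mem_left _ _ (hup _ hsa)
    have h4 : (s' * s) • x = algebraMap A E (s' * a) +
        algebraMap A E s' * (algebraMap A E s * x - algebraMap A E a) := by
      rw [Algebra.smul_def, map_mul, map_mul]; ring
    rw [h4]
    refine Submodule.add_mem_sup ⟨s' * a, rfl⟩ ?_
    rw [Ideal.smul_top_eq_map]
    exact h3
  obtain ⟨σ, hσ, hσx⟩ := exists_common_denominator P (L ⊔ P • (⊤ : Submodule A E)) ⊤
    Module.Finite.fg_top (fun x _ => h2 x)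
  -- Cayley-Hamilton on the quotient
  let f : Module.End A (E ⧸ L) := algebraMap A _ σ
  have hf : LinearMap.range f ≤ P • (⊤ : Submodule A (E ⧸ L)) := by
    rintro _ ⟨y, rfl⟩
    obtain ⟨x, rfl⟩ := L.mkQ_surjective y
    have h5 := hσx x trivial
    have h6 : f (L.mkQ x) = L.mkQ (σ • x) := by
      simp [f, Module.algebraMap_end_apply]
    rw [h6]
    obtain ⟨a, ha, b, hb, hab⟩ := Submodule.mem_sup.mp h5
    rw [← hab, map_add]
    have h7 : L.mkQ a = 0 := by simpa using ha
    rw [h7, zero_add]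
    have h8 : (P • (⊤ : Submodule A E)).map L.mkQ = P • (⊤ : Submodule A (E ⧸ L)) := by
      rw [Submodule.map_smul'', Submodule.map_top, Submodule.range_mkQ]
    rw [← h8]
    exact Submodule.mem_map_of_mem hb
  obtain ⟨p', hp', -, hp'c, hp'0⟩ :=
    LinearMap.exists_monic_and_natDegree_eq_and_coeff_mem_pow_and_aeval_eq_zero A f P hf
  have hev : p'.eval σ ∉ P := by
    intro h
    have h9 : Ideal.Quotient.mk P (p'.eval σ) = Ideal.Quotient.mk P σ ^ p'.natDegree := by
      rw [Polynomial.eval_eq_sum_range, map_sum, Finset.sum_range_succ, hp'.coeff_natDegree,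
        one_mul, map_pow]
      rw [Finset.sum_eq_zero, zero_add]
      intro i hi
      rw [map_mul, Ideal.Quotient.eq_zero_iff_mem.mpr, zero_mul]
      have := hp'c i
      refine Ideal.pow_le_self ?_ this
      have := Finset.mem_range.mp hi
      omega
    rw [Ideal.Quotient.eq_zero_iff_mem.mpr h] at h9
    have h10 : σ ^ p'.natDegree ∈ P := by
      rw [← Ideal.Quotient.eq_zero_iff_mem, map_pow, ← h9]
    exact hσ (hP.mem_of_pow_mem _ h10)
  intro x
  have h11 : p'.eval σ • L.mkQ x = 0 := by
    have h12 : Polynomial.aeval f p' = algebraMap A (Module.End A (E ⧸ L)) (p'.eval σ) := by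
      rw [Polynomial.aeval_algebraMap_apply, Polynomial.aeval_def, Algebra.algebraMap_self,
        Polynomial.eval₂_id]
    rw [h12] at hp'0
    have := congrArg (fun g : Module.End A (E ⧸ L) => g (L.mkQ x)) hp'0
    simpa [Module.algebraMap_end_apply] using this
  rw [← map_smul] at h11
  have h13 : p'.eval σ • x ∈ L := by
    have h14 : p'.eval σ • x ∈ LinearMap.ker L.mkQ := h11
    rwa [Submodule.ker_mkQ] at h14
  obtain ⟨a, ha⟩ := h13
  exact ⟨p'.eval σ, a, hev, by rw [← Algebra.smul_def, ← ha]; rfl⟩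

end Vale.Agent.P178
end
end

section

section

namespace Vale.Agent.P178

open IsLocalRing Ideal Module

/-- A regular local ring is a domain. -/
theorem isDomain_of_isRegularLocalRing (R : Type*) [CommRing R] [IsRegularLocalRing R] :
    IsDomain R := regular_isDomain R

theorem isRegularLocalRing_quotient (R : Type*) [CommRing R] [IsRegularLocalRing R] {x : R}
    (hx : x ∈ maximalIdeal R) (hx2 : x ∉ maximalIdeal R ^ 2) :
    IsRegularLocalRing (R ⧸ Ideal.span {x}) ∧
      ringKrullDim (R ⧸ Ideal.span {x}) + 1 = ringKrullDim R := by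
  have hdim := IsRegularLocalRing.spanFinrank_maximalIdeal (R := R)
  have hfr := (IsRegularLocalRing.iff_finrank_cotangentSpace R).mp inferInstance
  have hfr' : finrank (ResidueField R) (CotangentSpace R) = (maximalIdeal R).spanFinrank := by
    rw [← hdim] at hfr
    exact_mod_cast hfr
  obtain ⟨n, hn⟩ : ∃ n, (maximalIdeal R).spanFinrank = n + 1 := by
    refine Nat.exists_eq_succ_of_ne_zero fun h0 => ?_
    have h3 : maximalIdeal R = ⊥ := by
      rwa [Submodule.spanFinrank_eq_zero_iff_eq_bot (maximalIdeal R).fg_of_isNoetherianRing] at h0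
    rw [h3] at hx
    rw [Ideal.mem_bot.mp hx] at hx2
    exact hx2 (Ideal.zero_mem _)
  obtain ⟨z, hz⟩ := exists_gens_of_notMem_sq n (by omega) x hx hx2
  have hrange : Set.range (fun _ : Fin 1 => x) = {x} := by simp
  obtain ⟨h1, h2⟩ := regular_quotient 1 n (fun _ : Fin 1 => x) z (by rw [hrange]; exact hz)
    (by rw [← hdim, hn, add_comm])
  rw [hrange] at h1 h2
  refine ⟨h1, ?_⟩
  rw [h2, ← hdim, hn]
  push_cast
  rfl

/-- Height of the ideal generated by part of a regular system of parameters. -/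
theorem le_height_span_of_regular {R : Type*} [CommRing R] [IsRegularLocalRing R] (r : ℕ) :
    ∀ (c : ℕ) (g : Fin r → R) (z : Fin c → R),
      maximalIdeal R = span (Set.range g) ⊔ span (Set.range z) →
      ((r + c : ℕ) : WithBot ℕ∞) ≤ ringKrullDim R → (r : ℕ∞) ≤ (span (Set.range g)).height := by
  induction r with
  | zero => intro c g z _ _; simp
  | succ r ih =>
    intro c g z hgz hdim
    have hrange : Set.range g = insert (g (Fin.last r)) (Set.range (g ∘ Fin.castSucc)) := by
      ext x
      constructor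
      · rintro ⟨i, rfl⟩
        rcases Fin.eq_castSucc_or_eq_last i with ⟨j, rfl⟩ | rfl
        · exact Or.inr ⟨j, rfl⟩
        · exact Or.inl rfl
      · rintro (rfl | ⟨j, rfl⟩)
        · exact ⟨_, rfl⟩
        · exact ⟨_, rfl⟩
    let z' : Fin (c + 1) → R := Fin.cons (g (Fin.last r)) z
    have hz' : Set.range z' = insert (g (Fin.last r)) (Set.range z) := Fin.range_cons _ _
    have hgz' : maximalIdeal R = span (Set.range (g ∘ Fin.castSucc)) ⊔ span (Set.range z') := by
      rw [hgz, hrange, hz', Ideal.span_insert, Ideal.span_insert]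
      rw [sup_comm (span {g (Fin.last r)}) (span (Set.range (g ∘ Fin.castSucc))), sup_assoc]
    have hdim' : ((r + (c + 1) : ℕ) : WithBot ℕ∞) ≤ ringKrullDim R := by
      refine le_trans (le_of_eq ?_) hdim
      congr 1
      omega
    have h1 := ih (c + 1) (g ∘ Fin.castSucc) z' hgz' hdim'
    obtain ⟨hr1, hd1⟩ := regular_quotient r (c + 1) (g ∘ Fin.castSucc) z' hgz' hdim'
    obtain ⟨hr2, hd2⟩ := regular_quotient (r + 1) c g z hgz hdim
    have hp1 : (span (Set.range (g ∘ Fin.castSucc))).IsPrime :=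
      (Ideal.Quotient.isDomain_iff_prime _).mp (regular_isDomain _)
    have hp2 : (span (Set.range g)).IsPrime :=
      (Ideal.Quotient.isDomain_iff_prime _).mp (regular_isDomain _)
    have hle : span (Set.range (g ∘ Fin.castSucc)) ≤ span (Set.range g) := by
      rw [hrange, Ideal.span_insert]; exact le_sup_right
    have hlt : span (Set.range (g ∘ Fin.castSucc)) < span (Set.range g) := by
      refine lt_of_le_of_ne hle fun heq => ?_
      rw [heq] at hd1
      rw [hd1] at hd2
      have : c + 1 = c := by exact_mod_cast hd2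
      omega
    have h2 := Ideal.height_add_one_le_of_lt_of_isPrime hlt
    refine le_trans ?_ h2
    push_cast
    gcongr

theorem exists_regular_curve (A : Type*) [CommRing A] [IsRegularLocalRing A] (n : ℕ)
    (hdim : ringKrullDim A = n + 1) :
    ∃ P : PrimeSpectrum A, P.asIdeal.height = n ∧ IsDiscreteValuationRing (A ⧸ P.asIdeal) := by
  have h0 := IsRegularLocalRing.spanFinrank_maximalIdeal (R := A)
  have hD : (maximalIdeal A).spanFinrank = n + 1 := by
    rw [hdim] at h0
    exact_mod_cast h0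
  have hfg : (maximalIdeal A).FG := (maximalIdeal A).fg_of_isNoetherianRing
  have hfin := Submodule.FG.finite_generators hfg
  have hcard' : Nat.card (maximalIdeal A).generators = n + 1 :=
    (Submodule.FG.generators_ncard hfg).trans hD
  have : Finite (maximalIdeal A).generators := hfin
  let e : Fin (n + 1) ≃ (maximalIdeal A).generators := (Finite.equivFinOfCardEq hcard').symm
  let g : Fin n → A := fun i => ((e i.castSucc : (maximalIdeal A).generators) : A)
  let z : Fin 1 → A := fun _ => ((e (Fin.last n) : (maximalIdeal A).generators) : A)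
  have hgz : maximalIdeal A = span (Set.range g) ⊔ span (Set.range z) := by
    rw [← Ideal.span_union]
    have h1 : Set.range g ∪ Set.range z = (maximalIdeal A).generators := by
      ext x
      constructor
      · rintro (⟨i, rfl⟩ | ⟨i, rfl⟩)
        · exact (e _).2
        · exact (e _).2
      · intro hx
        obtain ⟨i, hi⟩ := e.surjective ⟨x, hx⟩
        rcases Fin.eq_castSucc_or_eq_last i with ⟨j, rfl⟩ | rfl
        · exact Or.inl ⟨j, by simp only [g, hi]⟩
        · exact Or.inr ⟨0, by simp only [z, hi]⟩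
    rw [h1]
    exact (Submodule.span_generators _).symm
  have hdim' : ((n + 1 : ℕ) : WithBot ℕ∞) ≤ ringKrullDim A := by
    rw [hdim]; push_cast; rfl
  obtain ⟨hr, hd⟩ := regular_quotient n 1 g z hgz hdim'
  have hdom : IsDomain (A ⧸ span (Set.range g)) := regular_isDomain _
  have hp : (span (Set.range g)).IsPrime := (Ideal.Quotient.isDomain_iff_prime _).mp hdom
  refine ⟨⟨span (Set.range g), hp⟩, le_antisymm ?_ ?_, ?_⟩
  · have h2 := Ideal.height_le_spanFinrank (span (Set.range g)) hp.ne_top
    refine h2.trans ?_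
    have h3 := Submodule.spanFinrank_span_le_encard (R := A) (Set.range g)
    exact h3.trans (encard_range_le g)
  · exact le_height_span_of_regular n 1 g z hgz hdim'
  · have hnf : ¬ IsField (A ⧸ span (Set.range g)) := by
      intro hf
      have : ringKrullDim (A ⧸ span (Set.range g)) = 0 := ringKrullDim_eq_zero_of_isField hf
      rw [hd] at this
      have h4 : (1 : ℕ) = 0 := by exact_mod_cast this
      omega
    have hpr : (maximalIdeal (A ⧸ span (Set.range g))).IsPrincipal := by
      rw [← finrank_cotangentSpace_le_one_iff]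
      have h5 := (IsRegularLocalRing.iff_finrank_cotangentSpace (A ⧸ span (Set.range g))).mp hr
      rw [hd] at h5
      have h6 : finrank (ResidueField (A ⧸ span (Set.range g)))
        (CotangentSpace (A ⧸ span (Set.range g))) = 1 := by exact_mod_cast h5
      exact h6.le
    exact ((IsDiscreteValuationRing.TFAE (A ⧸ span (Set.range g)) hnf).out 0 4).mpr hpr

end Vale.Agent.P178
end
end

section

section

namespace Vale.Agent.P178

open IsLocalRing Ideal Module

attribute [local instance] MvPolynomial.algebraMvPolynomial in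
/-- Height of a prime ideal of a polynomial ring with integral quotient. -/
theorem height_mvPolynomial_of_integral {A : Type*} [CommRing A] [IsNoetherianRing A]
    (m : ℕ) (K : Ideal (MvPolynomial (Fin m) A)) [hK : K.IsPrime]
    (hint : ∀ f : MvPolynomial (Fin m) A, IsIntegral A (Ideal.Quotient.mk K f)) :
    K.height = (K.comap (algebraMap A _)).height + m := by
  classical
  let Q : Ideal A := K.comap (algebraMap A _)
  have hQ : Q.IsPrime := Ideal.comap_isPrime _ _
  let B := Localization.AtPrime Q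
  let T := MvPolynomial (Fin m) A
  let T' := MvPolynomial (Fin m) B
  let S : Submonoid T := Q.primeCompl.map (MvPolynomial.C (σ := Fin m))
  have hloc : IsLocalization S T' := MvPolynomial.isLocalization _ _
  have hdisj : Disjoint (S : Set T) (K : Set T) := by
    rw [Set.disjoint_left]
    rintro _ ⟨a, ha, rfl⟩ hmem
    exact ha hmem
  let K' : Ideal T' := K.map (algebraMap T T')
  have hK'p : K'.IsPrime := IsLocalization.isPrime_of_isPrime_disjoint S T' K hK hdisj
  have hcomap : K'.comap (algebraMap T T') = K :=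
    IsLocalization.under_map_of_isPrime_disjoint S T' hK hdisj
  have hht : K'.height = K.height := by
    exact (IsLocalization.height_map_of_disjoint S K hdisj)
  have hCC : ∀ a : A, algebraMap T T' (MvPolynomial.C a) = MvPolynomial.C (algebraMap A B a) := by
    intro a
    rw [MvPolynomial.algebraMap_def, MvPolynomial.map_C]
  -- integrality over `B`
  have hint' : ∀ f : T', IsIntegral B (Ideal.Quotient.mk K' f) := by
    intro f
    obtain ⟨g, ⟨_, s, hs, rfl⟩, rfl⟩ := IsLocalization.exists_mk'_eq S f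
    have h1 : IsIntegral B (Ideal.Quotient.mk K' (algebraMap T T' g)) := by
      obtain ⟨p, hp, hpe⟩ := hint g
      refine ⟨p.map (algebraMap A B), hp.map _, ?_⟩
      have h2 : Ideal.Quotient.mk K (p.aeval g) = 0 := by
        rw [← hpe, Polynomial.eval₂_eq_sum_range, Polynomial.aeval_eq_sum_range, map_sum]
        refine Finset.sum_congr rfl fun i _ => ?_
        rw [Algebra.smul_def, map_mul, map_pow]
        rfl
      have h3 : algebraMap T T' (p.aeval g) ∈ K' :=
        Ideal.mem_map_of_mem _ (Ideal.Quotient.eq_zero_iff_mem.mp h2)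
      have h4 := Ideal.Quotient.eq_zero_iff_mem.mpr h3
      rw [← h4, Polynomial.eval₂_map, Polynomial.eval₂_eq_sum_range,
        Polynomial.aeval_eq_sum_range, map_sum, map_sum]
      refine Finset.sum_congr rfl fun i _ => ?_
      rw [Algebra.smul_def, map_mul, map_mul, map_pow, map_pow]
      congr 1
      change Ideal.Quotient.mk K' (MvPolynomial.C (algebraMap A B (p.coeff i))) = _
      rw [← hCC]
      rfl
    have hsu : IsUnit (algebraMap A B s) := IsLocalization.map_units B (⟨s, hs⟩ : Q.primeCompl)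
    obtain ⟨v, hv⟩ := hsu
    have h5 : IsLocalization.mk' T' g (⟨MvPolynomial.C s, s, hs, rfl⟩ : S) =
        MvPolynomial.C (↑v⁻¹ : B) * algebraMap T T' g := by
      rw [IsLocalization.mk'_eq_iff_eq_mul]
      rw [mul_right_comm]
      change _ = MvPolynomial.C (↑v⁻¹ : B) * algebraMap T T' (MvPolynomial.C s) * _
      rw [hCC, ← hv, ← MvPolynomial.C_mul, Units.inv_mul, MvPolynomial.C_1, one_mul]
    have h6 : Ideal.Quotient.mk K' (IsLocalization.mk' T' g
        (⟨MvPolynomial.C s, s, hs, rfl⟩ : S)) =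
        algebraMap B (T' ⧸ K') (↑v⁻¹ : B) * Ideal.Quotient.mk K' (algebraMap T T' g) := by
      rw [h5, map_mul]; rfl
    have h7 := IsIntegral.mul (R := B) (A := T' ⧸ K')
      (isIntegral_algebraMap (R := B) (A := T' ⧸ K') (x := (↑v⁻¹ : B))) h1
    rw [← h6] at h7
    exact h7
  have hK'over : K'.comap (algebraMap B T') = maximalIdeal B := by
    have h8 : (K'.comap (algebraMap B T')).IsPrime := Ideal.comap_isPrime _ _
    apply le_antisymm (IsLocalRing.le_maximalIdeal h8.ne_top)
    rw [← Localization.AtPrime.map_eq_maximalIdeal, Ideal.map_le_iff_le_comap]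
    intro a ha
    change MvPolynomial.C (algebraMap A B a) ∈ K'
    rw [← hCC]
    exact Ideal.mem_map_of_mem _ ha
  have hK'max : K'.IsMaximal := by
    have h9 : ((⊥ : Ideal (T' ⧸ K')).comap (algebraMap B (T' ⧸ K'))).IsMaximal := by
      have : (⊥ : Ideal (T' ⧸ K')).comap (algebraMap B (T' ⧸ K')) = K'.comap (algebraMap B T') := by
        ext b
        change Ideal.Quotient.mk K' (algebraMap B T' b) ∈ (⊥ : Ideal (T' ⧸ K')) ↔ _
        rw [Ideal.mem_bot, Ideal.Quotient.eq_zero_iff_mem]
        rfl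
      rw [this, hK'over]
      exact maximalIdeal.isMaximal B
    have hI : Algebra.IsIntegral B (T' ⧸ K') := ⟨fun x => by
      obtain ⟨f, rfl⟩ := Ideal.Quotient.mk_surjective x
      exact hint' f⟩
    have hbp : (⊥ : Ideal (T' ⧸ K')).IsPrime := Ideal.isPrime_bot
    have h10 : (⊥ : Ideal (T' ⧸ K')).IsMaximal :=
      Ideal.isMaximal_of_isIntegral_of_isMaximal_comap (R := B) (S := T' ⧸ K') ⊥ h9
    exact (Ideal.bot_quotient_isMaximal_iff K').mp h10
  have hfin := height_mvPolynomial m K' hint'
  rw [hht, hK'over, ← Localization.AtPrime.map_eq_maximalIdeal] at hfin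
  rw [hfin]
  congr 1
  apply IsLocalization.height_map_of_disjoint Q.primeCompl Q
  exact Set.disjoint_left.mpr fun a ha ha' => ha ha'

end Vale.Agent.P178
end
end

section

section

namespace Vale.Agent.P178

open Ideal IsLocalRing

universe u

theorem cover_of_family
    (A : Type u) [CommRing A] [IsLocalRing A] [IsNoetherianRing A]
    (C : Type u) [CommRing C] [Algebra A C]
    (P₁ : Ideal C) [hP₁p : P₁.IsPrime] (e : ℕ) (m : ℕ)
    (φ : MvPolynomial (Fin m) A →ₐ[A] C) (hφ : Function.Surjective φ)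
    (r : ℕ) (H : Fin r → MvPolynomial (Fin m) A)
    (hHI : ∀ k, H k ∈ RingHom.ker φ)
    (hfin : Module.Finite A (MvPolynomial (Fin m) A ⧸ span (Set.range H)))
    (hmaxI : ∀ q : Ideal (MvPolynomial (Fin m) A), q.IsPrime → span (Set.range H) ≤ q →
      q.comap (algebraMap A _) = maximalIdeal A → RingHom.ker φ ≤ q)
    (huniqT : ∀ q : Ideal (MvPolynomial (Fin m) A), q.IsPrime → span (Set.range H) ≤ q →
      q.comap (algebraMap A _) = P₁.comap (algebraMap A C) → q = P₁.comap φ)
    (dA : ℕ) (hdA : ringKrullDim A = dA) (hrd : r + (e + 1) = dA + m)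
    (hregT : ∀ q : Ideal (MvPolynomial (Fin m) A), ∀ [q.IsMaximal], RingHom.ker φ ≤ q →
      IsRegularLocalRing (Localization.AtPrime q))
    (hgen : ∀ q : Ideal (MvPolynomial (Fin m) A), q.IsMaximal → RingHom.ker φ ≤ q →
      q.height = (r + (e + 1) : ℕ) ∧ ∃ z : Fin (e + 1) → MvPolynomial (Fin m) A,
        (∀ i, z i ∈ q) ∧ q ≤ span (Set.range H) ⊔ span (Set.range z) ⊔ q ^ 2)
    (hmax : ∀ M : Ideal C, M.IsMaximal → P₁ ≤ M)
    (hbir : ∀ c : C, ∃ s a : A, algebraMap A C s ∉ P₁ ∧
      algebraMap A C s * c - algebraMap A C a ∈ P₁)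
    (hun : ∃ v, v ∉ P₁.comap φ ∧ ∀ z ∈ P₁.comap φ, v * z ∈
      (P₁.comap (algebraMap A C)).map (algebraMap A (MvPolynomial (Fin m) A)) ⊔
        span (Set.range H)) :
    ∃ (E : Type u) (_ : CommRing E) (_ : Algebra A E) (_ : Module.Finite A E) (_ : IsDomain E)
      (φ : E →ₐ[A] C), Function.Surjective φ ∧
      (∀ M : Ideal E, M.IsMaximal → RingHom.ker φ ≤ M) ∧
      (∀ (M : Ideal E) [M.IsMaximal], IsRegularLocalRing (Localization.AtPrime M) ∧
        ringKrullDim (Localization.AtPrime M) = (e : WithBot ℕ∞) + 1) ∧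
      (∀ q : Ideal E, q.IsPrime →
        q.comap (algebraMap A E) = P₁.comap (algebraMap A C) → q = P₁.comap φ) ∧
      (∀ x : E, ∃ s a : A, algebraMap A C s ∉ P₁ ∧
        algebraMap A E s * x = algebraMap A E a) ∧
      ((RingHom.ker (algebraMap A E)).height : WithBot ℕ∞) + (e + 1) = ringKrullDim A := by
  let T := MvPolynomial (Fin m) A
  let K : Ideal T := span (Set.range H)
  have hKI : K ≤ RingHom.ker φ := by
    rw [Ideal.span_le]; rintro _ ⟨k, rfl⟩; exact hHI k
  let E := T ⧸ K
  let mk : T →ₐ[A] E := Ideal.Quotient.mkₐ A K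
  have hmk : Function.Surjective mk := Ideal.Quotient.mk_surjective
  let ψ : E →ₐ[A] C := Ideal.Quotient.liftₐ K φ (fun a ha => hKI ha)
  have hψmk : ∀ x, ψ (mk x) = φ x := fun x => rfl
  have hψ : Function.Surjective ψ := by
    intro c
    obtain ⟨x, rfl⟩ := hφ c
    exact ⟨mk x, rfl⟩
  have hKle : ∀ q : Ideal E, K ≤ q.comap mk := by
    intro q x hx
    rw [Ideal.mem_comap]
    have : mk x = 0 := Ideal.Quotient.eq_zero_iff_mem.mpr hx
    rw [this]; exact q.zero_mem
  have hcomapA : ∀ q : Ideal E, (q.comap mk).comap (algebraMap A T) = q.comap (algebraMap A E) := by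
    intro q; rfl
  have hnt : Nontrivial E := by
    refine ⟨⟨0, 1, fun h => ?_⟩⟩
    have h1 : ψ 0 = ψ 1 := by rw [h]
    rw [map_zero, map_one] at h1
    exact hP₁p.ne_top ((Ideal.eq_top_iff_one P₁).mpr (h1 ▸ P₁.zero_mem))
  have hmaxover : ∀ M : Ideal E, M.IsMaximal → M.comap (algebraMap A E) = maximalIdeal A := by
    intro M hM
    have : (M.comap (algebraMap A E)).IsMaximal :=
      Ideal.isMaximal_comap_of_isIntegral_of_isMaximal M
    exact IsLocalRing.eq_maximalIdeal this
  have hkerM : ∀ M : Ideal E, M.IsMaximal → RingHom.ker φ ≤ M.comap mk := by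
    intro M hM
    have hMp : M.IsPrime := hM.isPrime
    refine hmaxI (M.comap mk) (Ideal.comap_isPrime _ _) (hKle M) ?_
    rw [hcomapA]
    exact hmaxover M hM
  have hker : ∀ M : Ideal E, M.IsMaximal → RingHom.ker ψ ≤ M := by
    intro M hM x hx
    obtain ⟨y, rfl⟩ := hmk x
    exact hkerM M hM hx
  have hreg : ∀ (M : Ideal E) [M.IsMaximal], IsRegularLocalRing (Localization.AtPrime M) ∧
        ringKrullDim (Localization.AtPrime M) = (e : WithBot ℕ∞) + 1 := by
    intro M hM
    have hq : (M.comap mk).IsMaximal := Ideal.comap_isMaximal_of_surjective mk hmk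
    obtain ⟨hht, z, hz, hle⟩ := hgen (M.comap mk) hq (hkerM M hM)
    have := regular_localization_quotient (M.comap mk) r (e + 1) H z (fun i => ?_) hz hle hht M rfl
    · refine ⟨this.1, this.2.trans ?_⟩
      push_cast
      rfl
    · exact hKle M (Ideal.subset_span ⟨i, rfl⟩)
  have hprime : (P₁.comap ψ).IsPrime := Ideal.comap_isPrime _ _
  have hdom : IsDomain E := by
    refine isDomain_of_localizations (P₁.comap ψ) ?_ ?_
    · intro M hM x hx
      have hMmap : (M.map ψ).IsMaximal :=
        Ideal.IsMaximal.map_of_surjective_of_ker_le hψ (hker M hM)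
      have h1 := hmax (M.map ψ) hMmap
      have h2 : x ∈ (M.map ψ).comap ψ := h1 hx
      rw [Ideal.comap_map_of_surjective ψ hψ] at h2
      have h3 : (⊥ : Ideal C).comap ψ ≤ M := fun y hy => hker M hM hy
      exact (sup_le le_rfl h3) h2
    · intro M hM
      have := (hreg M).1
      exact regular_isDomain _
  have huniq : ∀ q : Ideal E, q.IsPrime →
        q.comap (algebraMap A E) = P₁.comap (algebraMap A C) → q = P₁.comap ψ := by
    intro q hq hqP
    have h1 := huniqT (q.comap mk) (Ideal.comap_isPrime _ _) (hKle q) hqP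
    have h2 : (P₁.comap ψ).comap mk = P₁.comap φ := rfl
    rw [← h2] at h1
    exact Ideal.comap_injective_of_surjective mk hmk h1
  have hheight : ((RingHom.ker (algebraMap A E)).height : WithBot ℕ∞) + (e + 1) =
      ringKrullDim A := by
    have hKp : K.IsPrime := (Ideal.Quotient.isDomain_iff_prime K).mp hdom
    have h1 := height_mvPolynomial_of_integral m K
      (fun f => Algebra.IsIntegral.isIntegral (R := A) (A := T ⧸ K) (Ideal.Quotient.mk K f))
    have h2 : K.comap (algebraMap A T) = RingHom.ker (algebraMap A E) := by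
      ext a
      change algebraMap A T a ∈ K ↔ Ideal.Quotient.mk K (algebraMap A T a) = 0
      rw [Ideal.Quotient.eq_zero_iff_mem]
    rw [h2] at h1
    have h3 : K.height ≤ r := by
      have h4 := Ideal.height_le_spanFinrank K hKp.ne_top
      refine h4.trans ?_
      have h5 := Submodule.spanFinrank_span_le_encard (R := T) (Set.range H)
      exact h5.trans (encard_range_le H)
    have h4 : (r : ℕ∞) ≤ K.height := by
      obtain ⟨M, hM⟩ := Ideal.exists_maximal E
      have hq : (M.comap mk).IsMaximal := Ideal.comap_isMaximal_of_surjective mk hmk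
      obtain ⟨hht, z, hz, hle⟩ := hgen (M.comap mk) hq (hkerM M hM)
      have hregq := hregT (M.comap mk) (hkerM M hM)
      let B := Localization.AtPrime (M.comap mk)
      have hzq : span (Set.range z) ≤ M.comap mk := by
        rw [Ideal.span_le]; rintro _ ⟨i, rfl⟩; exact hz i
      have h5 := maximalIdeal_eq_of_le_sup_sq (M.comap mk) (K ⊔ span (Set.range z))
        (sup_le (hKle M) hzq) hle
      rw [Ideal.map_sup, Ideal.map_span, Ideal.map_span, ← Set.range_comp, ← Set.range_comp] at h5
      have h6 : ((r + (e + 1) : ℕ) : WithBot ℕ∞) ≤ ringKrullDim B := by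
        rw [IsLocalization.AtPrime.ringKrullDim_eq_height (M.comap mk) B, hht]
        rfl
      have h7 := le_height_span_of_regular r (e + 1) _ _ h5 h6
      have h8 : K.map (algebraMap T B) = span (Set.range (algebraMap T B ∘ H)) := by
        rw [Set.range_comp, ← Ideal.map_span]
      rw [← h8] at h7
      have h9 : (K.map (algebraMap T B)).height = K.height := by
        apply IsLocalization.height_map_of_disjoint (M.comap mk).primeCompl K
        exact Set.disjoint_left.mpr fun a ha ha' => ha (hKle M ha')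
      rwa [h9] at h7
    have h5 : K.height = r := le_antisymm h3 h4
    rw [h5] at h1
    have h6 : (RingHom.ker (algebraMap A E)).height ≠ ⊤ := by
      intro h
      rw [h] at h1
      simp at h1
    obtain ⟨k, hk⟩ := ENat.ne_top_iff_exists.mp h6
    rw [← hk] at h1 ⊢
    have h7 : r = k + m := by exact_mod_cast h1
    have h8 : k + (e + 1) = dA := by omega
    rw [hdA, ← h8]
    push_cast
    rfl
  refine ⟨E, inferInstance, inferInstance, hfin, hdom, ψ, hψ, hker, hreg, huniq, ?_, hheight⟩
  have hPp : (P₁.comap (algebraMap A C)).IsPrime := Ideal.comap_isPrime _ _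
  refine exists_denominator_of_unique_prime (P₁.comap (algebraMap A C)) (P₁.comap ψ) huniq ?_ ?_
  · intro x
    obtain ⟨s, a, hs, hsa⟩ := hbir (ψ x)
    refine ⟨s, a, hs, ?_⟩
    rw [Ideal.mem_comap, map_sub, map_mul, AlgHom.commutes, AlgHom.commutes]
    exact hsa
  · obtain ⟨v, hv, hvz⟩ := hun
    refine ⟨mk v, hv, ?_⟩
    intro z hz
    obtain ⟨z, rfl⟩ := hmk z
    have h1 := Ideal.mem_map_of_mem (mk : T →+* E) (hvz z hz)
    rw [Ideal.map_sup, Ideal.map_map, map_mul] at h1
    have h2 : (span (Set.range H)).map (mk : T →+* E) = ⊥ := by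
      rw [Ideal.map_eq_bot_iff_le_ker]
      intro x hx
      exact Ideal.Quotient.eq_zero_iff_mem.mpr hx
    rw [h2, sup_bot_eq] at h1
    exact h1

end Vale.Agent.P178
end
end

section

section

namespace Vale.Agent.P178

open Ideal IsLocalRing

universe u

theorem finite_primes_over {A T : Type*} [CommRing A] [CommRing T] [Algebra A T] (K : Ideal T)
    (hfin : Module.Finite A (T ⧸ K)) (p : Ideal A) :
    {q : Ideal T | q.IsPrime ∧ K ≤ q ∧ q.comap (algebraMap A T) = p}.Finite := by
  have h1 : (p.primesOver (T ⧸ K)).Finite := Algebra.QuasiFinite.finite_primesOver p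
  have h2 : {q : Ideal T | q.IsPrime ∧ K ≤ q ∧ q.comap (algebraMap A T) = p} ⊆
      (fun Q : Ideal (T ⧸ K) => Q.comap (Ideal.Quotient.mk K)) '' (p.primesOver (T ⧸ K)) := by
    rintro q ⟨hq, hKq, hqp⟩
    have h3 : (q.map (Ideal.Quotient.mk K)).comap (Ideal.Quotient.mk K) = q := by
      rw [Ideal.comap_map_of_surjective _ Ideal.Quotient.mk_surjective,
        ← RingHom.ker_eq_comap_bot, Ideal.mk_ker]
      exact sup_eq_left.mpr hKq
    refine ⟨q.map (Ideal.Quotient.mk K), ⟨?_, ⟨?_⟩⟩, h3⟩
    · exact Ideal.map_isPrime_of_surjective Ideal.Quotient.mk_surjective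
        (by rw [Ideal.mk_ker]; exact hKq)
    · rw [← hqp]
      conv_lhs => rw [← h3]
      rfl
  exact (h1.image _).subset h2

theorem exists_regular_cover
    (A : Type u) [CommRing A] [IsRegularLocalRing A]
    (C : Type u) [CommRing C] [Algebra A C] [Module.Finite A C]
    (P₁ : Ideal C) [hP₁p : P₁.IsPrime] (e : ℕ)
    (hdim : (e : WithBot ℕ∞) + 2 ≤ ringKrullDim A)
    (hmax : ∀ M : Ideal C, M.IsMaximal → P₁ ≤ M)
    (hP₁ : ¬ P₁.IsMaximal)
    (hemb : ∀ M : Ideal C, M.IsMaximal → Module.finrank (C ⧸ M) M.Cotangent ≤ e + 1)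
    (hbir : ∀ c : C, ∃ s a : A, algebraMap A C s ∉ P₁ ∧
      algebraMap A C s * c - algebraMap A C a ∈ P₁)
    (hred : ∃ ρ : C, ρ ∉ P₁ ∧ ∀ x ∈ P₁, ρ * x = 0)
    (huniq : ∀ q : Ideal C, q.IsPrime →
      q.comap (algebraMap A C) = P₁.comap (algebraMap A C) → q = P₁) :
    ∃ (E : Type u) (_ : CommRing E) (_ : Algebra A E) (_ : Module.Finite A E) (_ : IsDomain E)
      (φ : E →ₐ[A] C), Function.Surjective φ ∧
      (∀ M : Ideal E, M.IsMaximal → RingHom.ker φ ≤ M) ∧
      (∀ (M : Ideal E) [M.IsMaximal], IsRegularLocalRing (Localization.AtPrime M) ∧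
        ringKrullDim (Localization.AtPrime M) = (e : WithBot ℕ∞) + 1) ∧
      (∀ q : Ideal E, q.IsPrime →
        q.comap (algebraMap A E) = P₁.comap (algebraMap A C) → q = P₁.comap φ) ∧
      (∀ x : E, ∃ s a : A, algebraMap A C s ∉ P₁ ∧
        algebraMap A E s * x = algebraMap A E a) ∧
      ((RingHom.ker (algebraMap A E)).height : WithBot ℕ∞) + (e + 1) = ringKrullDim A := by
  classical
  have hCnt : Nontrivial C :=
    ⟨⟨0, 1, fun h => hP₁p.ne_top ((Ideal.eq_top_iff_one P₁).mpr (h ▸ P₁.zero_mem))⟩⟩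
  have hCnoeth : IsNoetherianRing C := IsNoetherianRing.of_finite A C
  let P : Ideal A := P₁.comap (algebraMap A C)
  have hPp : P.IsPrime := Ideal.comap_isPrime _ _
  have hPmax : ¬ P.IsMaximal := fun h =>
    hP₁ (Ideal.isMaximal_of_isIntegral_of_isMaximal_comap P₁ h)
  -- dimension
  obtain ⟨t, ht⟩ : ∃ t, (maximalIdeal A).spanFinrank = e + 2 + t := by
    have h := IsRegularLocalRing.spanFinrank_maximalIdeal (R := A)
    rw [← h] at hdim
    have : e + 2 ≤ (maximalIdeal A).spanFinrank := by exact_mod_cast hdim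
    exact ⟨_, (Nat.add_sub_of_le this).symm⟩
  have hAht : (maximalIdeal A).height = ((e + 2 + t : ℕ) : ℕ∞) := by
    have h := IsRegularLocalRing.spanFinrank_maximalIdeal (R := A)
    rw [ht, ← IsLocalRing.maximalIdeal_height_eq_ringKrullDim] at h
    exact WithBot.coe_injective h.symm
  -- presentation
  obtain ⟨m, y, hy⟩ := Module.Finite.exists_fin (R := A) (M := C)
  let T := MvPolynomial (Fin m) A
  let φ : T →ₐ[A] C := MvPolynomial.aeval y
  have hφX : ∀ j, φ (MvPolynomial.X j) = y j := fun j => MvPolynomial.aeval_X _ _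
  have hφC : ∀ a, φ (MvPolynomial.C a) = algebraMap A C a := fun a => MvPolynomial.aeval_C _ _
  have hφ : Function.Surjective φ := by
    intro c
    have hc : c ∈ Submodule.span A (Set.range y) := by rw [hy]; trivial
    obtain ⟨w, hw⟩ := (Submodule.mem_span_range_iff_exists_fun A).mp hc
    refine ⟨∑ j, MvPolynomial.C (w j) * MvPolynomial.X j, ?_⟩
    rw [map_sum, ← hw]
    refine Finset.sum_congr rfl fun j _ => ?_
    rw [map_mul, hφC, hφX, Algebra.smul_def]
  let I : Ideal T := RingHom.ker φ
  let I₁ : Ideal T := P₁.comap φ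
  have hI₁p : I₁.IsPrime := Ideal.comap_isPrime _ _
  have hII₁ : I ≤ I₁ := fun x hx => by
    change φ x ∈ P₁
    rw [RingHom.mem_ker.mp hx]; exact P₁.zero_mem
  have hI₁P : P = I₁.comap (MvPolynomial.C : A →+* T) := by
    ext a
    change algebraMap A C a ∈ P₁ ↔ φ (MvPolynomial.C a) ∈ P₁
    rw [hφC]
  -- integrality of quotients
  have hint : ∀ (q : Ideal T), I ≤ q → ∀ f : T, IsIntegral A (Ideal.Quotient.mk q f) := by
    intro q hq f
    obtain ⟨p, hp, hpe⟩ := (Algebra.IsIntegral.isIntegral (R := A) (φ f))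
    refine ⟨p, hp, ?_⟩
    have h1 : Polynomial.aeval f p ∈ I := by
      change φ (Polynomial.aeval f p) = 0
      rw [← Polynomial.aeval_algHom_apply]
      exact hpe
    have h2 : Ideal.Quotient.mk q (Polynomial.aeval f p) = 0 :=
      Ideal.Quotient.eq_zero_iff_mem.mpr (hq h1)
    rw [← h2, Polynomial.eval₂_eq_sum_range, Polynomial.aeval_eq_sum_range, map_sum]
    refine Finset.sum_congr rfl fun i _ => ?_
    rw [Algebra.smul_def, map_mul, map_pow]
    rfl
  -- maximal ideals
  let ι := MaximalSpectrum C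
  have hιfin : Finite ι := by
    have h1 : ((maximalIdeal A).primesOver C).Finite := Algebra.QuasiFinite.finite_primesOver _
    have h2 : Set.range (fun M : MaximalSpectrum C => M.asIdeal) ⊆ (maximalIdeal A).primesOver C := by
      rintro _ ⟨M, rfl⟩
      have hM := M.isMaximal
      refine ⟨hM.isPrime, ⟨?_⟩⟩
      have : (M.asIdeal.comap (algebraMap A C)).IsMaximal :=
        Ideal.isMaximal_comap_of_isIntegral_of_isMaximal M.asIdeal
      exact (IsLocalRing.eq_maximalIdeal this).symm
    have h3 := h1.subset h2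
    rw [Set.finite_range_iff] at h3
    · exact h3
    · intro M M' h
      exact MaximalSpectrum.ext h
  have := Fintype.ofFinite ι
  let n : ι → Ideal T := fun M => M.asIdeal.comap φ
  have hn : ∀ i, (n i).IsMaximal := fun i => by
    have := i.isMaximal
    exact Ideal.comap_isMaximal_of_surjective φ hφ
  have hne : ∀ i j, i ≠ j → n i ≠ n j := by
    intro i j hij h
    apply hij
    exact MaximalSpectrum.ext (Ideal.comap_injective_of_surjective φ hφ h)
  have hIn : ∀ i, I ≤ n i := fun i x hx => by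
    change φ x ∈ i.asIdeal
    rw [RingHom.mem_ker.mp hx]; exact i.asIdeal.zero_mem
  have hI₁n : ∀ i, I₁ ≤ n i := fun i x hx => hmax i.asIdeal i.isMaximal hx
  have hcomapφ : ∀ (Q : Ideal C), (Q.comap φ).comap (algebraMap A T) = Q.comap (algebraMap A C) := by
    intro Q
    ext a
    change φ (MvPolynomial.C a) ∈ Q ↔ _
    rw [hφC]; rfl
  have hnA : ∀ i, (n i).comap (algebraMap A T) = maximalIdeal A := by
    intro i
    have hM := i.isMaximal
    have : (i.asIdeal.comap (algebraMap A C)).IsMaximal :=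
      Ideal.isMaximal_comap_of_isIntegral_of_isMaximal i.asIdeal
    rw [hcomapφ]
    exact IsLocalRing.eq_maximalIdeal this
  have hnht : ∀ i, (n i).height = ((m + (t + 1) + (e + 1) : ℕ) : ℕ∞) := by
    intro i
    have := hn i
    rw [height_mvPolynomial m (n i) (hint (n i) (hIn i)), hnA i, hAht, ← Nat.cast_add]
    congr 1
    omega
  have hgens : ∀ i, ∃ g : Fin (m + (t + 1)) → T, (∀ k, g k ∈ I) ∧ ∃ z : Fin (e + 1) → T,
      (∀ k, z k ∈ n i) ∧ n i ≤ span (Set.range g) ⊔ span (Set.range z) ⊔ n i ^ 2 := by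
    intro i
    have := hn i
    obtain ⟨a, ha, hna⟩ := exists_gens_of_regular (n i)
      (mvPolynomial_localization_regular m (n i) (hnA i)) _ (hnht i)
    have hM := i.isMaximal
    obtain ⟨b', hb', hMb'⟩ := exists_gens_of_finrank_cotangent i.asIdeal (e + 1)
      (hemb i.asIdeal i.isMaximal)
    choose b hb using fun k => hφ (b' k)
    refine exists_gens_in_ideal (n i) I (hIn i) _ _ a ha hna b (fun k => ?_) ?_
    · change φ (b k) ∈ i.asIdeal
      rw [hb]; exact hb' k
    · have h1 : (n i).map φ = i.asIdeal := Ideal.map_comap_of_surjective φ hφ _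
      have h2 : (span (Set.range b)).map φ = span (Set.range b') := by
        rw [Ideal.map_span, ← Set.range_comp]
        have : φ ∘ b = b' := funext hb
        rw [this]
      have h3 : i.asIdeal ≤ (span (Set.range b) ⊔ n i ^ 2).map φ := by
        rw [Ideal.map_sup, h2, Ideal.map_pow, h1]
        exact hMb'
      have h4 : n i ≤ ((span (Set.range b) ⊔ n i ^ 2).map φ).comap φ := Ideal.comap_mono h3
      rw [Ideal.comap_map_of_surjective φ hφ] at h4
      refine h4.trans (sup_le (sup_le ?_ ?_) ?_)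
      · exact le_sup_left.trans le_sup_left
      · exact le_sup_right
      · intro x hx
        exact Submodule.mem_sup_left (Submodule.mem_sup_right hx)
  choose g₀ hg₀I z hz hgz using hgens
  choose G hGI hG using fun k => crt_select n hn hne I hIn (fun i => g₀ i k) (fun i => hg₀I i k)
  have hgen : ∀ H : Fin (m + (t + 1)) → T, (∀ i k, H k - G k ∈ n i ^ 2) → ∀ i,
      n i ≤ span (Set.range H) ⊔ span (Set.range (z i)) ⊔ n i ^ 2 := by
    intro H hH i
    refine (hgz i).trans (sup_le (sup_le ?_ (le_sup_right.trans le_sup_left)) le_sup_right)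
    rw [Ideal.span_le]
    rintro _ ⟨k, rfl⟩
    have : g₀ i k = H k - ((H k - G k) + (G k - g₀ i k)) := by ring
    simp only [SetLike.mem_coe]
    rw [this]
    refine Ideal.sub_mem _ (Submodule.mem_sup_left (Submodule.mem_sup_left
      (Ideal.subset_span ⟨k, rfl⟩))) (Submodule.mem_sup_right ?_)
    exact Ideal.add_mem _ (hH i k) (hG k i)
  -- the element ρ
  obtain ⟨ρ₀, hρ₀, hρ₀x⟩ := hred
  obtain ⟨ρ', hρ'⟩ := hφ ρ₀
  obtain ⟨a₀, ha₀, ha₀P⟩ : ∃ a₀ ∈ maximalIdeal A, a₀ ∉ P := by
    by_contra hcon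
    push Not at hcon
    apply hPmax
    have h1 : maximalIdeal A ≤ P := hcon
    rw [← (maximalIdeal.isMaximal A).eq_of_le hPp.ne_top h1]
    exact maximalIdeal.isMaximal A
  let ρ : T := ρ' * (MvPolynomial.C a₀ * MvPolynomial.C a₀)
  have hCa₀n : ∀ i, (MvPolynomial.C a₀ : T) ∈ n i := by
    intro i
    have : a₀ ∈ (n i).comap (algebraMap A T) := by rw [hnA i]; exact ha₀
    exact this
  have hρn : ∀ i, ρ ∈ n i ^ 2 := by
    intro i
    rw [pow_two]
    exact Ideal.mul_mem_left _ _ (Ideal.mul_mem_mul (hCa₀n i) (hCa₀n i))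
  have hCa₀I₁ : (MvPolynomial.C a₀ : T) ∉ I₁ := by
    intro h
    apply ha₀P
    rw [hI₁P]; exact h
  have hρI₁ : ρ ∉ I₁ := by
    intro h
    rcases hI₁p.mem_or_mem h with h | h
    · apply hρ₀
      rw [← hρ']; exact h
    · rcases hI₁p.mem_or_mem h with h | h
      · exact hCa₀I₁ h
      · exact hCa₀I₁ h
  have hρI : ∀ x ∈ I₁, ρ * x ∈ I := by
    intro x hx
    change φ (ρ' * (MvPolynomial.C a₀ * MvPolynomial.C a₀) * x) = 0
    have h1 : ρ' * (MvPolynomial.C a₀ * MvPolynomial.C a₀) * x =
        (MvPolynomial.C a₀ * MvPolynomial.C a₀) * (ρ' * x) := by ring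
    rw [h1, map_mul, map_mul φ ρ' x, hρ', hρ₀x _ hx, mul_zero]
  -- linear elements
  choose s a hs hsa using fun j => hbir (y j)
  let ε : Fin m → T := fun j => MvPolynomial.C (s j) * MvPolynomial.X j - MvPolynomial.C (a j)
  have hε : ∀ j, ε j ∈ I₁ := by
    intro j
    change φ (MvPolynomial.C (s j) * MvPolynomial.X j - MvPolynomial.C (a j)) ∈ P₁
    rw [map_sub, map_mul, hφC, hφC, hφX]
    exact hsa j
  let G' : Fin m → T := fun j => G (Fin.castAdd (t + 1) j)
  have hG'I : ∀ j, G' j ∈ I := fun j => hGI _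
  obtain ⟨lam, hlam⟩ := exists_lambda_unramified I₁ P hI₁P hPmax s a hs hε G'
    (fun j => hII₁ (hG'I j)) ρ hρI₁
  -- monic polynomials
  choose p hp hpe using fun j => (Algebra.IsIntegral.isIntegral (R := A) (y j))
  have hpdeg : ∀ j, 0 < (p j).natDegree := by
    intro j
    rw [Nat.pos_iff_ne_zero]
    intro h
    have h1 : p j = 1 := (hp j).natDegree_eq_zero.mp h
    have h2 := hpe j
    rw [h1, Polynomial.eval₂_one] at h2
    exact one_ne_zero h2
  let base : Fin m → T := fun j => G' j + MvPolynomial.C lam * ρ * ε j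
  let N : Fin m → ℕ := fun j => 2 + (base j).totalDegree
  let pN : Fin m → Polynomial A := fun j => p j ^ N j
  have hpN : ∀ j, (pN j).Monic := fun j => (hp j).pow _
  have hpNdeg : ∀ j, (base j).totalDegree < (pN j).natDegree := by
    intro j
    have h1 : (pN j).natDegree = N j * (p j).natDegree := (hp j).natDegree_pow _
    rw [h1]
    have h2 := hpdeg j
    calc (base j).totalDegree < N j * 1 := by simp only [N]; omega
      _ ≤ N j * (p j).natDegree := Nat.mul_le_mul_left _ h2
  let h : Fin m → T := fun j => Polynomial.aeval (MvPolynomial.X j : T) (pN j)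
  have hpI : ∀ j, Polynomial.aeval (MvPolynomial.X j : T) (p j) ∈ I := by
    intro j
    change φ (Polynomial.aeval (MvPolynomial.X j : T) (p j)) = 0
    rw [← Polynomial.aeval_algHom_apply, hφX]
    exact hpe j
  have hh : ∀ j, h j ∈ I ^ 2 := by
    intro j
    have h1 : h j = Polynomial.aeval (MvPolynomial.X j : T) (p j) ^ N j := map_pow _ _ _
    rw [h1]
    exact Ideal.pow_le_pow_right (by simp only [N]; omega) (Ideal.pow_mem_pow (hpI j) (N j))
  let F : Fin m → T := fun j => base j + h j
  have hFI : ∀ j, F j ∈ I := fun j => Ideal.add_mem _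
    (Ideal.add_mem _ (hG'I j) (by
      rw [mul_assoc]
      exact Ideal.mul_mem_left _ _ (hρI _ (hε j))))
    (Ideal.pow_le_self two_ne_zero (hh j))
  have hFn : ∀ i j, F j - G' j ∈ n i ^ 2 := by
    intro i j
    have h1 : F j - G' j = MvPolynomial.C lam * ρ * ε j + h j := by
      simp only [F, base]; ring
    rw [h1]
    refine Ideal.add_mem _ (Ideal.mul_mem_right _ _ (Ideal.mul_mem_left _ _ (hρn i))) ?_
    exact Ideal.pow_right_mono (hIn i) 2 (hh j)
  let l : Fin m → T := fun j => MvPolynomial.X j ^ (pN j).natDegree - F j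
  have hl : ∀ j, (l j).totalDegree < (pN j).natDegree := by
    intro j
    have hD : 0 < (pN j).natDegree := lt_of_le_of_lt (Nat.zero_le _) (hpNdeg j)
    have h1 : l j = - ((h j - MvPolynomial.X j ^ (pN j).natDegree) + base j) := by
      simp only [l, F]; ring
    rw [h1, MvPolynomial.totalDegree_neg]
    refine lt_of_le_of_lt (MvPolynomial.totalDegree_add _ _) (max_lt ?_ (hpNdeg j))
    exact totalDegree_aeval_monic_sub j (pN j) (hpN j) hD
  have hfinK : ∀ K : Ideal T, span (Set.range F) ≤ K → Module.Finite A (T ⧸ K) := by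
    intro K hK
    refine finite_quotient_of_monic_like m K (fun j => (pN j).natDegree) l hl (fun j => ?_)
    have h1 : MvPolynomial.X j ^ (pN j).natDegree - l j = F j := by
      simp only [l]; ring
    rw [h1]
    exact hK (Ideal.subset_span ⟨j, rfl⟩)
  -- the set of primes to be avoided
  let K₀ : Ideal T := span (Set.range F)
  let Q : Set (Ideal T) := {q | q.IsPrime ∧ K₀ ≤ q ∧
    (q.comap (algebraMap A T) = maximalIdeal A ∨ q.comap (algebraMap A T) = P) ∧ ¬ I ≤ q}
  have hQfin : Q.Finite := by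
    refine ((finite_primes_over K₀ (hfinK K₀ le_rfl) (maximalIdeal A)).union
      (finite_primes_over K₀ (hfinK K₀ le_rfl) P)).subset ?_
    rintro q ⟨h1, h2, h3, -⟩
    rcases h3 with h3 | h3
    · exact Or.inl ⟨h1, h2, h3⟩
    · exact Or.inr ⟨h1, h2, h3⟩
  let J : Ideal T := I ⊓ Finset.univ.inf fun i => n i ^ 2
  have hJn : ∀ i, J ≤ n i ^ 2 := fun i =>
    inf_le_right.trans (Finset.inf_le (Finset.mem_univ i))
  have hJQ : ∀ q ∈ Q, ¬ J ≤ q := by
    rintro q ⟨hqp, -, -, hIq⟩ hJq
    rcases hqp.inf_le.mp hJq with h1 | h1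
    · exact hIq h1
    · obtain ⟨i, -, hi⟩ := hqp.inf_le'.mp h1
      have h2 : n i ≤ q := by
        rw [pow_two] at hi
        rcases hqp.mul_le.mp hi with h3 | h3 <;> exact h3
      exact hIq ((hIn i).trans h2)
  let k₀ : Fin (m + (t + 1)) := ⟨m, by omega⟩
  obtain ⟨j₀, hj₀J, hj₀⟩ := coset_avoidance Q hQfin (fun q hq => hq.1) J hJQ (G k₀)
  let H : Fin (m + (t + 1)) → T := fun k =>
    if hk : k.1 < m then F ⟨k.1, hk⟩ else if k = k₀ then G k + j₀ else G k
  have hHF : ∀ j, H (Fin.castAdd (t + 1) j) = F j := by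
    intro j
    simp only [H, Fin.val_castAdd, j.2, dif_pos]
  have hHk₀ : H k₀ = G k₀ + j₀ := by
    simp [H, k₀]
  have hHI : ∀ k, H k ∈ I := by
    intro k
    by_cases hk : k.1 < m
    · simp only [H, hk, dif_pos]; exact hFI _
    · by_cases hk' : k = k₀
      · rw [hk', hHk₀]; exact Ideal.add_mem _ (hGI _) hj₀J.1
      · simp only [H, hk, dif_neg, not_false_iff, hk', if_neg]; exact hGI _
  have hHG : ∀ i k, H k - G k ∈ n i ^ 2 := by
    intro i k
    by_cases hk : k.1 < m
    · have h1 : k = Fin.castAdd (t + 1) ⟨k.1, hk⟩ := rfl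
      rw [h1, hHF]
      exact hFn i _
    · by_cases hk' : k = k₀
      · rw [hk', hHk₀, add_sub_cancel_left]; exact hJn i hj₀J
      · simp only [H, hk, dif_neg, not_false_iff, hk', if_neg, sub_self]
        exact Ideal.zero_mem _
  have hK₀H : K₀ ≤ span (Set.range H) := by
    rw [Ideal.span_le]
    rintro _ ⟨j, rfl⟩
    rw [← hHF j]
    exact Ideal.subset_span ⟨_, rfl⟩
  have havoid : ∀ q : Ideal T, q.IsPrime → span (Set.range H) ≤ q →
      (q.comap (algebraMap A T) = maximalIdeal A ∨ q.comap (algebraMap A T) = P) → I ≤ q := by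
    intro q hqp hHq hqA
    by_contra hIq
    have hqQ : q ∈ Q := ⟨hqp, hK₀H.trans hHq, hqA, hIq⟩
    apply hj₀ q hqQ
    rw [← hHk₀]
    exact hHq (Ideal.subset_span ⟨k₀, rfl⟩)
  refine cover_of_family A C P₁ e m φ hφ (m + (t + 1)) H hHI (hfinK _ hK₀H)
    (fun q hqp hHq hqA => havoid q hqp hHq (Or.inl hqA)) ?_ (e + 2 + t) ?_ (by omega) ?_ ?_
    hmax hbir ?_
  · intro q hqp hHq hqA
    have hIq := havoid q hqp hHq (Or.inr hqA)
    have h1 : (q.map φ).comap φ = q := by
      rw [Ideal.comap_map_of_surjective φ hφ]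
      exact sup_eq_left.mpr hIq
    have h2 : (q.map φ).IsPrime := Ideal.map_isPrime_of_surjective hφ hIq
    have h3 : q.map φ = P₁ := by
      apply huniq _ h2
      rw [← hcomapφ, h1]
      exact hqA
    rw [← h3, h1]
  · rw [← IsRegularLocalRing.spanFinrank_maximalIdeal (R := A), ht]
  · intro q hqm hIq
    have h1 : (q.map φ).comap φ = q := by
      rw [Ideal.comap_map_of_surjective φ hφ]
      exact sup_eq_left.mpr hIq
    have h2 : (q.map φ).IsMaximal := Ideal.IsMaximal.map_of_surjective_of_ker_le hφ hIq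
    let i : ι := ⟨q.map φ, h2⟩
    have h3 : n i = q := h1
    apply mvPolynomial_localization_regular m q
    rw [← h3]
    exact hnA i
  · intro q hqm hIq
    have h1 : (q.map φ).comap φ = q := by
      rw [Ideal.comap_map_of_surjective φ hφ]
      exact sup_eq_left.mpr hIq
    have h2 : (q.map φ).IsMaximal := Ideal.IsMaximal.map_of_surjective_of_ker_le hφ hIq
    let i : ι := ⟨q.map φ, h2⟩
    have h3 : n i = q := h1
    rw [← h3]
    exact ⟨hnht i, z i, hz i, hgen H hHG i⟩
  · obtain ⟨v, hv, hvz⟩ := hlam h (fun j => Ideal.pow_right_mono hII₁ 2 (hh j))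
    refine ⟨v, hv, fun x hx => ?_⟩
    exact sup_le_sup_left hK₀H _ (hvz x hx)

end Vale.Agent.P178
end
end

section

section

universe u

namespace Vale.Agent.P178

open IsLocalRing

/-- A one-dimensional regular local ring is a principal ideal ring. -/
theorem isPrincipalIdealRing_of_dim_le_one (R : Type*) [CommRing R] [IsRegularLocalRing R]
    (h : ringKrullDim R ≤ 1) : IsPrincipalIdealRing R := by
  have := isDomain_of_isRegularLocalRing R
  have h1 := IsRegularLocalRing.spanFinrank_maximalIdeal (R := R)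
  have h2 : Module.finrank (ResidueField R) (CotangentSpace R) ≤ 1 := by
    rw [← spanFinrank_maximalIdeal_eq_finrank_cotangentSpace]
    rw [← h1] at h
    exact_mod_cast h
  exact ((tfae_of_isNoetherianRing_of_isLocalRing_of_isDomain R).out 5 0).1 h2

/-- In a regular local ring of dimension two every nonmaximal prime is principal. -/
theorem exists_generator_of_isPrime (R : Type*) [CommRing R] [IsRegularLocalRing R]
    (h : ringKrullDim R = 2) (q : Ideal R) [q.IsPrime] (hq : q ≠ maximalIdeal R) :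
    ∃ g : R, q = Ideal.span {g} := by
  have := isDomain_of_isRegularLocalRing R
  -- an element of `m` outside `m ^ 2`
  have hm : ¬ maximalIdeal R ≤ maximalIdeal R ^ 2 := by
    intro hle
    have h0 : maximalIdeal R = ⊥ := by
      apply Submodule.eq_bot_of_le_smul_of_le_jacobson_bot (maximalIdeal R) (maximalIdeal R)
        (IsNoetherian.noetherian _)
      · rw [smul_eq_mul, ← pow_two]; exact hle
      · exact maximalIdeal_le_jacobson _
    have h1 := IsRegularLocalRing.spanFinrank_maximalIdeal (R := R)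
    rw [h0, h, Submodule.spanFinrank_bot] at h1
    norm_num at h1
  obtain ⟨x, hx, hx2⟩ := SetLike.not_le_iff_exists.1 hm
  obtain ⟨hreg, hdim⟩ := isRegularLocalRing_quotient R hx hx2
  have hdom := isDomain_of_isRegularLocalRing (R ⧸ Ideal.span {x})
  have hpid : IsPrincipalIdealRing (R ⧸ Ideal.span {x}) := by
    apply isPrincipalIdealRing_of_dim_le_one
    rw [h] at hdim
    have h2 : ringKrullDim (R ⧸ Ideal.span {x}) + 1 ≤ 1 + 1 := by
      rw [hdim]; exact (one_add_one_eq_two).symm.le
    exact ENat.WithBot.add_le_add_one_right_iff.1 h2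
  by_cases hxq : x ∈ q
  · refine ⟨x, ?_⟩
    have hle : Ideal.span {x} ≤ q := by rwa [Ideal.span_singleton_le_iff_mem]
    have hmap : (q.map (Ideal.Quotient.mk (Ideal.span {x}))).IsPrime :=
      Ideal.map_isPrime_of_surjective Ideal.Quotient.mk_surjective (by rwa [Ideal.mk_ker])
    by_cases h0 : q.map (Ideal.Quotient.mk (Ideal.span {x})) = ⊥
    · rw [Ideal.map_eq_bot_iff_le_ker, Ideal.mk_ker] at h0
      exact le_antisymm h0 hle
    · exfalso
      have hmax := hmap.isMaximal h0
      have h3 : (q.map (Ideal.Quotient.mk (Ideal.span {x}))).comap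
          (Ideal.Quotient.mk (Ideal.span {x})) = q := by
        rw [Ideal.comap_map_of_surjective _ Ideal.Quotient.mk_surjective]
        rw [← RingHom.ker_eq_comap_bot, Ideal.mk_ker, sup_eq_left]
        exact hle
      have h4 : q.IsMaximal := by
        rw [← h3]
        exact Ideal.comap_isMaximal_of_surjective _ Ideal.Quotient.mk_surjective
      exact hq (eq_maximalIdeal h4)
  · obtain ⟨gbar, hg⟩ := (hpid.principal (q.map (Ideal.Quotient.mk (Ideal.span {x}))))
    have hgm : gbar ∈ q.map (Ideal.Quotient.mk (Ideal.span {x})) := by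
      rw [hg]; exact Submodule.mem_span_singleton_self gbar
    obtain ⟨g, hgq, rfl⟩ := (Ideal.mem_map_iff_of_surjective _
      Ideal.Quotient.mk_surjective).1 hgm
    refine ⟨g, le_antisymm ?_ (by rwa [Ideal.span_singleton_le_iff_mem])⟩
    apply Submodule.le_of_le_smul_of_le_jacobson_bot (I := maximalIdeal R)
      (IsNoetherian.noetherian _) (maximalIdeal_le_jacobson _)
    intro y hy
    have hy1 : Ideal.Quotient.mk (Ideal.span {x}) y ∈ Ideal.span {Ideal.Quotient.mk (Ideal.span {x}) g} := by
      have : Ideal.Quotient.mk (Ideal.span {x}) y ∈ q.map (Ideal.Quotient.mk (Ideal.span {x})) :=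
        Ideal.mem_map_of_mem _ hy
      rw [hg] at this
      exact this
    obtain ⟨cbar, hc⟩ := Ideal.mem_span_singleton'.1 hy1
    obtain ⟨c, rfl⟩ := Ideal.Quotient.mk_surjective cbar
    rw [← map_mul, Ideal.Quotient.eq, Ideal.mem_span_singleton'] at hc
    obtain ⟨b, hb⟩ := hc
    -- `b * x = c * g - y`
    have hbq : b ∈ q := by
      have : b * x ∈ q := by
        rw [hb]; exact sub_mem (Ideal.mul_mem_left _ _ hgq) hy
      exact (Ideal.IsPrime.mem_or_mem ‹_› this).resolve_right hxq
    have hy2 : y = c * g + -(b * x) := by rw [hb]; ring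
    rw [hy2]
    refine Submodule.add_mem_sup ?_ ?_
    · exact Ideal.mul_mem_left _ _ (Ideal.mem_span_singleton_self g)
    · refine neg_mem ?_
      rw [mul_comm]
      exact Submodule.smul_mem_smul hx hbq

/-- In a Noetherian semilocal ring an ideal which is principal at every maximal ideal
is principal. -/
theorem exists_generator_of_local {E : Type*} [CommRing E] [IsNoetherianRing E]
    (hfin : {M : Ideal E | M.IsMaximal}.Finite) (I : Ideal E)
    (hloc : ∀ (M : Ideal E) [M.IsMaximal], ∃ t : Localization.AtPrime M,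
      I.map (algebraMap E (Localization.AtPrime M)) = Ideal.span {t}) :
    ∃ g : E, I = Ideal.span {g} := by
  classical
  let s := hfin.toFinset
  have coprime : ∀ M ∈ s, ∀ M' ∈ s.erase M, M ⊔ M' = ⊤ := by
    simp_rw [s, Finset.mem_erase, hfin.mem_toFinset]
    rintro M hM M' ⟨hne, hM'⟩
    exact Ideal.IsMaximal.coprime_of_ne hM hM' hne.symm
  have nle : ∀ M ∈ s, ¬⨅ M' ∈ s.erase M, M' ≤ M := fun M hM =>
    left_lt_sup.1
      ((hfin.mem_toFinset.1 hM).lt_top.trans_eq (Ideal.sup_iInf_eq_top <| coprime M hM).symm)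
  choose! u hu hum using fun M hM => SetLike.not_le_iff_exists.1 (nle M hM)
  have hloc' : ∀ M ∈ s, ∃ t ∈ I, ∀ hM : M.IsMaximal,
      I.map (algebraMap E (Localization.AtPrime M)) =
        Ideal.span {algebraMap E (Localization.AtPrime M) t} := by
    intro M hM
    have hM' : M.IsMaximal := hfin.mem_toFinset.1 hM
    obtain ⟨t, ht⟩ := hloc M
    have htm : t ∈ I.map (algebraMap E (Localization.AtPrime M)) := by
      rw [ht]; exact Ideal.mem_span_singleton_self t
    obtain ⟨⟨⟨a, ha⟩, b⟩, hab⟩ := (IsLocalization.mem_map_algebraMap_iff M.primeCompl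
      (Localization.AtPrime M)).1 htm
    refine ⟨a, ha, fun _ => ?_⟩
    rw [ht]
    simp only at hab
    rw [← hab]
    exact (Ideal.span_singleton_mul_right_unit (IsLocalization.map_units _ b) t).symm
  choose! t htI ht using hloc'
  let g := ∑ M ∈ s, u M * t M
  have hgI : g ∈ I := Submodule.sum_mem _ fun M hM => Ideal.mul_mem_left _ _ (htI M hM)
  refine ⟨g, le_antisymm ?_ (by rwa [Ideal.span_singleton_le_iff_mem])⟩
  apply Ideal.le_of_localization_maximal
  intro M hM
  have hMs : M ∈ s := hfin.mem_toFinset.2 hM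
  let L := Localization.AtPrime M
  apply Submodule.le_of_le_smul_of_le_jacobson_bot (I := maximalIdeal L)
      (IsNoetherian.noetherian _) (maximalIdeal_le_jacobson _)
  have h1 : I.map (algebraMap E L) = Ideal.span {algebraMap E L (t M)} := ht M hMs hM
  conv_lhs => rw [h1]
  rw [Ideal.span_singleton_le_iff_mem]
  have hunit : IsUnit (algebraMap E L (u M)) :=
    IsLocalization.map_units (M := M.primeCompl) L ⟨u M, hum M hMs⟩
  have h2 : algebraMap E L (u M) * algebraMap E L (t M) ∈
      Ideal.map (algebraMap E L) (Ideal.span {g}) ⊔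
        maximalIdeal L • Ideal.map (algebraMap E L) I := by
    have h3 : u M * t M = g + -(∑ M' ∈ s.erase M, u M' * t M') := by
      rw [← sub_eq_add_neg, eq_sub_iff_add_eq]
      exact s.add_sum_erase (fun M => u M * t M) hMs
    rw [← map_mul, h3, map_add]
    refine Submodule.add_mem_sup (Ideal.mem_map_of_mem _ (Ideal.mem_span_singleton_self g)) ?_
    rw [map_neg, map_sum]
    refine neg_mem (Submodule.sum_mem _ fun M' hM' => ?_)
    rw [map_mul]
    refine Submodule.smul_mem_smul ?_ (Ideal.mem_map_of_mem _ (htI M' (Finset.mem_of_mem_erase hM')))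
    have h4 := hu M' (Finset.mem_of_mem_erase hM')
    simp_rw [Ideal.mem_iInf, Finset.mem_erase] at h4
    have h5 : u M' ∈ M := h4 M ⟨(Finset.ne_of_mem_erase hM').symm, hMs⟩
    rw [← Localization.AtPrime.map_eq_maximalIdeal]
    exact Ideal.mem_map_of_mem _ h5
  exact (Ideal.unit_mul_mem_iff_mem _ hunit).1 h2

/-- In a semilocal domain whose localizations at maximal ideals are regular of dimension two,
every nonmaximal prime is principal. -/
theorem exists_generator_of_regular {E : Type*} [CommRing E] [IsNoetherianRing E]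
    (hfin : {M : Ideal E | M.IsMaximal}.Finite)
    (hreg : ∀ (M : Ideal E) [M.IsMaximal], IsRegularLocalRing (Localization.AtPrime M) ∧
        ringKrullDim (Localization.AtPrime M) = 2)
    (q : Ideal E) [hq : q.IsPrime] (hqm : ¬ q.IsMaximal) :
    ∃ g : E, q = Ideal.span {g} := by
  apply exists_generator_of_local hfin
  intro M hM
  by_cases hle : q ≤ M
  · obtain ⟨h1, h2⟩ := hreg M
    have hdisj : Disjoint (M.primeCompl : Set E) (q : Set E) := by
      rw [Set.disjoint_left]
      intro x hx hxq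
      exact hx (hle hxq)
    have hqp : (q.map (algebraMap E (Localization.AtPrime M))).IsPrime :=
      IsLocalization.isPrime_of_isPrime_disjoint M.primeCompl _ q hq hdisj
    refine exists_generator_of_isPrime _ h2 _ ?_
    intro h
    apply hqm
    have h3 := IsLocalization.under_map_of_isPrime_disjoint M.primeCompl
      (Localization.AtPrime M) hq hdisj
    have h4 : Ideal.under E (maximalIdeal (Localization.AtPrime M)) = M :=
      Localization.AtPrime.under_maximalIdeal
    rw [h, h4] at h3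
    rw [← h3]
    exact hM
  · refine ⟨1, ?_⟩
    obtain ⟨x, hx, hxM⟩ := SetLike.not_le_iff_exists.1 hle
    rw [Ideal.span_singleton_one]
    exact Ideal.eq_top_of_isUnit_mem _ (Ideal.mem_map_of_mem _ hx)
      (IsLocalization.map_units (M := M.primeCompl) (Localization.AtPrime M) ⟨x, hxM⟩)

end Vale.Agent.P178
end
end

section

section

universe u

namespace Vale.Agent.P178

open IsLocalRing

theorem exists_prime_generator {E B : Type*} [CommRing E] [IsNoetherianRing E] [IsDomain E]
    [CommRing B] [IsDomain B] [IsPrincipalIdealRing B] (hB : ¬ IsField B)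
    (hfin : {M : Ideal E | M.IsMaximal}.Finite)
    (hreg : ∀ (M : Ideal E) [M.IsMaximal], IsRegularLocalRing (Localization.AtPrime M) ∧
        ringKrullDim (Localization.AtPrime M) = 2)
    (ψ : E →+* B) (hψ : Function.Surjective ψ) :
    ∃ g : E, Prime g ∧ RingHom.ker ψ = Ideal.span {g} := by
  have hprime : (RingHom.ker ψ).IsPrime := RingHom.ker_isPrime ψ
  obtain ⟨g, hg⟩ := exists_generator_of_regular hfin hreg (RingHom.ker ψ) (by
    intro hmax
    apply hB
    let e := RingHom.quotientKerEquivOfSurjective hψ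
    have h1 : IsField (E ⧸ RingHom.ker ψ) :=
      (Ideal.Quotient.maximal_ideal_iff_isField_quotient _).1 hmax
    exact MulEquiv.isField h1 e.symm.toMulEquiv)
  have hg0 : g ≠ 0 := by
    rintro rfl
    rw [Ideal.span_singleton_eq_bot.2 rfl] at hg
    have hinj : Function.Injective ψ := (RingHom.injective_iff_ker_eq_bot ψ).2 hg
    let e := RingEquiv.ofBijective ψ ⟨hinj, hψ⟩
    have h1 : ringKrullDim E = ringKrullDim B := ringKrullDim_eq_of_ringEquiv e
    have h2 : ringKrullDim B ≤ 1 := by
      have : Ring.KrullDimLE 1 B := inferInstance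
      exact Order.KrullDimLE.krullDim_le
    obtain ⟨M, hM⟩ := Ideal.exists_maximal E
    obtain ⟨-, h3⟩ := hreg M
    have h4 : ringKrullDim (Localization.AtPrime M) ≤ ringKrullDim E := by
      rw [IsLocalization.AtPrime.ringKrullDim_eq_height M (Localization.AtPrime M)]
      exact Ideal.height_le_ringKrullDim_of_ne_top hM.ne_top
    rw [h3, h1] at h4
    have h5 := h4.trans h2
    norm_num at h5
  rw [hg] at hprime
  exact ⟨g, (Ideal.span_singleton_prime hg0).1 hprime, hg⟩

section

variable (A : Type u) [CommRing A] [IsRegularLocalRing A]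

theorem height_of_add_eq {n : ℕ} {h : ℕ∞} (hh : (h : WithBot ℕ∞) + ((1 : ℕ) + 1) = n + 2) :
    h = n := by
  have h1 : ((h + 2 : ℕ∞) : WithBot ℕ∞) = ((n + 2 : ℕ∞) : WithBot ℕ∞) := by
    rw [WithBot.coe_add, WithBot.coe_add]
    have h2 : (((1 : ℕ) : WithBot ℕ∞) + 1) = ((2 : ℕ∞) : WithBot ℕ∞) := by norm_num
    rw [h2] at hh
    exact hh
  have h3 := WithBot.coe_injective h1
  exact ENat.add_left_injective_of_ne_top (by decide) h3

/-- The surface attached to two curves glued at a point. -/
theorem exists_surface_two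
    (n : ℕ) (hn : 1 ≤ n) (hdim : ringKrullDim A = n + 2)
    {B₁ B₂ F : Type u} [CommRing B₁] [CommRing B₂] [CommRing F]
    [Algebra A B₁] [Algebra A B₂] [Algebra A F] [Module.Finite A B₁] [Module.Finite A B₂]
    [IsDomain B₁] [IsPrincipalIdealRing B₁] [IsDomain B₂] [IsDiscreteValuationRing B₂]
    (f₁ : B₁ →ₐ[A] F) (f₂ : B₂ →ₐ[A] F)
    (h₁ : Function.Surjective f₁) (h₂ : Function.Surjective f₂)
    {x : B₁} {t : B₂} (hk₁ : RingHom.ker f₁ = Ideal.span {x})
    (hk₂ : RingHom.ker f₂ = maximalIdeal B₂) (ht : maximalIdeal B₂ = Ideal.span {t})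
    (hx : (Ideal.span {x}).IsMaximal) (hx0 : x ≠ 0)
    (hbir : ∀ b : B₁, ∃ s a : A, algebraMap A B₁ s ≠ 0 ∧
      algebraMap A B₁ s * b = algebraMap A B₁ a)
    (hne : ¬ RingHom.ker (algebraMap A B₂) ≤ RingHom.ker (algebraMap A B₁)) :
    ∃ (E : Type u) (_ : CommRing E) (_ : Algebra A E) (_ : Module.Finite A E) (_ : IsDomain E)
      (ψ₁ : E →ₐ[A] B₁) (ψ₂ : E →ₐ[A] B₂) (g₁ g₂ : E),
      Function.Surjective ψ₁ ∧ Function.Surjective ψ₂ ∧ Prime g₁ ∧ Prime g₂ ∧
      RingHom.ker ψ₁ = Ideal.span {g₁} ∧ RingHom.ker ψ₂ = Ideal.span {g₂} ∧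
      Associated (ψ₁ g₂) x ∧ Associated (ψ₂ g₁) t ∧
      (∀ q : Ideal E, q.IsPrime →
        q.comap (algebraMap A E) = RingHom.ker (algebraMap A B₁) → q = RingHom.ker ψ₁) ∧
      (∀ e : E, ∃ s a : A, algebraMap A B₁ s ≠ 0 ∧
        algebraMap A E s * e = algebraMap A E a) ∧
      (RingHom.ker (algebraMap A E)).height = n := by
  have hfield₁ : ¬ IsField B₁ := by
    intro h
    have h1 := Ring.ne_bot_of_isMaximal_of_not_isField hx
    let _ := h.toField
    have h2 : Ideal.span {x} = ⊤ := (Ideal.eq_bot_or_top (Ideal.span {x})).resolve_left (by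
      rw [Ideal.span_singleton_eq_bot]; exact hx0)
    exact hx.ne_top h2
  have hfield₂ : ¬ IsField B₂ := IsDiscreteValuationRing.not_isField B₂
  have hP₁prime : (RingHom.ker (gfst f₁ f₂)).IsPrime := RingHom.ker_isPrime _
  have hs₁ := gfst_surjective f₁ f₂ h₂
  have hs₂ := gsnd_surjective f₁ f₂ h₁
  have hfx : f₁ x = 0 := by
    rw [← RingHom.mem_ker, hk₁]; exact Ideal.mem_span_singleton_self x
  have hft : f₂ t = 0 := by
    rw [← RingHom.mem_ker, hk₂, ht]; exact Ideal.mem_span_singleton_self t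
  have hcomap : ∀ s : A, algebraMap A (glue f₁ f₂) s ∈ RingHom.ker (gfst f₁ f₂) ↔
      algebraMap A B₁ s = 0 := by
    intro s
    rw [RingHom.mem_ker, AlgHom.commutes]
  have hcomap' : (RingHom.ker (gfst f₁ f₂)).comap (algebraMap A (glue f₁ f₂)) =
      RingHom.ker (algebraMap A B₁) := by
    ext s
    rw [Ideal.mem_comap, hcomap, RingHom.mem_ker]
  obtain ⟨E, _, _, _, _, φ, hφ, hmaxE, hregE, huniqE, hbirE, hht⟩ :=
    exists_regular_cover A (glue f₁ f₂) (RingHom.ker (gfst f₁ f₂)) 1
      (by
        rw [hdim]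
        gcongr)
      (ker_gfst_le f₁ f₂ h₁ hk₂)
      (by
        intro hmax
        apply hfield₁
        let e := RingHom.quotientKerEquivOfSurjective (f := (gfst f₁ f₂ : glue f₁ f₂ →+* B₁)) hs₁
        have h1 : IsField (glue f₁ f₂ ⧸ RingHom.ker (gfst f₁ f₂ : glue f₁ f₂ →+* B₁)) :=
          (Ideal.Quotient.maximal_ideal_iff_isField_quotient _).1 hmax
        exact MulEquiv.isField h1 e.symm.toMulEquiv)
      (glue_embedding f₁ f₂ h₁ h₂ hk₁ hk₂ ht hx)
      (by
        intro c
        obtain ⟨s, a, hs, hsa⟩ := hbir (gfst f₁ f₂ c)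
        refine ⟨s, a, ?_, ?_⟩
        · rw [hcomap]; exact hs
        · rw [RingHom.mem_ker, map_sub, map_mul, AlgHom.commutes, AlgHom.commutes, hsa, sub_self])
      (by
        refine ⟨⟨(x, 0), by rw [mem_glue_iff, hfx, map_zero]⟩, fun h => hx0 h, fun y hy => ?_⟩
        rw [mul_comm]
        exact ker_mul_ker f₁ f₂ hy rfl)
      (by
        intro q hq hqc
        by_cases hle : RingHom.ker (gfst f₁ f₂) ≤ q
        · exact (eq_of_le_of_comap_eq (A := A) hle hqc.symm).symm
        · exfalso
          obtain ⟨y, hy, hyq⟩ := SetLike.not_le_iff_exists.1 hle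
          apply hne
          intro s hs
          have h0 : gsnd f₁ f₂ (algebraMap A (glue f₁ f₂) s) = 0 := by
            rw [AlgHom.commutes]; exact hs
          have h1 : y * algebraMap A (glue f₁ f₂) s = 0 := ker_mul_ker f₁ f₂ hy h0
          have h2 : y * algebraMap A (glue f₁ f₂) s ∈ q := by rw [h1]; exact zero_mem _
          have h3 : s ∈ q.comap (algebraMap A (glue f₁ f₂)) :=
            (hq.mem_or_mem h2).resolve_left hyq
          rw [hqc, hcomap'] at h3
          exact h3)
  have hnoeth : IsNoetherianRing E := IsNoetherianRing.of_finite A E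
  have hfin := finite_maximalIdeals (A := A) E
  have hregE' : ∀ (M : Ideal E) [M.IsMaximal], IsRegularLocalRing (Localization.AtPrime M) ∧
        ringKrullDim (Localization.AtPrime M) = 2 := by
    intro M _
    obtain ⟨h1, h2⟩ := hregE M
    refine ⟨h1, h2.trans ?_⟩
    norm_num
  let ψ₁ : E →ₐ[A] B₁ := (gfst f₁ f₂).comp φ
  let ψ₂ : E →ₐ[A] B₂ := (gsnd f₁ f₂).comp φ
  have hψ₁ : Function.Surjective ψ₁ := hs₁.comp hφ
  have hψ₂ : Function.Surjective ψ₂ := hs₂.comp hφ
  obtain ⟨g₁, hg₁, hker₁⟩ := exists_prime_generator hfield₁ hfin hregE' (ψ₁ : E →+* B₁) hψ₁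
  obtain ⟨g₂, hg₂, hker₂⟩ := exists_prime_generator hfield₂ hfin hregE' (ψ₂ : E →+* B₂) hψ₂
  refine ⟨E, inferInstance, inferInstance, inferInstance, inferInstance, ψ₁, ψ₂, g₁, g₂,
    hψ₁, hψ₂, hg₁, hg₂, hker₁, hker₂, ?_, ?_, ?_, ?_, ?_⟩
  · -- the ideal generated by `ψ₁ g₂` is the kernel of `f₁`
    rw [← Ideal.span_singleton_eq_span_singleton, ← hk₁]
    apply le_antisymm
    · rw [Ideal.span_singleton_le_iff_mem, RingHom.mem_ker]
      have h1 : f₁ (gfst f₁ f₂ (φ g₂)) = f₂ (gsnd f₁ f₂ (φ g₂)) := (φ g₂).2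
      have h2 : gsnd f₁ f₂ (φ g₂) = 0 := by
        have : g₂ ∈ RingHom.ker (ψ₂ : E →+* B₂) := by
          rw [hker₂]; exact Ideal.mem_span_singleton_self g₂
        exact this
      change f₁ (gfst f₁ f₂ (φ g₂)) = 0
      rw [h1, h2, map_zero]
    · intro b hb
      obtain ⟨e, he⟩ := hφ ⟨(b, 0), by rw [mem_glue_iff, (RingHom.mem_ker).1 hb, map_zero]⟩
      have h1 : e ∈ RingHom.ker (ψ₂ : E →+* B₂) := by
        change gsnd f₁ f₂ (φ e) = 0
        rw [he]
        rfl
      rw [hker₂, Ideal.mem_span_singleton'] at h1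
      obtain ⟨c, hc⟩ := h1
      rw [Ideal.mem_span_singleton']
      refine ⟨ψ₁ c, ?_⟩
      rw [← map_mul, hc]
      change gfst f₁ f₂ (φ e) = b
      rw [he]
      rfl
  · rw [← Ideal.span_singleton_eq_span_singleton, ← ht, ← hk₂]
    apply le_antisymm
    · rw [Ideal.span_singleton_le_iff_mem, RingHom.mem_ker]
      have h1 : f₁ (gfst f₁ f₂ (φ g₁)) = f₂ (gsnd f₁ f₂ (φ g₁)) := (φ g₁).2
      have h2 : gfst f₁ f₂ (φ g₁) = 0 := by
        have : g₁ ∈ RingHom.ker (ψ₁ : E →+* B₁) := by
          rw [hker₁]; exact Ideal.mem_span_singleton_self g₁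
        exact this
      change f₂ (gsnd f₁ f₂ (φ g₁)) = 0
      rw [← h1, h2, map_zero]
    · intro b hb
      obtain ⟨e, he⟩ := hφ ⟨(0, b), by rw [mem_glue_iff, (RingHom.mem_ker).1 hb, map_zero]⟩
      have h1 : e ∈ RingHom.ker (ψ₁ : E →+* B₁) := by
        change gfst f₁ f₂ (φ e) = 0
        rw [he]
        rfl
      rw [hker₁, Ideal.mem_span_singleton'] at h1
      obtain ⟨c, hc⟩ := h1
      rw [Ideal.mem_span_singleton']
      refine ⟨ψ₂ c, ?_⟩
      rw [← map_mul, hc]
      change gsnd f₁ f₂ (φ e) = b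
      rw [he]
      rfl
  · intro q hq hqc
    rw [huniqE q hq (by rw [hqc, hcomap'])]
    rfl
  · intro e
    obtain ⟨s, a, hs, hsa⟩ := hbirE e
    exact ⟨s, a, fun h => hs ((hcomap s).2 h), hsa⟩
  · exact height_of_add_eq (by rw [← hdim, ← hht])

/-- The surface attached to one curve. -/
theorem exists_surface_one
    (n : ℕ) (hn : 1 ≤ n) (hdim : ringKrullDim A = n + 2)
    {B : Type u} [CommRing B] [Algebra A B] [Module.Finite A B]
    [IsDomain B] [IsPrincipalIdealRing B] (hfield : ¬ IsField B)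
    (hbir : ∀ b : B, ∃ s a : A, algebraMap A B s ≠ 0 ∧
      algebraMap A B s * b = algebraMap A B a) :
    ∃ (E : Type u) (_ : CommRing E) (_ : Algebra A E) (_ : Module.Finite A E) (_ : IsDomain E)
      (ψ : E →ₐ[A] B) (g : E),
      Function.Surjective ψ ∧ Prime g ∧ RingHom.ker ψ = Ideal.span {g} ∧
      (∀ M : Ideal E, M.IsMaximal → RingHom.ker ψ ≤ M) ∧
      (∀ q : Ideal E, q.IsPrime →
        q.comap (algebraMap A E) = RingHom.ker (algebraMap A B) → q = RingHom.ker ψ) ∧
      (∀ e : E, ∃ s a : A, algebraMap A B s ≠ 0 ∧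
        algebraMap A E s * e = algebraMap A E a) ∧
      (RingHom.ker (algebraMap A E)).height = n := by
  obtain ⟨E, _, _, _, _, φ, hφ, hmaxE, hregE, huniqE, hbirE, hht⟩ :=
    exists_regular_cover A B ⊥ 1
      (by
        rw [hdim]
        gcongr)
      (fun _ _ => bot_le)
      (by
        intro hmax
        have h1 : IsField (B ⧸ (⊥ : Ideal B)) :=
          (Ideal.Quotient.maximal_ideal_iff_isField_quotient _).1 hmax
        exact hfield (MulEquiv.isField h1 (RingEquiv.quotientBot B).symm.toMulEquiv))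
      (by
        intro M hM
        obtain ⟨ν, hν⟩ := (IsPrincipalIdealRing.principal M)
        have hνm : ν ∈ M := by
          rw [hν]; exact Submodule.mem_span_singleton_self ν
        refine finrank_cotangent_le M (a := ν) (b := 0) hνm (zero_mem _) ?_
        intro m hm
        rw [hν] at hm
        obtain ⟨β, hβ⟩ := Ideal.mem_span_singleton'.1 hm
        exact ⟨β, 0, by rw [hβ]; simp⟩)
      (by
        intro c
        obtain ⟨s, a, hs, hsa⟩ := hbir c
        refine ⟨s, a, ?_, ?_⟩
        · rw [Ideal.mem_bot]; exact hs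
        · rw [hsa, sub_self]; exact zero_mem _)
      ⟨1, by rw [Ideal.mem_bot]; exact one_ne_zero, fun x hx => by
        rw [Ideal.mem_bot.1 hx, mul_zero]⟩
      (by
        intro q hq hqc
        exact (eq_of_le_of_comap_eq (A := A) bot_le hqc.symm).symm)
  have hnoeth : IsNoetherianRing E := IsNoetherianRing.of_finite A E
  have hfin := finite_maximalIdeals (A := A) E
  have hregE' : ∀ (M : Ideal E) [M.IsMaximal], IsRegularLocalRing (Localization.AtPrime M) ∧
        ringKrullDim (Localization.AtPrime M) = 2 := by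
    intro M _
    obtain ⟨h1, h2⟩ := hregE M
    refine ⟨h1, h2.trans ?_⟩
    norm_num
  obtain ⟨g, hg, hker⟩ := exists_prime_generator hfield hfin hregE' (φ : E →+* B) hφ
  refine ⟨E, inferInstance, inferInstance, inferInstance, inferInstance, φ, g,
    hφ, hg, hker, hmaxE, ?_, ?_, ?_⟩
  · intro q hq hqc
    rw [huniqE q hq (by rw [hqc]; rfl)]
    rfl
  · intro e
    obtain ⟨s, a, hs, hsa⟩ := hbirE e
    exact ⟨s, a, fun h => hs (Ideal.mem_bot.2 h), hsa⟩
  · exact height_of_add_eq (by rw [← hdim, ← hht])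

end

end Vale.Agent.P178
end
end

section

section

universe u

namespace Vale.Agent.P178

open IsLocalRing Polynomial

/-- A Noetherian local ring whose maximal ideal is generated by a nonzerodivisor is a
discrete valuation ring. -/
theorem isDomain_of_generator {R : Type*} [CommRing R] [IsLocalRing R] [IsNoetherianRing R]
    {t : R} (ht : maximalIdeal R = Ideal.span {t}) (hreg : ∀ a, t * a = 0 → a = 0) :
    IsDomain R := by
  have hfac : ∀ a : R, a ≠ 0 → ∃ (n : ℕ) (w : R), IsUnit w ∧ a = t ^ n * w := by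
    intro a ha
    have hex : ∃ n : ℕ, a ∉ maximalIdeal R ^ (n + 1) := by
      by_contra! hcon
      have h1 : a ∈ (⨅ i : ℕ, maximalIdeal R ^ i) := by
        rw [Ideal.mem_iInf]
        intro i
        exact Ideal.pow_le_pow_right (Nat.le_succ i) (hcon i)
      rw [Ideal.iInf_pow_eq_bot_of_isLocalRing _ (maximalIdeal.isMaximal R).ne_top] at h1
      exact ha h1
    obtain ⟨n, h1, h2⟩ : ∃ n, a ∉ maximalIdeal R ^ (n + 1) ∧ a ∈ maximalIdeal R ^ n := by
      classical
      refine ⟨Nat.find hex, Nat.find_spec hex, ?_⟩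
      rcases Nat.eq_zero_or_pos (Nat.find hex) with h0 | h0
      · rw [h0, pow_zero, Ideal.one_eq_top]; trivial
      · have h3 := Nat.find_min hex (m := Nat.find hex - 1) (by omega)
        rw [not_not, Nat.sub_add_cancel h0] at h3
        exact h3
    rw [ht, Ideal.span_singleton_pow, Ideal.mem_span_singleton'] at h2
    obtain ⟨w, hw⟩ := h2
    refine ⟨n, w, ?_, by rw [← hw, mul_comm]⟩
    by_contra hwu
    apply h1
    have h3 : w ∈ Ideal.span {t} := by rw [← ht]; exact hwu
    rw [pow_succ, ht, Ideal.span_singleton_pow, ← hw, mul_comm w]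
    exact Ideal.mul_mem_mul (Ideal.mem_span_singleton_self _) h3
  have hpow : ∀ (n : ℕ) (a : R), t ^ n * a = 0 → a = 0 := by
    intro n
    induction n with
    | zero => intro a h; simpa using h
    | succ n ih =>
      intro a h
      rw [pow_succ, mul_assoc] at h
      exact hreg a (ih _ h)
  have : NoZeroDivisors R := by
    refine ⟨fun {a b} hab => ?_⟩
    by_contra hcon
    rw [not_or] at hcon
    obtain ⟨i, w, hw, rfl⟩ := hfac a hcon.1
    obtain ⟨j, z, hz, rfl⟩ := hfac b hcon.2
    have h1 : t ^ (i + j) * (w * z) = 0 := by rw [← hab]; ring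
    have h2 := hpow _ _ h1
    exact (hw.mul hz).ne_zero h2
  exact NoZeroDivisors.to_isDomain R

theorem isDVR_of_generator {R : Type*} [CommRing R] [IsLocalRing R] [IsNoetherianRing R]
    [IsDomain R] {t : R} (ht : maximalIdeal R = Ideal.span {t}) (ht0 : t ≠ 0) :
    IsDiscreteValuationRing R := by
  have hf : ¬ IsField R := by
    rw [isField_iff_maximalIdeal_eq, ht, Ideal.span_singleton_eq_bot]
    exact ht0
  have h1 : (maximalIdeal R).IsPrincipal := ⟨t, ht⟩
  exact ((IsDiscreteValuationRing.TFAE R hf).out 4 0).1 h1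

/-- One step of the construction of an unramified extension with given residue field. -/
theorem exists_lift_step (L : Type u) [CommRing L] [IsDomain L] [IsDiscreteValuationRing L]
    {t : L} (ht : maximalIdeal L = Ideal.span {t}) (F : Type u) [Field F] [Algebra L F]
    [Module.Finite L F] (hker : RingHom.ker (algebraMap L F) = maximalIdeal L) (θ : F) :
    ∃ (L' : Type u) (_ : CommRing L') (_ : Algebra L L') (_ : Module.Finite L L')
      (_ : Module.Free L L') (_ : IsDomain L') (_ : IsDiscreteValuationRing L')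
      (f : L' →ₐ[L] F),
      RingHom.ker f = maximalIdeal L' ∧
      maximalIdeal L' = Ideal.span {algebraMap L L' t} ∧ θ ∈ f.range := by
  have hloc : IsLocalHom (algebraMap L F) := by
    constructor
    intro a ha
    by_contra hcon
    have h1 : a ∈ maximalIdeal L := hcon
    rw [← hker, RingHom.mem_ker] at h1
    rw [h1] at ha
    exact not_isUnit_zero ha
  let _ : Algebra (ResidueField L) F := (ResidueField.lift (algebraMap L F)).toAlgebra
  have : IsScalarTower L (ResidueField L) F := IsScalarTower.of_algebraMap_eq fun a => by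
    exact (ResidueField.lift_residue_apply (f := algebraMap L F) a).symm
  have : Module.Finite (ResidueField L) F := Module.Finite.of_restrictScalars_finite L _ _
  have hint : IsIntegral (ResidueField L) θ := IsIntegral.of_finite _ _
  obtain ⟨p, hp, hdeg, hmonic⟩ := Polynomial.lifts_and_degree_eq_and_monic
    (f := residue L) (p := minpoly (ResidueField L) θ)
    (Polynomial.map_surjective _ residue_surjective _) (minpoly.monic hint)
  have hev : p.eval₂ (Algebra.ofId L F : L →+* F) θ = 0 := by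
    have h1 : (Algebra.ofId L F : L →+* F) =
        (algebraMap (ResidueField L) F).comp (residue L) := by
      ext a
      exact IsScalarTower.algebraMap_apply L (ResidueField L) F a
    rw [h1, ← Polynomial.eval₂_map, hp]
    exact minpoly.aeval (ResidueField L) θ
  let L' := AdjoinRoot p
  have hfin : Module.Finite L L' := hmonic.finite_adjoinRoot
  have hfree : Module.Free L L' := hmonic.free_adjoinRoot
  have hnoeth : IsNoetherianRing L' := IsNoetherianRing.of_finite L L'
  let f : L' →ₐ[L] F := AdjoinRoot.liftAlgHom p (Algebra.ofId L F) θ hev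
  have hft : f (algebraMap L L' t) = 0 := by
    rw [AlgHom.commutes, ← RingHom.mem_ker, hker, ht]
    exact Ideal.mem_span_singleton_self t
  have hfmk : ∀ q : L[X], f (AdjoinRoot.mk p q) =
      Polynomial.aeval θ (q.map (residue L)) := by
    intro q
    have h1 : (Algebra.ofId L F : L →+* F) =
        (algebraMap (ResidueField L) F).comp (residue L) := by
      ext a
      exact IsScalarTower.algebraMap_apply L (ResidueField L) F a
    have h2 : f (AdjoinRoot.mk p q) = q.eval₂ (Algebra.ofId L F : L →+* F) θ :=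
      AdjoinRoot.lift_mk hev q
    rw [h2, h1, ← Polynomial.eval₂_map]
    rfl
  have hkerf : RingHom.ker f = Ideal.span {algebraMap L L' t} := by
    apply le_antisymm
    · intro z hz
      obtain ⟨q, rfl⟩ := AdjoinRoot.mk_surjective z
      rw [RingHom.mem_ker, hfmk] at hz
      obtain ⟨r, hr⟩ := minpoly.dvd (ResidueField L) θ hz
      obtain ⟨r', rfl⟩ := Polynomial.map_surjective (residue L) residue_surjective r
      rw [← hp, ← Polynomial.map_mul, ← sub_eq_zero, ← Polynomial.map_sub] at hr
      have hdvd : C t ∣ (q - p * r') := by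
        rw [Polynomial.C_dvd_iff_dvd_coeff]
        intro i
        have h3 : (q - p * r').coeff i ∈ maximalIdeal L := by
          rw [← residue_eq_zero_iff, ← Polynomial.coeff_map, hr, Polynomial.coeff_zero]
        rw [ht, Ideal.mem_span_singleton] at h3
        exact h3
      obtain ⟨s, hs⟩ := hdvd
      have h4 : AdjoinRoot.mk p q = algebraMap L L' t * AdjoinRoot.mk p s := by
        have h5 : q = C t * s + p * r' := by rw [← hs]; ring
        rw [h5, map_add, map_mul, map_mul, AdjoinRoot.mk_self, zero_mul, add_zero]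
        rfl
      rw [h4]
      exact Ideal.mul_mem_right _ _ (Ideal.mem_span_singleton_self _)
    · rw [Ideal.span_singleton_le_iff_mem]
      exact hft
  have hprime : (RingHom.ker f).IsPrime := RingHom.ker_isPrime _
  have hmaxk : (RingHom.ker f).IsMaximal := by
    apply Ideal.isMaximal_of_isIntegral_of_isMaximal_comap (R := L)
    have h1 : (RingHom.ker f).comap (algebraMap L L') = maximalIdeal L := by
      rw [← hker]
      ext a
      rw [Ideal.mem_comap, RingHom.mem_ker, AlgHom.commutes, RingHom.mem_ker]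
    rw [h1]
    infer_instance
  have hlocal : IsLocalRing L' := by
    refine IsLocalRing.of_unique_max_ideal ⟨RingHom.ker f, hmaxk, fun M hM => ?_⟩
    have h1 : M.comap (algebraMap L L') = maximalIdeal L :=
      IsLocalRing.eq_maximalIdeal (Ideal.isMaximal_comap_of_isIntegral_of_isMaximal M)
    have h2 : algebraMap L L' t ∈ M := by
      rw [← Ideal.mem_comap, h1, ht]
      exact Ideal.mem_span_singleton_self t
    refine (hmaxk.eq_of_le hM.ne_top ?_).symm
    rw [hkerf, Ideal.span_singleton_le_iff_mem]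
    exact h2
  have hmeq : maximalIdeal L' = Ideal.span {algebraMap L L' t} := by
    rw [← hkerf]
    exact (IsLocalRing.eq_maximalIdeal hmaxk).symm
  have ht0 : t ≠ 0 := by
    rintro rfl
    apply IsDiscreteValuationRing.not_isField L
    rw [isField_iff_maximalIdeal_eq, ht, Ideal.span_singleton_eq_bot]
  have hreg : ∀ a : L', algebraMap L L' t * a = 0 → a = 0 := by
    intro a ha
    rw [← Algebra.smul_def] at ha
    exact (smul_eq_zero.1 ha).resolve_left ht0
  have hdom : IsDomain L' := isDomain_of_generator hmeq hreg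
  have hdvr : IsDiscreteValuationRing L' := isDVR_of_generator hmeq (by
    intro h
    have := hreg 1 (by rw [h, zero_mul])
    exact one_ne_zero this)
  refine ⟨L', inferInstance, inferInstance, hfin, hfree, hdom, hdvr, f, ?_, hmeq, ?_⟩
  · rw [hkerf, hmeq]
  · exact ⟨AdjoinRoot.root p, AdjoinRoot.lift_root hev⟩

/-- Unramified extension of a discrete valuation ring with given residue field. -/
theorem exists_lift (L₀ : Type u) [CommRing L₀] [IsDomain L₀] [IsDiscreteValuationRing L₀]
    {t : L₀} (ht : maximalIdeal L₀ = Ideal.span {t}) (F : Type u) [Field F] [Algebra L₀ F]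
    [Module.Finite L₀ F] (hker : RingHom.ker (algebraMap L₀ F) = maximalIdeal L₀) :
    ∃ (L : Type u) (_ : CommRing L) (_ : Algebra L₀ L) (_ : Module.Finite L₀ L)
      (_ : Module.Free L₀ L) (_ : IsDomain L) (_ : IsDiscreteValuationRing L)
      (f : L →ₐ[L₀] F),
      RingHom.ker f = maximalIdeal L ∧
      maximalIdeal L = Ideal.span {algebraMap L₀ L t} ∧ Function.Surjective f := by
  let S : Set (Submodule L₀ F) := {N | ∃ (L : Type u) (_ : CommRing L) (_ : Algebra L₀ L)
      (_ : Module.Finite L₀ L)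
      (_ : Module.Free L₀ L) (_ : IsDomain L) (_ : IsDiscreteValuationRing L)
      (f : L →ₐ[L₀] F),
      RingHom.ker f = maximalIdeal L ∧
      maximalIdeal L = Ideal.span {algebraMap L₀ L t} ∧ N = LinearMap.range f.toLinearMap}
  have hS : S.Nonempty := by
    refine ⟨_, L₀, inferInstance, Algebra.id L₀, inferInstance, inferInstance, inferInstance,
      inferInstance, Algebra.ofId L₀ F, hker, ht, rfl⟩
  obtain ⟨N, ⟨L, _, _, _, _, _, _, f, hkf, hmf, hN⟩, hmax⟩ :=
    wellFounded_gt.has_min S hS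
  refine ⟨L, inferInstance, inferInstance, inferInstance, inferInstance, inferInstance,
    inferInstance, f, hkf, hmf, ?_⟩
  by_contra hsurj
  obtain ⟨θ, hθ⟩ : ∃ θ, ¬ ∃ a, f a = θ := by
    rw [Function.Surjective] at hsurj
    push Not at hsurj ⊢
    exact hsurj
  let _ : Algebra L F := (f : L →+* F).toAlgebra
  have : IsScalarTower L₀ L F := IsScalarTower.of_algebraMap_eq fun a => (f.commutes a).symm
  have : Module.Finite L F := Module.Finite.of_restrictScalars_finite L₀ L F
  obtain ⟨L', _, _, _, _, _, _, f', hkf', hmf', hθ'⟩ := exists_lift_step L hmf F hkf θ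
  let _ : Algebra L₀ L' := ((algebraMap L L').comp (algebraMap L₀ L)).toAlgebra
  have : IsScalarTower L₀ L L' := IsScalarTower.of_algebraMap_eq fun a => rfl
  have : Module.Finite L₀ L' := Module.Finite.trans L L'
  have : Module.Free L₀ L' := Module.Free.trans (S := L)
  let f'' : L' →ₐ[L₀] F := f'.restrictScalars L₀
  have hmem : LinearMap.range f''.toLinearMap ∈ S :=
    ⟨L', inferInstance, inferInstance, inferInstance, inferInstance, inferInstance,
      inferInstance, f'', hkf', hmf', rfl⟩
  apply hmax _ hmem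
  rw [SetLike.lt_iff_le_and_exists]
  constructor
  · rw [hN]
    rintro _ ⟨a, rfl⟩
    exact ⟨algebraMap L L' a, f'.commutes a⟩
  · obtain ⟨b, hb⟩ := hθ'
    refine ⟨θ, ⟨b, hb⟩, ?_⟩
    rw [hN]
    rintro ⟨a, ha⟩
    exact hθ ⟨a, ha⟩

end Vale.Agent.P178
end
end

section

section

universe u

noncomputable section

namespace Vale.Agent.P178

variable {A : Type u} [CommRing A]

/-- A birational integral model of `A / Q` embeds in the residue field. -/
theorem exists_model (Q : PrimeSpectrum A) (E : Type u) [CommRing E] [IsDomain E] [Algebra A E]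
    (hker : RingHom.ker (algebraMap A E) = Q.asIdeal)
    (hbir : ∀ e : E, ∃ s a : A, algebraMap A E s ≠ 0 ∧
        algebraMap A E s * e = algebraMap A E a) :
    ∃ (_ : Algebra E (kappa Q)), IsScalarTower A E (kappa Q) ∧ IsFractionRing E (kappa Q) := by
  let ρ : A ⧸ Q.asIdeal →+* E := Ideal.Quotient.lift Q.asIdeal (algebraMap A E) (fun a ha => by
    rw [← hker] at ha; exact ha)
  have hρ : Function.Injective ρ := by
    rw [injective_iff_map_eq_zero]
    intro a ha
    obtain ⟨x, rfl⟩ := Ideal.Quotient.mk_surjective a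
    rw [Ideal.Quotient.eq_zero_iff_mem, ← hker]
    exact ha
  let K := FractionRing E
  let _ : Algebra (A ⧸ Q.asIdeal) K := ((algebraMap E K).comp ρ).toAlgebra
  have hinj : Function.Injective (algebraMap (A ⧸ Q.asIdeal) K) :=
    (IsFractionRing.injective E K).comp hρ
  have : FaithfulSMul (A ⧸ Q.asIdeal) K := (faithfulSMul_iff_algebraMap_injective _ _).2 hinj
  have : IsFractionRing (A ⧸ Q.asIdeal) K := IsFractionRing.of_field _ _ (by
    intro z
    obtain ⟨x, y, hy, rfl⟩ := IsFractionRing.div_surjective (A := E) z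
    obtain ⟨s, a, hs, hsa⟩ := hbir x
    obtain ⟨s', a', hs', hsa'⟩ := hbir y
    have hy0 : y ≠ 0 := nonZeroDivisors.ne_zero hy
    refine ⟨Ideal.Quotient.mk _ (a * s'), Ideal.Quotient.mk _ (s * a'), ?_⟩
    change algebraMap E K x / algebraMap E K y =
      algebraMap E K (algebraMap A E (a * s')) / algebraMap E K (algebraMap A E (s * a'))
    have h1 : algebraMap E K y ≠ 0 := by
      rw [Ne, IsFractionRing.to_map_eq_zero_iff]; exact hy0
    have h2 : algebraMap E K (algebraMap A E (s * a')) ≠ 0 := by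
      rw [Ne, IsFractionRing.to_map_eq_zero_iff, map_mul, ← hsa']
      exact mul_ne_zero hs (mul_ne_zero hs' hy0)
    rw [div_eq_div_iff h1 h2, ← map_mul, ← map_mul]
    congr 1
    rw [map_mul, map_mul, ← hsa, ← hsa']
    ring)
  let e : kappa Q ≃ₐ[A ⧸ Q.asIdeal] K := FractionRing.algEquiv (A ⧸ Q.asIdeal) K
  let ι : E →+* kappa Q := (e.symm : K →+* kappa Q).comp (algebraMap E K)
  have hι : ∀ x : E, ι x = e.symm (algebraMap E K x) := fun _ => rfl
  let _ : Algebra E (kappa Q) := ι.toAlgebra
  refine ⟨inferInstance, ?_, ?_⟩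
  · refine IsScalarTower.of_algebraMap_eq fun a => ?_
    change algebraMap A (kappa Q) a = e.symm (algebraMap E K (algebraMap A E a))
    have h1 : algebraMap E K (algebraMap A E a) =
      algebraMap (A ⧸ Q.asIdeal) K (Ideal.Quotient.mk _ a) := rfl
    rw [h1, e.symm.commutes]
    rfl
  · have : FaithfulSMul E (kappa Q) := (faithfulSMul_iff_algebraMap_injective _ _).2
      (e.symm.injective.comp (IsFractionRing.injective E K))
    exact IsFractionRing.of_field _ _ (by
      intro z
      obtain ⟨x, y, hy, hxy⟩ := IsFractionRing.div_surjective (A := E) (e z)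
      refine ⟨x, y, ?_⟩
      change z = e.symm (algebraMap E K x) / e.symm (algebraMap E K y)
      rw [← map_div₀, hxy, e.symm_apply_apply])

end Vale.Agent.P178
end
end
end

section

section

universe u

noncomputable section

namespace Vale.Agent.P178

open IsLocalRing

variable {A : Type u} [CommRing A]

section height

variable [IsLocalRing A] {n : ℕ}

theorem height_maximalIdeal (hdim : ringKrullDim A = n + 2) :
    (maximalIdeal A).height = (n + 2 : ℕ) := by
  have h := IsLocalRing.maximalIdeal_height_eq_ringKrullDim (R := A)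
  rw [hdim] at h
  exact WithBot.coe_injective (h.trans (by norm_num))

theorem isCurve_of_height (hdim : ringKrullDim A = n + 2) (P : HtPrime A (n + 1)) :
    IsCurve P.1 := by
  have hm := height_maximalIdeal hdim
  constructor
  · intro h
    have h1 := P.2
    rw [h, hm] at h1
    have h2 : n + 2 = n + 1 := by exact_mod_cast h1
    omega
  · intro q hq hlt
    by_contra hne
    have h1 : P.1.asIdeal.height + 1 ≤ q.height := Ideal.height_add_one_le_of_lt_of_isPrime hlt
    have hlt2 : q < maximalIdeal A := lt_of_le_of_ne (le_maximalIdeal hq.ne_top) hne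
    have h2 : q.height + 1 ≤ (maximalIdeal A).height :=
      Ideal.height_add_one_le_of_lt_of_isPrime hlt2
    have h3 : P.1.asIdeal.height + 1 + 1 ≤ (maximalIdeal A).height :=
      (add_le_add_left h1 1).trans h2
    rw [P.2, hm] at h3
    have h4 : n + 1 + 1 + 1 ≤ n + 2 := by exact_mod_cast h3
    omega

theorem eq_of_le (hdim : ringKrullDim A = n + 2) {P P' : HtPrime A (n + 1)}
    (h : P.1.asIdeal ≤ P'.1.asIdeal) : P = P' := by
  by_contra hne
  have hlt : P.1.asIdeal < P'.1.asIdeal := lt_of_le_of_ne h (fun h1 =>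
    hne (Subtype.ext (PrimeSpectrum.ext h1)))
  have := (isCurve_of_height hdim P).eq _ inferInstance hlt
  exact (isCurve_of_height hdim P').ne this

end height

/-- Elements of the normalization are fractions. -/
theorem exists_frac_nrm (P : PrimeSpectrum A) (b : Nrm P) :
    ∃ s a : A, algebraMap A (Nrm P) s ≠ 0 ∧ algebraMap A (Nrm P) s * b =
      algebraMap A (Nrm P) a := by
  obtain ⟨a, s, hs, h⟩ := IsFractionRing.div_surjective (A := A ⧸ P.asIdeal) (b : kappa P)
  obtain ⟨a, rfl⟩ := Ideal.Quotient.mk_surjective a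
  obtain ⟨s, rfl⟩ := Ideal.Quotient.mk_surjective s
  have hs0 : algebraMap (A ⧸ P.asIdeal) (kappa P) (Ideal.Quotient.mk _ s) ≠ 0 := by
    rw [Ne, IsFractionRing.to_map_eq_zero_iff]
    exact nonZeroDivisors.ne_zero hs
  refine ⟨s, a, ?_, ?_⟩
  · intro h0
    apply hs0
    have : algebraMap (Nrm P) (kappa P) (algebraMap A (Nrm P) s) = 0 := by rw [h0, map_zero]
    exact this
  · apply IsFractionRing.injective (Nrm P) (kappa P)
    rw [map_mul]
    change algebraMap (A ⧸ P.asIdeal) (kappa P) (Ideal.Quotient.mk _ s) * (b : kappa P) =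
      algebraMap (A ⧸ P.asIdeal) (kappa P) (Ideal.Quotient.mk _ a)
    rw [← h]
    field_simp

theorem ker_algebraMap_nrm (P : PrimeSpectrum A) :
    RingHom.ker (algebraMap A (Nrm P)) = P.asIdeal := comap_bot_nrm P

section setup

variable {E : Type u} [CommRing E] [IsDomain E] [Algebra A E]
variable (P : PrimeSpectrum A) (ψ : E →ₐ[A] Nrm P)

/-- The induced map to the residue field. -/
def toKappa : E →+* kappa P := (algebraMap (Nrm P) (kappa P)).comp (ψ : E →+* Nrm P)

omit [IsDomain E] in
theorem toKappa_apply (x : E) : toKappa P ψ x = algebraMap (Nrm P) (kappa P) (ψ x) := rfl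

omit [IsDomain E] in
theorem toKappa_algebraMap (a : A) :
    toKappa P ψ (algebraMap A E a) = algebraMap (kappa P) (kappa P) (algebraMap A (kappa P) a) := by
  rw [toKappa_apply, AlgHom.commutes]
  rfl

omit [IsDomain E] in
theorem ker_toKappa : RingHom.ker (toKappa P ψ) = RingHom.ker ψ := by
  ext x
  rw [RingHom.mem_ker, RingHom.mem_ker, toKappa_apply, IsFractionRing.to_map_eq_zero_iff]

omit [IsDomain E] in
theorem toKappa_frac (hψ : Function.Surjective ψ) (y : kappa P) :
    ∃ r s : E, toKappa P ψ s ≠ 0 ∧ y = toKappa P ψ r / toKappa P ψ s := by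
  obtain ⟨a, b, hb, rfl⟩ := IsFractionRing.div_surjective (A := Nrm P) y
  obtain ⟨r, rfl⟩ := hψ a
  obtain ⟨s, rfl⟩ := hψ b
  refine ⟨r, s, ?_, rfl⟩
  rw [toKappa_apply, Ne, IsFractionRing.to_map_eq_zero_iff]
  exact nonZeroDivisors.ne_zero hb

end setup

section relation

variable [IsRegularLocalRing A] {n : ℕ}

/-- Data of a surface through a curve. -/
theorem relation_unit (hn : 1 ≤ n) (hdim : ringKrullDim A = n + 2)
    (P : HtPrime A (n + 1)) [Module.Finite (A ⧸ P.1.asIdeal) (Nrm P.1)]
    (w : (Nrm P.1)ˣ) :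
    ∃ (Q : HtPrime A n) (a b : (kappa Q.1)ˣ),
      bd₂ Q.1 P.1 a b = algebraMap (Nrm P.1) (kappa P.1) w ∧
      bd₁ Q.1 P.1 b = 1 ∧
      (∀ P' : HtPrime A (n + 1), P' ≠ P → bd₂ Q.1 P'.1 a b = 1) ∧
      (∀ P' : HtPrime A (n + 1), P' ≠ P → bd₁ Q.1 P'.1 b = 0) := by
  have hcurve := isCurve_of_height hdim P
  have := hcurve.isPrincipalIdealRing
  have := finite_nrm P.1
  have hfield : ¬ IsField (Nrm P.1) := by
    intro h
    exact hcurve.bot_not_isMaximal (Ring.isField_iff_maximal_bot.1 h)
  obtain ⟨E, _, _, _, _, ψ, g, hψ, hg, hker, hmaxE, huniq, hbirE, hht⟩ :=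
    exists_surface_one A n hn hdim (B := Nrm P.1) hfield (exists_frac_nrm P.1)
  have hnoeth : IsNoetherianRing E := IsNoetherianRing.of_finite A E
  obtain ⟨Q, hQ⟩ : ∃ Q : HtPrime A n, RingHom.ker (algebraMap A E) = Q.1.asIdeal :=
    ⟨⟨⟨RingHom.ker (algebraMap A E), RingHom.ker_isPrime _⟩, hht⟩, rfl⟩
  have hneE : ∀ s : A, algebraMap A (Nrm P.1) s ≠ 0 → algebraMap A E s ≠ 0 := by
    intro s hs h0
    apply hs
    rw [← ψ.commutes, h0, map_zero]
  obtain ⟨_, _, _⟩ := exists_model Q.1 E hQ (fun e => by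
    obtain ⟨s, a, hs, hsa⟩ := hbirE e
    exact ⟨s, a, hneE s hs, hsa⟩)
  obtain ⟨e, he⟩ := hψ (w : Nrm P.1)
  obtain ⟨e', he'⟩ := hψ ((w⁻¹ : (Nrm P.1)ˣ) : Nrm P.1)
  have heu : ∀ q : Ideal E, q.IsPrime → e ∉ q := by
    intro q hq heq
    obtain ⟨M, hM, hqM⟩ := Ideal.exists_le_maximal q hq.ne_top
    have h1 : e * e' - 1 ∈ RingHom.ker ψ := by
      rw [RingHom.mem_ker, map_sub, map_mul, he, he', Units.mul_inv, map_one, sub_self]
    have h2 : (1 : E) ∈ M := by
      have h3 := sub_mem (M.mul_mem_right e' (hqM heq)) (hmaxE M hM h1)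
      rwa [sub_sub_cancel] at h3
    exact hM.ne_top ((Ideal.eq_top_iff_one _).2 h2)
  have he0 : e ≠ 0 := fun h => heu ⊥ Ideal.isPrime_bot (by rw [h]; exact zero_mem _)
  have hcomap : (Ideal.span {g}).comap (algebraMap A E) = P.1.asIdeal := by
    rw [← hker]
    refine Eq.trans ?_ (ker_algebraMap_nrm P.1)
    ext x
    rw [Ideal.mem_comap, RingHom.mem_ker, RingHom.mem_ker, AlgHom.commutes]
  have hgq : ∀ P' : HtPrime A (n + 1), P' ≠ P → ∀ q : Ideal E, q.IsPrime →
      q.comap (algebraMap A E) = P'.1.asIdeal → g ∉ q := by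
    intro P' hP' q hq hqc hgq
    apply hP'
    refine (eq_of_le hdim ?_).symm
    rw [← hcomap, ← hqc]
    exact Ideal.comap_mono ((Ideal.span_singleton_le_iff_mem _).2 hgq)
  let a : (kappa Q.1)ˣ := Units.mk0 (algebraMap E (kappa Q.1) e) (by
    rw [Ne, IsFractionRing.to_map_eq_zero_iff]; exact he0)
  let b : (kappa Q.1)ˣ := Units.mk0 (algebraMap E (kappa Q.1) g) (by
    rw [Ne, IsFractionRing.to_map_eq_zero_iff]; exact hg.ne_zero)
  refine ⟨Q, a, b, ?_, ?_, ?_, ?_⟩
  · have h1 := bd₂_right Q.1 P.1 hg hcomap (toKappa P.1 ψ) (toKappa_algebraMap P.1 ψ)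
      ((ker_toKappa P.1 ψ).trans hker) (toKappa_frac P.1 ψ hψ) (b := e)
      (fun q hq _ => heu q hq)
    rw [Algebra.norm_self, toKappa_apply, he] at h1
    exact h1
  · have h1 := bd₁_prime Q.1 P.1 hg hcomap (toKappa P.1 ψ) (toKappa_algebraMap P.1 ψ)
      ((ker_toKappa P.1 ψ).trans hker) (toKappa_frac P.1 ψ hψ)
    rw [Module.finrank_self, Nat.cast_one] at h1
    exact h1
  · intro P' hP'
    exact bd₂_eq_one Q.1 P'.1 (fun q hq _ => heu q hq) (hgq P' hP')
  · intro P' hP'
    exact bd₁_eq_zero Q.1 P'.1 (hgq P' hP')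

end relation

end Vale.Agent.P178
end
end
end

section

section

universe u

noncomputable section

namespace Vale.Agent.P178

open IsLocalRing

variable {A : Type u} [CommRing A]

section places

variable [IsLocalRing A] [IsNoetherianRing A] {P : PrimeSpectrum A}
  [Module.Finite (A ⧸ P.asIdeal) (Nrm P)]

theorem IsCurve.exists_center (hP : IsCurve P) (v : Place P (closedPoint A)) :
    ∃ g : Nrm P, Prime g ∧ v.centerIn (Nrm P) = Ideal.span {g} := by
  have := hP.isPrincipalIdealRing
  have hmax : (v.centerIn (Nrm P)).IsMaximal :=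
    isMaximal_of_comap_eq (A := A) _ (v.comap_centerIn (Nrm P))
  obtain ⟨g, hg⟩ := (IsPrincipalIdealRing.principal (v.centerIn (Nrm P)))
  have hg' : v.centerIn (Nrm P) = Ideal.span {g} := hg
  have hg0 : g ≠ 0 := by
    rintro rfl
    apply hP.bot_not_isMaximal
    rw [Ideal.span_singleton_eq_bot.mpr rfl] at hg'
    rwa [hg'] at hmax
  refine ⟨g, (Ideal.span_singleton_prime hg0).1 ?_, hg'⟩
  rw [← hg']
  exact hmax.isPrime

/-- A curve has finitely many places over the closed point. -/
theorem IsCurve.finite_place (hP : IsCurve P) : Finite (Place P (closedPoint A)) := by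
  have := finite_nrm P
  have : IsNoetherianRing (Nrm P) := isNoetherianRing_nrm P
  have hfin : Finite {M : Ideal (Nrm P) | M.IsMaximal} :=
    (finite_maximalIdeals (A := A) (Nrm P)).to_subtype
  let f : Place P (closedPoint A) → {M : Ideal (Nrm P) | M.IsMaximal} := fun v =>
    ⟨v.centerIn (Nrm P), isMaximal_of_comap_eq (A := A) _ (v.comap_centerIn (Nrm P))⟩
  refine Finite.of_injective f ?_
  intro v w hvw
  obtain ⟨g, hg, hv⟩ := hP.exists_center v
  have hvw' : v.centerIn (Nrm P) = w.centerIn (Nrm P) := congrArg Subtype.val hvw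
  exact v.eq_of_center hg hv (hvw'.symm.trans hv)

theorem IsCurve.bd₁_mul (hP : IsCurve P) {a b : kappa P} (ha : a ≠ 0) (hb : b ≠ 0) :
    bd₁ P (closedPoint A) (a * b) = bd₁ P (closedPoint A) a + bd₁ P (closedPoint A) b := by
  have := hP.finite_place
  rw [bd₁, bd₁, bd₁, ← finsum_add_distrib (Set.toFinite _) (Set.toFinite _)]
  refine finsum_congr fun v => ?_
  rw [v.val_mul ha hb, add_mul]

end places

section degree

variable [IsLocalRing A] (Q : PrimeSpectrum A)
variable {R : Type u} [CommRing R] [IsDomain R] [Algebra A R] [Module.Finite A R]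
  [Algebra R (kappa Q)] [IsScalarTower A R (kappa Q)] [IsFractionRing R (kappa Q)]
  [IsNoetherianRing R]

omit [IsDomain R] [IsNoetherianRing R] in
theorem algebraMap_kappa_closedPoint_surjective :
    Function.Surjective (algebraMap A (kappa (closedPoint A))) := by
  have hfield : IsField (A ⧸ (closedPoint A).asIdeal) :=
    (Ideal.Quotient.maximal_ideal_iff_isField_quotient _).1 (IsLocalRing.maximalIdeal.isMaximal A)
  have hbij := hfield.localization_map_bijective (Rₘ := kappa (closedPoint A))
    (M := nonZeroDivisors (A ⧸ (closedPoint A).asIdeal)) (fun h => by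
      have : (1 : A ⧸ (closedPoint A).asIdeal) = 0 := by
        exact absurd rfl (nonZeroDivisors.ne_zero h)
      exact absurd rfl (nonZeroDivisors.ne_zero h))
  intro y
  obtain ⟨x, rfl⟩ := hbij.2 y
  obtain ⟨x, rfl⟩ := Ideal.Quotient.mk_surjective x
  exact ⟨x, rfl⟩

/-- The boundary of a prime element over the closed point is the length of its quotient. -/
theorem bd₁_eq_length {g : R} (hg : Prime g)
    (hP : (Ideal.span {g}).comap (algebraMap A R) = maximalIdeal A) :
    ∃ N : ℕ, bd₁ Q (closedPoint A) (algebraMap R (kappa Q) g) = N ∧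
      (N : ℕ∞) = Module.length A (R ⧸ Ideal.span {g}) := by
  have hprime : (Ideal.span {g}).IsPrime := (Ideal.span_singleton_prime hg.ne_zero).2 hg
  have hmax : (Ideal.span {g}).IsMaximal := isMaximal_of_comap_eq (A := A) _ hP
  let _ : Field (R ⧸ Ideal.span {g}) := Ideal.Quotient.field _
  let ρ : A ⧸ (closedPoint A).asIdeal →+* R ⧸ Ideal.span {g} :=
    Ideal.Quotient.lift _ (algebraMap A (R ⧸ Ideal.span {g})) (fun a ha => by
      have h1 : a ∈ (Ideal.span {g}).comap (algebraMap A R) := by rw [hP]; exact ha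
      exact Ideal.Quotient.eq_zero_iff_mem.2 h1)
  have hρ : Function.Injective ρ := by
    have : IsDomain (A ⧸ (closedPoint A).asIdeal) := inferInstance
    rw [injective_iff_map_eq_zero]
    intro a ha
    obtain ⟨x, rfl⟩ := Ideal.Quotient.mk_surjective a
    rw [Ideal.Quotient.eq_zero_iff_mem]
    have h1 : algebraMap R (R ⧸ Ideal.span {g}) (algebraMap A R x) = 0 := ha
    have h2 : algebraMap A R x ∈ Ideal.span {g} := Ideal.Quotient.eq_zero_iff_mem.1 h1
    have h3 : x ∈ (Ideal.span {g}).comap (algebraMap A R) := h2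
    rw [hP] at h3
    exact h3
  let ι : kappa (closedPoint A) →+* R ⧸ Ideal.span {g} := IsFractionRing.lift hρ
  let _ : Algebra (kappa (closedPoint A)) (R ⧸ Ideal.span {g}) := ι.toAlgebra
  have hι : ∀ a : A, ι (algebraMap A (kappa (closedPoint A)) a) =
      Ideal.Quotient.mk (Ideal.span {g}) (algebraMap A R a) := by
    intro a
    exact IsFractionRing.lift_algebraMap hρ (Ideal.Quotient.mk _ a)
  have htower : IsScalarTower A (kappa (closedPoint A)) (R ⧸ Ideal.span {g}) :=
    IsScalarTower.of_algebraMap_eq fun a => (hι a).symm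
  have hfin : Module.Finite (kappa (closedPoint A)) (R ⧸ Ideal.span {g}) :=
    Module.Finite.of_restrictScalars_finite A _ _
  refine ⟨Module.finrank (kappa (closedPoint A)) (R ⧸ Ideal.span {g}), ?_, ?_⟩
  · refine bd₁_prime Q (closedPoint A) hg hP (Ideal.Quotient.mk (Ideal.span {g}))
      (fun a => (hι a).symm) Ideal.mk_ker ?_
    intro y
    obtain ⟨r, rfl⟩ := Ideal.Quotient.mk_surjective y
    refine ⟨r, 1, ?_, ?_⟩
    · rw [map_one]; exact one_ne_zero
    · rw [map_one, div_one]
  · rw [← Module.length_eq_finrank]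
    exact (Module.length_eq_of_surjective algebraMap_kappa_closedPoint_surjective).symm

end degree

section dvr

variable [IsLocalRing A] [IsNoetherianRing A] (P₀ : PrimeSpectrum A)
  [IsDiscreteValuationRing (A ⧸ P₀.asIdeal)]

end dvr

end Vale.Agent.P178
end
end
end

section

section

universe u

noncomputable section

namespace Vale.Agent.P178

open IsLocalRing

/-- The norm from the fraction field of a finite free extension. -/
theorem norm_frac (L₀ L K K' : Type u) [CommRing L₀] [IsDomain L₀] [CommRing L] [IsDomain L]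
    [Algebra L₀ L] [Module.Finite L₀ L] [Module.Free L₀ L]
    [Field K] [Algebra L₀ K] [IsFractionRing L₀ K]
    [Field K'] [Algebra L K'] [IsFractionRing L K'] [Algebra L₀ K'] [Algebra K K']
    [IsScalarTower L₀ L K'] [IsScalarTower L₀ K K'] (y : L) :
    Algebra.norm K (algebraMap L K' y) = algebraMap L₀ K (Algebra.norm L₀ y) := by
  have hinj : Function.Injective (algebraMap L₀ L) := FaithfulSMul.algebraMap_injective L₀ L
  have : IsLocalization (Algebra.algebraMapSubmonoid L (nonZeroDivisors L₀)) K' := inferInstance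
  exact Algebra.norm_localization L₀ (nonZeroDivisors L₀) y

theorem length_aux (L₀ : Type*) [CommRing L₀] [IsLocalRing L₀] {L F : Type*} [CommRing L]
    [CommRing F] [Algebra L₀ L] [Algebra L₀ F] [Module.Finite L₀ L] [Module.Free L₀ L]
    (f : L →ₐ[L₀] F) (hf : Function.Surjective f)
    (hk : RingHom.ker f = (maximalIdeal L₀).map (algebraMap L₀ L)) :
    Module.length L₀ F = Module.finrank L₀ L := by
  let e : (L ⧸ RingHom.ker f) ≃ₐ[L₀] F := Ideal.quotientKerAlgEquivOfSurjective hf
  rw [← e.toLinearEquiv.length_eq, hk]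
  rw [← IsLocalRing.finrank_quotient_map (R := L₀) (S := L)]
  rw [Module.length_eq_of_surjective (R := L₀ ⧸ maximalIdeal L₀) Ideal.Quotient.mk_surjective]
  let _ : Field (L₀ ⧸ maximalIdeal L₀) := Ideal.Quotient.field _
  have : Module.Finite (L₀ ⧸ maximalIdeal L₀) (L ⧸ (maximalIdeal L₀).map (algebraMap L₀ L)) :=
    Module.Finite.of_restrictScalars_finite L₀ _ _
  exact Module.length_eq_finrank _ _

section

variable {A : Type u} [CommRing A] [IsLocalRing A] [IsNoetherianRing A]

theorem bd₁_length (Q : PrimeSpectrum A) {R : Type u} [CommRing R] [IsDomain R] [Algebra A R]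
    [Module.Finite A R]
    [Algebra R (kappa Q)] [IsScalarTower A R (kappa Q)] [IsFractionRing R (kappa Q)]
    {g : R} (hg : Prime g)
    (hP : (Ideal.span {g}).comap (algebraMap A R) = maximalIdeal A) :
    ∃ N : ℕ, bd₁ Q (closedPoint A) (algebraMap R (kappa Q) g) = N ∧
      (N : ℕ∞) = Module.length A (R ⧸ Ideal.span {g}) := by
  have : IsNoetherianRing R := IsNoetherianRing.of_finite A R
  exact bd₁_eq_length Q hg hP

theorem bd₁_mul {P : PrimeSpectrum A} (hP : IsCurve P)
    [Module.Finite (A ⧸ P.asIdeal) (Nrm P)] {a b : kappa P} (ha : a ≠ 0) (hb : b ≠ 0) :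
    bd₁ P (closedPoint A) (a * b) = bd₁ P (closedPoint A) a + bd₁ P (closedPoint A) b :=
  hP.bd₁_mul ha hb

theorem bd₁_pow {P : PrimeSpectrum A} (hP : IsCurve P)
    [Module.Finite (A ⧸ P.asIdeal) (Nrm P)] {a : kappa P} (ha : a ≠ 0) (k : ℕ) :
    bd₁ P (closedPoint A) (a ^ k) = k * bd₁ P (closedPoint A) a := by
  induction k with
  | zero => rw [pow_zero, bd₁_one, Nat.cast_zero, zero_mul]
  | succ k ih =>
    rw [pow_succ, bd₁_mul hP (pow_ne_zero _ ha) ha, ih]
    push_cast
    ring

end

section glue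

variable {A : Type u} [CommRing A] [IsRegularLocalRing A] {n : ℕ}

/-- The algebra data over the regular curve. -/
theorem exists_glue_data (I : Ideal A) [I.IsPrime]
    [IsDiscreteValuationRing (A ⧸ I)] {t : A ⧸ I} (ht : maximalIdeal (A ⧸ I) = Ideal.span {t})
    (F : Type u) [Field F] [Algebra A F] [Module.Finite A F]
    (hkerA : RingHom.ker (algebraMap A F) = maximalIdeal A) :
    ∃ (L : Type u) (_ : CommRing L) (_ : Algebra (A ⧸ I) L) (_ : Algebra A L)
      (_ : IsScalarTower A (A ⧸ I) L) (_ : Module.Finite (A ⧸ I) L)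
      (_ : Module.Free (A ⧸ I) L) (_ : IsDomain L) (_ : IsDiscreteValuationRing L)
      (f : L →ₐ[A] F),
      RingHom.ker f = maximalIdeal L ∧
      maximalIdeal L = Ideal.span {algebraMap (A ⧸ I) L t} ∧ Function.Surjective f ∧
      Module.length A F = Module.finrank (A ⧸ I) L := by
  have hI : I ≠ ⊤ := Ideal.IsPrime.ne_top inferInstance
  let _ : Algebra (A ⧸ I) F := (Ideal.Quotient.lift I (algebraMap A F)
    (fun a ha => by
      have h1 : a ∈ RingHom.ker (algebraMap A F) := by
        rw [hkerA]; exact le_maximalIdeal hI ha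
      exact h1)).toAlgebra
  have htower : IsScalarTower A (A ⧸ I) F := IsScalarTower.of_algebraMap_eq fun a => rfl
  have hFfin' : Module.Finite (A ⧸ I) F :=
    Module.Finite.of_restrictScalars_finite A _ _
  have hker : RingHom.ker (algebraMap (A ⧸ I) F) = maximalIdeal (A ⧸ I) := by
    have h1 : (RingHom.ker (algebraMap (A ⧸ I) F)).comap
        (algebraMap A (A ⧸ I)) = maximalIdeal A := by
      rw [← hkerA]
      ext a
      rfl
    have h2 : (RingHom.ker (algebraMap (A ⧸ I) F)).IsPrime := RingHom.ker_isPrime _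
    exact IsLocalRing.eq_maximalIdeal (isMaximal_of_comap_eq _ h1)
  obtain ⟨L, _, _, _, _, _, _, f, hf1, hf2, hf3⟩ := exists_lift (A ⧸ I) ht F hker
  let _ : Algebra A L := ((algebraMap (A ⧸ I) L).comp (algebraMap A (A ⧸ I))).toAlgebra
  have htower' : IsScalarTower A (A ⧸ I) L := IsScalarTower.of_algebraMap_eq fun a => rfl
  refine ⟨L, inferInstance, inferInstance, inferInstance, htower', inferInstance, inferInstance,
    inferInstance, inferInstance, f.restrictScalars A, hf1, hf2, hf3, ?_⟩
  rw [Module.length_eq_of_surjective (R := A ⧸ I) Ideal.Quotient.mk_surjective]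
  refine length_aux (A ⧸ I) f hf3 ?_
  rw [ht, Ideal.map_span, Set.image_singleton, ← hf2]
  exact hf1

/-- The norm of an element generating the maximal ideal. -/
theorem bd₁_norm {P₀ : PrimeSpectrum A} (hcurve : IsCurve P₀)
    [Module.Finite (A ⧸ P₀.asIdeal) (Nrm P₀)]
    [IsDiscreteValuationRing (A ⧸ P₀.asIdeal)] {t : A ⧸ P₀.asIdeal}
    (ht : maximalIdeal (A ⧸ P₀.asIdeal) = Ideal.span {t})
    (L : Type u) [CommRing L] [IsDomain L] [Algebra (A ⧸ P₀.asIdeal) L]
    [Module.Finite (A ⧸ P₀.asIdeal) L] [Module.Free (A ⧸ P₀.asIdeal) L]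
    {K' : Type u} [Field K'] [Algebra L K'] [IsFractionRing L K'] [Algebra (A ⧸ P₀.asIdeal) K']
    [Algebra (kappa P₀) K'] [IsScalarTower (A ⧸ P₀.asIdeal) L K']
    [IsScalarTower (A ⧸ P₀.asIdeal) (kappa P₀) K'] (y : L)
    (hy : Associated y (algebraMap (A ⧸ P₀.asIdeal) L t)) :
    Algebra.norm (kappa P₀) (algebraMap L K' y) ≠ 0 ∧
    bd₁ P₀ (closedPoint A) (Algebra.norm (kappa P₀) (algebraMap L K' y)) =
      Module.finrank (A ⧸ P₀.asIdeal) L := by
  obtain ⟨w, hw⟩ := hy.symm
  have ht0 : t ≠ 0 := by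
    rintro rfl
    apply IsDiscreteValuationRing.not_isField (A ⧸ P₀.asIdeal)
    rw [isField_iff_maximalIdeal_eq, ht, Ideal.span_singleton_eq_bot]
  have htprime : Prime t := by
    rw [← Ideal.span_singleton_prime ht0, ← ht]
    infer_instance
  have h1 : algebraMap (A ⧸ P₀.asIdeal) (kappa P₀) t ≠ 0 := by
    rw [Ne, IsFractionRing.to_map_eq_zero_iff]; exact ht0
  obtain ⟨v, hv⟩ : ∃ v : (A ⧸ P₀.asIdeal)ˣ, (v : A ⧸ P₀.asIdeal) =
      Algebra.norm (A ⧸ P₀.asIdeal) (w : L) := w.isUnit.map (Algebra.norm (A ⧸ P₀.asIdeal))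
  have h2 : algebraMap (A ⧸ P₀.asIdeal) (kappa P₀) v ≠ 0 := by
    rw [Ne, IsFractionRing.to_map_eq_zero_iff]; exact v.ne_zero
  have h3 : Algebra.norm (kappa P₀) (algebraMap L K' y) =
      algebraMap (A ⧸ P₀.asIdeal) (kappa P₀) t ^ Module.finrank (A ⧸ P₀.asIdeal) L *
        algebraMap (A ⧸ P₀.asIdeal) (kappa P₀) v := by
    rw [norm_frac (A ⧸ P₀.asIdeal) L (kappa P₀) K' y, ← hw, map_mul, Algebra.norm_algebraMap_of_basis
      (Module.Free.chooseBasis (A ⧸ P₀.asIdeal) L), ← hv, map_mul, map_pow,
      Module.finrank_eq_card_chooseBasisIndex]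
  rw [h3]
  refine ⟨mul_ne_zero (pow_ne_zero _ h1) h2, ?_⟩
  rw [bd₁_mul hcurve (pow_ne_zero _ h1) h2, bd₁_pow hcurve h1]
  have hcomap : (Ideal.span {t}).comap (algebraMap A (A ⧸ P₀.asIdeal)) = maximalIdeal A := by
    rw [← ht]
    exact IsLocalRing.eq_maximalIdeal (Ideal.isMaximal_comap_of_isIntegral_of_isMaximal _)
  have h4 : bd₁ P₀ (closedPoint A) (algebraMap (A ⧸ P₀.asIdeal) (kappa P₀) t) = 1 := by
    obtain ⟨N, hN1, hN2⟩ := bd₁_length P₀ htprime hcomap
    rw [hN1]
    have h5 : Module.length A ((A ⧸ P₀.asIdeal) ⧸ Ideal.span {t}) = 1 := by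
      rw [Module.length_eq_of_surjective (R := A ⧸ P₀.asIdeal) Ideal.Quotient.mk_surjective,
        Module.length_eq_one_iff, ← ht]
      exact isSimpleModule_iff_isCoatom.2 (maximalIdeal.isMaximal _).out
    rw [h5] at hN2
    exact_mod_cast hN2
  have h6 : bd₁ P₀ (closedPoint A) (algebraMap (A ⧸ P₀.asIdeal) (kappa P₀) v) = 0 := by
    apply bd₁_eq_zero
    intro q hq _ hvq
    exact hq.ne_top (Ideal.eq_top_of_isUnit_mem _ hvq v.isUnit)
  rw [h4, h6, mul_one, add_zero]

attribute [local instance] FractionRing.liftAlgebra in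
/-- The second relation: two curves glued at a closed point. -/
theorem relation_glue (hn : 1 ≤ n) (hdim : ringKrullDim A = n + 2)
    (P P₀ : HtPrime A (n + 1)) (hne : P ≠ P₀)
    [Module.Finite (A ⧸ P.1.asIdeal) (Nrm P.1)]
    [Module.Finite (A ⧸ P₀.1.asIdeal) (Nrm P₀.1)]
    [IsDiscreteValuationRing (A ⧸ P₀.1.asIdeal)] (x : Nrm P.1) (hx : Prime x) :
    ∃ (Q : HtPrime A n) (a b : (kappa Q.1)ˣ) (w : (Nrm P.1)ˣ) (z : (kappa P₀.1)ˣ),
      bd₂ Q.1 P.1 a b * algebraMap (Nrm P.1) (kappa P.1) (w * x) = 1 ∧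
      bd₂ Q.1 P₀.1 a b = z ∧
      (∀ P' : HtPrime A (n + 1), P' ≠ P → P' ≠ P₀ → bd₂ Q.1 P'.1 a b = 1) ∧
      bd₁ P₀.1 (closedPoint A) z =
        bd₁ P.1 (closedPoint A) (algebraMap (Nrm P.1) (kappa P.1) x) := by
  have hcurve := isCurve_of_height hdim P
  have hcurve₀ := isCurve_of_height hdim P₀
  have := hcurve.isPrincipalIdealRing
  have hfin := finite_nrm P.1
  obtain ⟨t, ht⟩ := (IsPrincipalIdealRing.principal (maximalIdeal (A ⧸ P₀.1.asIdeal)))
  have ht' : maximalIdeal (A ⧸ P₀.1.asIdeal) = Ideal.span {t} := ht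
  have hprime : (Ideal.span {x}).IsPrime := (Ideal.span_singleton_prime hx.ne_zero).2 hx
  have hmax : (Ideal.span {x}).IsMaximal := hprime.isMaximal (by
    rw [Ne, Ideal.span_singleton_eq_bot]; exact hx.ne_zero)
  obtain ⟨N, hN1, hN2⟩ := bd₁_length P.1 hx (comap_eq_maximalIdeal (A := A) (Ideal.span {x}))
  -- the residue field
  obtain ⟨F, _, _, hFfin, f₁, h₁, hk₁, hlen, hkerF⟩ : ∃ (F : Type u) (_ : Field F)
      (_ : Algebra A F) (_ : Module.Finite A F) (f₁ : Nrm P.1 →ₐ[A] F),
      Function.Surjective f₁ ∧ RingHom.ker f₁ = Ideal.span {x} ∧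
      Module.length A (Nrm P.1 ⧸ Ideal.span {x}) = Module.length A F ∧
      RingHom.ker (algebraMap A F) = maximalIdeal A := by
    refine ⟨Nrm P.1 ⧸ Ideal.span {x}, Ideal.Quotient.field _, inferInstance, inferInstance,
      Ideal.Quotient.mkₐ A (Ideal.span {x}), Ideal.Quotient.mkₐ_surjective A (Ideal.span {x}),
      Ideal.Quotient.mkₐ_ker A (Ideal.span {x}), rfl, ?_⟩
    rw [← comap_eq_maximalIdeal (A := A) (Ideal.span {x})]
    ext a
    rw [RingHom.mem_ker, Ideal.mem_comap]
    exact Ideal.Quotient.eq_zero_iff_mem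
  obtain ⟨L, _, _, _, _, _, _, _, _, f₂, hk₂, htL, h₂, hlen₂⟩ :=
    exists_glue_data P₀.1.asIdeal ht' F hkerF
  have hLfin : Module.Finite A L := Module.Finite.trans (A ⧸ P₀.1.asIdeal) L
  have hLinj : Function.Injective (algebraMap (A ⧸ P₀.1.asIdeal) L) :=
    FaithfulSMul.algebraMap_injective _ _
  have hkerL : RingHom.ker (algebraMap A L) = P₀.1.asIdeal := by
    ext a
    rw [RingHom.mem_ker, IsScalarTower.algebraMap_apply A (A ⧸ P₀.1.asIdeal) L,
      map_eq_zero_iff _ hLinj]
    exact Ideal.Quotient.eq_zero_iff_mem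
  obtain ⟨E, _, _, _, _, ψ₁, ψ₂, g₁, g₂, hψ₁, hψ₂, hg₁, hg₂, hker₁, hker₂, hass₁, hass₂,
      huniq, hbirE, hht⟩ :=
    exists_surface_two A n hn hdim f₁ f₂ h₁ h₂ hk₁ hk₂ htL hmax hx.ne_zero
      (exists_frac_nrm P.1) (by
        intro hle
        rw [hkerL] at hle
        have hle' : P₀.1.asIdeal ≤ P.1.asIdeal := hle.trans (ker_algebraMap_nrm P.1).le
        exact hne (eq_of_le hdim hle').symm)
  have hnoeth : IsNoetherianRing E := IsNoetherianRing.of_finite A E
  obtain ⟨Q, hQ⟩ : ∃ Q : HtPrime A n, RingHom.ker (algebraMap A E) = Q.1.asIdeal :=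
    ⟨⟨⟨RingHom.ker (algebraMap A E), RingHom.ker_isPrime _⟩, hht⟩, rfl⟩
  have hneE : ∀ s : A, algebraMap A (Nrm P.1) s ≠ 0 → algebraMap A E s ≠ 0 := by
    intro s hs h0
    apply hs
    rw [← ψ₁.commutes, h0, map_zero]
  obtain ⟨_, _, _⟩ := exists_model Q.1 E hQ (fun e => by
    obtain ⟨s, a, hs, hsa⟩ := hbirE e
    exact ⟨s, a, hneE s hs, hsa⟩)
  have hcomap₁ : (Ideal.span {g₁}).comap (algebraMap A E) = P.1.asIdeal := by
    rw [← hker₁]
    refine Eq.trans ?_ (ker_algebraMap_nrm P.1)
    ext x
    rw [Ideal.mem_comap, RingHom.mem_ker, RingHom.mem_ker, AlgHom.commutes]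
  have hcomap₂ : (Ideal.span {g₂}).comap (algebraMap A E) = P₀.1.asIdeal := by
    rw [← hker₂]
    refine Eq.trans ?_ hkerL
    ext x
    rw [Ideal.mem_comap, RingHom.mem_ker, RingHom.mem_ker, AlgHom.commutes]
  have hgq₁ : ∀ P' : HtPrime A (n + 1), P' ≠ P → ∀ q : Ideal E, q.IsPrime →
      q.comap (algebraMap A E) = P'.1.asIdeal → g₁ ∉ q := by
    intro P' hP' q hq hqc hgq
    apply hP'
    refine (eq_of_le hdim ?_).symm
    rw [← hcomap₁, ← hqc]
    exact Ideal.comap_mono ((Ideal.span_singleton_le_iff_mem _).2 hgq)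
  have hgq₂ : ∀ P' : HtPrime A (n + 1), P' ≠ P₀ → ∀ q : Ideal E, q.IsPrime →
      q.comap (algebraMap A E) = P'.1.asIdeal → g₂ ∉ q := by
    intro P' hP' q hq hqc hgq
    apply hP'
    refine (eq_of_le hdim ?_).symm
    rw [← hcomap₂, ← hqc]
    exact Ideal.comap_mono ((Ideal.span_singleton_le_iff_mem _).2 hgq)
  -- the fraction field of `L`
  let K' := FractionRing L
  obtain ⟨hz0, hz1⟩ := bd₁_norm hcurve₀ ht' L (K' := K') (ψ₂ g₁) hass₂
  let a : (kappa Q.1)ˣ := Units.mk0 (algebraMap E (kappa Q.1) g₁) (by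
    rw [Ne, IsFractionRing.to_map_eq_zero_iff]; exact hg₁.ne_zero)
  let b : (kappa Q.1)ˣ := Units.mk0 (algebraMap E (kappa Q.1) g₂) (by
    rw [Ne, IsFractionRing.to_map_eq_zero_iff]; exact hg₂.ne_zero)
  obtain ⟨w, hw⟩ := hass₁.symm
  refine ⟨Q, a, b, w, Units.mk0 _ hz0, ?_, ?_, ?_, ?_⟩
  · have h1 := bd₂_left Q.1 P.1 hg₁ hcomap₁ (toKappa P.1 ψ₁) (toKappa_algebraMap P.1 ψ₁)
      ((ker_toKappa P.1 ψ₁).trans hker₁) (toKappa_frac P.1 ψ₁ hψ₁) (b := g₂)
      (hgq₂ P hne)
    rw [Algebra.norm_self, toKappa_apply, ← hw, mul_comm x, MonoidHom.id_apply] at h1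
    have h2 : algebraMap (Nrm P.1) (kappa P.1) (w * x) ≠ 0 := by
      rw [Ne, IsFractionRing.to_map_eq_zero_iff]
      exact mul_ne_zero w.ne_zero hx.ne_zero
    calc bd₂ Q.1 P.1 a b * algebraMap (Nrm P.1) (kappa P.1) (w * x)
        = (algebraMap (Nrm P.1) (kappa P.1) (w * x))⁻¹ *
          algebraMap (Nrm P.1) (kappa P.1) (w * x) := by rw [← h1]; rfl
      _ = 1 := inv_mul_cancel₀ h2
  · have h1 := bd₂_right Q.1 P₀.1 hg₂ hcomap₂ (F := K')
      ((algebraMap L K').comp (ψ₂ : E →+* L)) (fun c => by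
        change algebraMap L K' (ψ₂ (algebraMap A E c)) = _
        rw [AlgHom.commutes, IsScalarTower.algebraMap_apply A (A ⧸ P₀.1.asIdeal) L,
          IsScalarTower.algebraMap_apply A (A ⧸ P₀.1.asIdeal) (kappa P₀.1),
          ← IsScalarTower.algebraMap_apply (A ⧸ P₀.1.asIdeal) L K',
          ← IsScalarTower.algebraMap_apply (A ⧸ P₀.1.asIdeal) (kappa P₀.1) K'])
      (by
        rw [← hker₂]
        ext c
        rw [RingHom.mem_ker, RingHom.mem_ker]
        exact IsFractionRing.to_map_eq_zero_iff (R := L) (K := K') (x := ψ₂ c))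
      (by
        intro y
        obtain ⟨r, s, hs, rfl⟩ := IsFractionRing.div_surjective (A := L) y
        obtain ⟨r, rfl⟩ := hψ₂ r
        obtain ⟨s, rfl⟩ := hψ₂ s
        refine ⟨r, s, ?_, rfl⟩
        change algebraMap L K' (ψ₂ s) ≠ 0
        rw [Ne, IsFractionRing.to_map_eq_zero_iff]
        exact nonZeroDivisors.ne_zero hs) (b := g₁)
      (hgq₁ P₀ hne.symm)
    exact h1
  · intro P' hP' hP'₀
    exact bd₂_eq_one Q.1 P'.1 (hgq₁ P' hP') (hgq₂ P' hP'₀)
  · refine Eq.trans hz1 ?_
    rw [hN1]
    rw [hlen, hlen₂] at hN2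
    exact_mod_cast hN2.symm

end glue

end Vale.Agent.P178
end
end
end

section

section

universe u

noncomputable section

namespace Vale.Agent.P178

open IsLocalRing

section group

variable {A : Type u} [CommRing A] {n : ℕ}

theorem IsBdry.prod {ι : Type*} (s : Finset ι) {u : ι → C₁ A n} (h : ∀ i ∈ s, IsBdry (u i)) :
    IsBdry (∏ i ∈ s, u i) := by
  classical
  induction s using Finset.induction_on with
  | empty => rw [Finset.prod_empty]; exact IsBdry.one
  | insert a s ha ih =>
    rw [Finset.prod_insert ha]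
    exact (h a (Finset.mem_insert_self a s)).mul
      (ih fun i hi => h i (Finset.mem_insert_of_mem hi))

end group

variable {A : Type u} [CommRing A] [IsRegularLocalRing A] {n : ℕ}

/-- The uniformizer of a regular curve has degree one. -/
theorem bd₁_uniformizer {P₀ : PrimeSpectrum A}
    [IsDiscreteValuationRing (A ⧸ P₀.asIdeal)] {t : A ⧸ P₀.asIdeal}
    (ht : maximalIdeal (A ⧸ P₀.asIdeal) = Ideal.span {t}) :
    bd₁ P₀ (closedPoint A) (algebraMap (A ⧸ P₀.asIdeal) (kappa P₀) t) = 1 := by
  have ht0 : t ≠ 0 := by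
    rintro rfl
    apply IsDiscreteValuationRing.not_isField (A ⧸ P₀.asIdeal)
    rw [isField_iff_maximalIdeal_eq, ht, Ideal.span_singleton_eq_bot]
  have htprime : Prime t := by
    rw [← Ideal.span_singleton_prime ht0, ← ht]
    infer_instance
  have hcomap : (Ideal.span {t}).comap (algebraMap A (A ⧸ P₀.asIdeal)) = maximalIdeal A := by
    rw [← ht]
    exact IsLocalRing.eq_maximalIdeal (Ideal.isMaximal_comap_of_isIntegral_of_isMaximal _)
  obtain ⟨N, hN1, hN2⟩ := bd₁_length P₀ htprime hcomap
  rw [hN1]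
  have h5 : Module.length A ((A ⧸ P₀.asIdeal) ⧸ Ideal.span {t}) = 1 := by
    rw [Module.length_eq_of_surjective (R := A ⧸ P₀.asIdeal) Ideal.Quotient.mk_surjective,
      Module.length_eq_one_iff, ← ht]
    exact isSimpleModule_iff_isCoatom.2 (maximalIdeal.isMaximal _).out
  rw [h5] at hN2
  exact_mod_cast hN2

omit [IsRegularLocalRing A] in
/-- Units of a model have degree zero. -/
theorem bd₁_of_isUnit {P : PrimeSpectrum A} {R : Type u} [CommRing R] [Algebra A R]
    [Algebra.IsIntegral A R] [Algebra R (kappa P)] [IsScalarTower A R (kappa P)]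
    (P' : PrimeSpectrum A) {v : R} (hv : IsUnit v) : bd₁ P P' (algebraMap R (kappa P) v) = 0 := by
  apply bd₁_eq_zero
  intro q hq _ hvq
  exact hq.ne_top (Ideal.eq_top_of_isUnit_mem _ hvq hv)

/-- Elements of degree zero on a regular curve are units. -/
theorem exists_unit_of_bd₁_eq_zero {P₀ : PrimeSpectrum A} (hcurve : IsCurve P₀)
    [Module.Finite (A ⧸ P₀.asIdeal) (Nrm P₀)]
    [IsDiscreteValuationRing (A ⧸ P₀.asIdeal)] {y : kappa P₀} (hy0 : y ≠ 0)
    (hy : bd₁ P₀ (closedPoint A) y = 0) :
    ∃ w : (Nrm P₀)ˣ, algebraMap (Nrm P₀) (kappa P₀) w = y := by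
  obtain ⟨t, ht⟩ := (IsPrincipalIdealRing.principal (maximalIdeal (A ⧸ P₀.asIdeal)))
  have ht' : maximalIdeal (A ⧸ P₀.asIdeal) = Ideal.span {t} := ht
  have htirr : Irreducible t := (IsDiscreteValuationRing.irreducible_iff_uniformizer t).2 ht'
  have ht1 : algebraMap (A ⧸ P₀.asIdeal) (kappa P₀) t ≠ 0 := by
    rw [Ne, IsFractionRing.to_map_eq_zero_iff]; exact htirr.ne_zero
  obtain ⟨r, s, hs, hrs⟩ := IsFractionRing.div_surjective (A := A ⧸ P₀.asIdeal) y
  have hs0 : s ≠ 0 := nonZeroDivisors.ne_zero hs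
  have hr0 : r ≠ 0 := by
    rintro rfl
    apply hy0
    rw [← hrs, map_zero, zero_div]
  obtain ⟨i, v, rfl⟩ := IsDiscreteValuationRing.eq_unit_mul_pow_irreducible hr0 htirr
  obtain ⟨j, v', rfl⟩ := IsDiscreteValuationRing.eq_unit_mul_pow_irreducible hs0 htirr
  have hv : algebraMap (A ⧸ P₀.asIdeal) (kappa P₀) v ≠ 0 := by
    rw [Ne, IsFractionRing.to_map_eq_zero_iff]; exact v.ne_zero
  have hv' : algebraMap (A ⧸ P₀.asIdeal) (kappa P₀) v' ≠ 0 := by
    rw [Ne, IsFractionRing.to_map_eq_zero_iff]; exact v'.ne_zero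
  have h1 : bd₁ P₀ (closedPoint A) y = (i : ℤ) - j := by
    rw [← hrs, map_mul, map_mul, map_pow, map_pow, div_eq_mul_inv,
      bd₁_mul hcurve (mul_ne_zero hv (pow_ne_zero _ ht1))
        (inv_ne_zero (mul_ne_zero hv' (pow_ne_zero _ ht1))), bd₁_inv,
      bd₁_mul hcurve hv (pow_ne_zero _ ht1), bd₁_mul hcurve hv' (pow_ne_zero _ ht1),
      bd₁_pow hcurve ht1, bd₁_pow hcurve ht1, bd₁_of_isUnit _ v.isUnit,
      bd₁_of_isUnit _ v'.isUnit, bd₁_uniformizer ht']
    ring
  have h2 : i = j := by
    rw [hy] at h1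
    omega
  subst h2
  refine ⟨Units.map (algebraMap (A ⧸ P₀.asIdeal) (Nrm P₀) : (A ⧸ P₀.asIdeal) →* Nrm P₀)
    (v * v'⁻¹), ?_⟩
  rw [← hrs]
  have h3 : ∀ z : A ⧸ P₀.asIdeal, algebraMap (Nrm P₀) (kappa P₀)
      (algebraMap (A ⧸ P₀.asIdeal) (Nrm P₀) z) = algebraMap (A ⧸ P₀.asIdeal) (kappa P₀) z :=
    fun z => rfl
  rw [Units.coe_map]
  change algebraMap (Nrm P₀) (kappa P₀) (algebraMap (A ⧸ P₀.asIdeal) (Nrm P₀)
    ((v * v'⁻¹ : (A ⧸ P₀.asIdeal)ˣ) : A ⧸ P₀.asIdeal)) = _
  rw [h3, Units.val_mul, map_mul, map_mul, map_mul, map_pow,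
    mul_div_mul_right _ _ (pow_ne_zero _ ht1), div_eq_mul_inv]
  congr 1
  refine eq_inv_of_mul_eq_one_left ?_
  rw [← map_mul, Units.inv_mul, map_one]

section transfer

open Classical in
/-- The element `x` at `P` can be moved to `P₀`. -/
def Transfer (P P₀ : HtPrime A (n + 1)) (x : (kappa P.1)ˣ) : Prop :=
  ∃ y : (kappa P₀.1)ˣ, IsBdry (Pi.mulSingle P x * (Pi.mulSingle P₀ y)⁻¹ : C₁ A n) ∧
    bd₁ P₀.1 (closedPoint A) y = bd₁ P.1 (closedPoint A) x

variable {P P₀ : HtPrime A (n + 1)}

theorem Transfer.mul (hP : IsCurve P.1) (hP₀ : IsCurve P₀.1)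
    [Module.Finite (A ⧸ P.1.asIdeal) (Nrm P.1)]
    [Module.Finite (A ⧸ P₀.1.asIdeal) (Nrm P₀.1)]
    {x x' : (kappa P.1)ˣ} (hx : Transfer P P₀ x) (hx' : Transfer P P₀ x') :
    Transfer P P₀ (x * x') := by
  classical
  obtain ⟨y, h1, h2⟩ := hx
  obtain ⟨y', h1', h2'⟩ := hx'
  refine ⟨y * y', ?_, ?_⟩
  · rw [Pi.mulSingle_mul, Pi.mulSingle_mul]
    have h3 := h1.mul h1'
    have h4 : (Pi.mulSingle P x * (Pi.mulSingle P₀ y)⁻¹ : C₁ A n) *
        (Pi.mulSingle P x' * (Pi.mulSingle P₀ y')⁻¹) =
        Pi.mulSingle P x * Pi.mulSingle P x' * (Pi.mulSingle P₀ y * Pi.mulSingle P₀ y')⁻¹ := by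
      rw [mul_inv, mul_mul_mul_comm]
    rw [← h4]
    exact h3
  · rw [Units.val_mul, Units.val_mul, bd₁_mul hP₀ y.ne_zero y'.ne_zero,
      bd₁_mul hP x.ne_zero x'.ne_zero, h2, h2']

theorem Transfer.inv {x : (kappa P.1)ˣ} (hx : Transfer P P₀ x) :
    Transfer P P₀ x⁻¹ := by
  classical
  obtain ⟨y, h1, h2⟩ := hx
  refine ⟨y⁻¹, ?_, ?_⟩
  · rw [Pi.mulSingle_inv, Pi.mulSingle_inv]
    have h4 : ((Pi.mulSingle P x)⁻¹ * ((Pi.mulSingle P₀ y)⁻¹)⁻¹ : C₁ A n) =
        (Pi.mulSingle P x * (Pi.mulSingle P₀ y)⁻¹)⁻¹ := by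
      rw [mul_inv]
    rw [h4]
    exact h1.inv
  · rw [Units.val_inv_eq_inv_val, Units.val_inv_eq_inv_val, bd₁_inv, bd₁_inv, h2]

open Classical in
theorem isBdry_of_unit (hn : 1 ≤ n) (hdim : ringKrullDim A = n + 2)
    [Module.Finite (A ⧸ P.1.asIdeal) (Nrm P.1)]
    {x : (kappa P.1)ˣ} (w : (Nrm P.1)ˣ) (hw : algebraMap (Nrm P.1) (kappa P.1) w = x) :
    IsBdry (Pi.mulSingle P x : C₁ A n) := by
  obtain ⟨Q, a, b, h1, -, h2, -⟩ := relation_unit hn hdim P w
  refine IsBdry.of_symbol Q a b fun P' => ?_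
  by_cases hP' : P' = P
  · subst hP'
    rw [Pi.mulSingle_eq_same, h1, hw]
  · rw [Pi.mulSingle_eq_of_ne hP', h2 P' hP', Units.val_one]

theorem Transfer.of_unit (hn : 1 ≤ n) (hdim : ringKrullDim A = n + 2)
    [Module.Finite (A ⧸ P.1.asIdeal) (Nrm P.1)]
    {x : (kappa P.1)ˣ} (w : (Nrm P.1)ˣ) (hw : algebraMap (Nrm P.1) (kappa P.1) w = x) :
    Transfer P P₀ x := by
  classical
  refine ⟨1, ?_, ?_⟩
  · rw [Pi.mulSingle_one, inv_one, mul_one]
    exact isBdry_of_unit hn hdim w hw
  · rw [← hw, bd₁_of_isUnit _ w.isUnit, Units.val_one, bd₁_one]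

theorem Transfer.of_prime (hn : 1 ≤ n) (hdim : ringKrullDim A = n + 2) (hne : P ≠ P₀)
    [Module.Finite (A ⧸ P.1.asIdeal) (Nrm P.1)]
    [Module.Finite (A ⧸ P₀.1.asIdeal) (Nrm P₀.1)]
    [IsDiscreteValuationRing (A ⧸ P₀.1.asIdeal)]
    {x : (kappa P.1)ˣ} (p : Nrm P.1) (hp : Prime p)
    (hx : algebraMap (Nrm P.1) (kappa P.1) p = x) :
    Transfer P P₀ x := by
  classical
  obtain ⟨Q, a, b, w, z, h1, h2, h3, h4⟩ := relation_glue hn hdim P P₀ hne p hp
  have hw0 : algebraMap (Nrm P.1) (kappa P.1) w ≠ 0 := by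
    rw [Ne, IsFractionRing.to_map_eq_zero_iff]; exact w.ne_zero
  have h5 : Transfer P P₀ (Units.mk0 _ hw0 * x) := by
    refine ⟨z, ?_, ?_⟩
    · have h6 : (Pi.mulSingle P (Units.mk0 _ hw0 * x) * (Pi.mulSingle P₀ z)⁻¹ : C₁ A n) =
        (Pi.mulSingle P (Units.mk0 _ hw0 * x)⁻¹ * Pi.mulSingle P₀ z)⁻¹ := by
        rw [mul_inv, Pi.mulSingle_inv, inv_inv]
      rw [h6]
      refine (IsBdry.of_symbol Q a b fun P' => ?_).inv
      by_cases hP' : P' = P
      · subst hP'
        rw [Pi.mul_apply, Pi.mulSingle_eq_same, Pi.mulSingle_eq_of_ne hne, mul_one,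
          Units.val_inv_eq_inv_val, Units.val_mul, Units.val_mk0, ← hx, ← map_mul]
        exact (eq_inv_of_mul_eq_one_left h1).symm
      · by_cases hP'₀ : P' = P₀
        · subst hP'₀
          rw [Pi.mul_apply, Pi.mulSingle_eq_same, Pi.mulSingle_eq_of_ne hP', one_mul, h2]
        · rw [Pi.mul_apply, Pi.mulSingle_eq_of_ne hP', Pi.mulSingle_eq_of_ne hP'₀, one_mul,
            Units.val_one, h3 P' hP' hP'₀]
    · rw [Units.val_mul, Units.val_mk0, bd₁_mul (isCurve_of_height hdim P) hw0 x.ne_zero,
        bd₁_of_isUnit _ w.isUnit, zero_add, h4, hx]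
  have h6 : Transfer P P₀ (Units.mk0 _ hw0)⁻¹ :=
    (Transfer.of_unit hn hdim w (by rw [Units.val_mk0])).inv
  have h7 := h6.mul (isCurve_of_height hdim P) (isCurve_of_height hdim P₀) h5
  rwa [inv_mul_cancel_left] at h7

/-- Every element can be moved to the regular curve `P₀`. -/
theorem transfer (hn : 1 ≤ n) (hdim : ringKrullDim A = n + 2)
    [Module.Finite (A ⧸ P.1.asIdeal) (Nrm P.1)]
    [Module.Finite (A ⧸ P₀.1.asIdeal) (Nrm P₀.1)]
    [IsDiscreteValuationRing (A ⧸ P₀.1.asIdeal)] (x : (kappa P.1)ˣ) :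
    Transfer P P₀ x := by
  classical
  by_cases hne : P = P₀
  · subst hne
    refine ⟨x, ?_, rfl⟩
    rw [mul_inv_cancel]
    exact IsBdry.one
  have hP := isCurve_of_height hdim P
  have hP₀ := isCurve_of_height hdim P₀
  have := hP.isPrincipalIdealRing
  have key : ∀ r : Nrm P.1, ∀ hr : r ≠ 0, ∀ y : (kappa P.1)ˣ,
      algebraMap (Nrm P.1) (kappa P.1) r = y → Transfer P P₀ y := by
    intro r
    induction r using UniqueFactorizationMonoid.induction_on_prime with
    | h₁ => intro h; exact absurd rfl h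
    | h₂ r hr =>
      intro _ y hy
      exact Transfer.of_unit hn hdim hr.unit hy
    | h₃ r p hr hp ih =>
      intro _ y hy
      have hp0 : algebraMap (Nrm P.1) (kappa P.1) p ≠ 0 := by
        rw [Ne, IsFractionRing.to_map_eq_zero_iff]; exact hp.ne_zero
      have hr0 : algebraMap (Nrm P.1) (kappa P.1) r ≠ 0 := by
        rw [Ne, IsFractionRing.to_map_eq_zero_iff]; exact hr
      have h1 := (Transfer.of_prime hn hdim hne (x := Units.mk0 _ hp0) p hp rfl).mul hP hP₀
        (ih hr (Units.mk0 _ hr0) rfl)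
      have h2 : y = Units.mk0 _ hp0 * Units.mk0 _ hr0 := by
        ext
        rw [← hy, Units.val_mul, Units.val_mk0, Units.val_mk0, map_mul]
      rw [h2]
      exact h1
  obtain ⟨r, s, hs, hrs⟩ := IsFractionRing.div_surjective (A := Nrm P.1) (x : kappa P.1)
  have hs0 : s ≠ 0 := nonZeroDivisors.ne_zero hs
  have hr0 : r ≠ 0 := by
    rintro rfl
    apply x.ne_zero
    rw [← hrs, map_zero, zero_div]
  have hs1 : algebraMap (Nrm P.1) (kappa P.1) s ≠ 0 := by
    rw [Ne, IsFractionRing.to_map_eq_zero_iff]; exact hs0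
  have hr1 : algebraMap (Nrm P.1) (kappa P.1) r ≠ 0 := by
    rw [Ne, IsFractionRing.to_map_eq_zero_iff]; exact hr0
  have h1 := (key r hr0 (Units.mk0 _ hr1) rfl).mul hP hP₀ (key s hs0 (Units.mk0 _ hs1) rfl).inv
  have h2 : x = Units.mk0 _ hr1 * (Units.mk0 _ hs1)⁻¹ := by
    ext
    rw [Units.val_mul, Units.val_inv_eq_inv_val, Units.val_mk0, Units.val_mk0, ← div_eq_mul_inv,
      hrs]
  rw [h2]
  exact h1

end transfer

section main

/-- Exactness at the `K₁` term. -/
theorem isBdry_of_degree_zero (hn : 1 ≤ n) (hdim : ringKrullDim A = n + 2)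
    (hN : ∀ P : HtPrime A (n + 1), Module.Finite (A ⧸ P.1.asIdeal) (Nrm P.1))
    (u : C₁ A n) (hfin : {P | u P ≠ 1}.Finite)
    (hu : ∑ᶠ P, bd₁ P.1 (closedPoint A) (u P) = 0) : IsBdry u := by
  classical
  obtain ⟨P₁, hP₁, hdvr⟩ := exists_regular_curve A (n + 1) (by rw [hdim]; push_cast; ring)
  let P₀ : HtPrime A (n + 1) := ⟨P₁, hP₁⟩
  have hdvr' : IsDiscreteValuationRing (A ⧸ P₀.1.asIdeal) := hdvr
  have hN₀ := hN P₀
  have hP₀ := isCurve_of_height hdim P₀
  choose y hy1 hy2 using fun P : HtPrime A (n + 1) =>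
    (have := hN P; transfer (P₀ := P₀) hn hdim (u P))
  let S := hfin.toFinset
  have hS : ∀ P, P ∉ S → u P = 1 := by
    intro P hP
    by_contra hcon
    exact hP (hfin.mem_toFinset.2 hcon)
  have hprod : u = ∏ P ∈ S, Pi.mulSingle P (u P) := by
    funext P
    rw [Finset.prod_apply]
    by_cases hP : P ∈ S
    · rw [Finset.prod_eq_single P, Pi.mulSingle_eq_same]
      · intro P' _ hne
        exact Pi.mulSingle_eq_of_ne hne.symm _
      · intro h; exact absurd hP h
    · rw [hS P hP, Finset.prod_eq_one]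
      intro P' hP'
      refine Pi.mulSingle_eq_of_ne ?_ _
      rintro rfl
      exact hP hP'
  have hbd : ∀ T : Finset (HtPrime A (n + 1)),
      bd₁ P₀.1 (closedPoint A) ((∏ P ∈ T, y P : (kappa P₀.1)ˣ) : kappa P₀.1) =
      ∑ P ∈ T, bd₁ P.1 (closedPoint A) (u P) := by
    intro T
    induction T using Finset.induction_on with
    | empty => rw [Finset.prod_empty, Finset.sum_empty, Units.val_one, bd₁_one]
    | insert P T hPT ih =>
      rw [Finset.prod_insert hPT, Finset.sum_insert hPT, Units.val_mul,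
        bd₁_mul hP₀ (Units.ne_zero _) (Units.ne_zero _), ih, hy2]
  have hsum : ∑ P ∈ S, bd₁ P.1 (closedPoint A) (u P) = 0 := by
    rw [← hu]
    refine (finsum_eq_sum_of_support_subset _ ?_).symm
    intro P hP
    rw [Function.mem_support] at hP
    by_contra hcon
    apply hP
    rw [hS P hcon, Units.val_one, bd₁_one]
  obtain ⟨w, hw⟩ := exists_unit_of_bd₁_eq_zero hP₀ (Units.ne_zero (∏ P ∈ S, y P))
    ((hbd S).trans hsum)
  have h1 : IsBdry (Pi.mulSingle P₀ (∏ P ∈ S, y P) : C₁ A n) := isBdry_of_unit hn hdim w hw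
  have h2 : IsBdry (∏ P ∈ S, (Pi.mulSingle P (u P) * (Pi.mulSingle P₀ (y P))⁻¹) : C₁ A n) :=
    IsBdry.prod S fun P _ => hy1 P
  have h3 := h2.mul h1
  have h4 : (∏ P ∈ S, (Pi.mulSingle P (u P) * (Pi.mulSingle P₀ (y P))⁻¹) : C₁ A n) *
      Pi.mulSingle P₀ (∏ P ∈ S, y P) = u := by
    rw [Finset.prod_mul_distrib, ← hprod]
    have h5 : (Pi.mulSingle P₀ (∏ P ∈ S, y P) : C₁ A n) = ∏ P ∈ S, Pi.mulSingle P₀ (y P) :=
      map_prod (MonoidHom.mulSingle (fun P : HtPrime A (n + 1) => (kappa P.1)ˣ) P₀) y S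
    rw [h5, Finset.prod_inv_distrib, inv_mul_cancel_right]
  rwa [h4] at h3

/-- Surjectivity onto the `K₀` term of the closed point. -/
theorem exists_degree_one (hdim : ringKrullDim A = n + 2) :
    ∃ (P : HtPrime A (n + 1)) (t : (kappa P.1)ˣ), bd₁ P.1 (closedPoint A) t = 1 := by
  obtain ⟨P₁, hP₁, hdvr⟩ := exists_regular_curve A (n + 1) (by rw [hdim]; push_cast; ring)
  obtain ⟨t, ht⟩ := (IsPrincipalIdealRing.principal (maximalIdeal (A ⧸ P₁.asIdeal)))
  have ht' : maximalIdeal (A ⧸ P₁.asIdeal) = Ideal.span {t} := ht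
  have htirr : Irreducible t := (IsDiscreteValuationRing.irreducible_iff_uniformizer t).2 ht'
  have ht1 : algebraMap (A ⧸ P₁.asIdeal) (kappa P₁) t ≠ 0 := by
    rw [Ne, IsFractionRing.to_map_eq_zero_iff]; exact htirr.ne_zero
  exact ⟨⟨P₁, hP₁⟩, Units.mk0 _ ht1, bd₁_uniformizer ht'⟩

/-- Exactness at the last term of the complex in the degree below. -/
theorem exists_divisor (hn : 1 ≤ n) (hdim : ringKrullDim A = n + 2)
    (hN : ∀ P : HtPrime A (n + 1), Module.Finite (A ⧸ P.1.asIdeal) (Nrm P.1))
    (c : HtPrime A (n + 1) → ℤ) (hfin : {P | c P ≠ 0}.Finite) :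
    ∃ (r : ℕ) (Q : Fin r → HtPrime A n) (a : (i : Fin r) → (kappa (Q i).1)ˣ),
      ∀ P, c P = ∑ i, bd₁ (Q i).1 P.1 (a i) := by
  classical
  suffices h : ∃ (ι : Type) (_ : Fintype ι) (Q : ι → HtPrime A n)
      (a : (i : ι) → (kappa (Q i).1)ˣ), ∀ P, c P = ∑ i, bd₁ (Q i).1 P.1 (a i) by
    obtain ⟨ι, _, Q, a, h⟩ := h
    let e := (Fintype.equivFin ι).symm
    refine ⟨Fintype.card ι, fun i => Q (e i), fun i => a (e i), fun P => ?_⟩
    rw [h]
    exact (e.sum_comp (fun i => bd₁ (Q i).1 P.1 (a i))).symm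
  -- the functions which are boundaries form a group
  let G : AddSubgroup (HtPrime A (n + 1) → ℤ) :=
    { carrier := {c | ∃ (ι : Type) (_ : Fintype ι) (Q : ι → HtPrime A n)
        (a : (i : ι) → (kappa (Q i).1)ˣ), ∀ P, c P = ∑ i, bd₁ (Q i).1 P.1 (a i)}
      zero_mem' := ⟨Empty, inferInstance, fun i => i.elim, fun i => i.elim, fun P => by simp⟩
      add_mem' := by
        rintro c c' ⟨ι, _, Q, a, h⟩ ⟨ι', _, Q', a', h'⟩
        refine ⟨ι ⊕ ι', inferInstance, Sum.elim Q Q', fun i => ?_, fun P => ?_⟩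
        · exact match i with
          | Sum.inl i => a i
          | Sum.inr i => a' i
        · rw [Fintype.sum_sum_type, Pi.add_apply, h, h']
          rfl
      neg_mem' := by
        rintro c ⟨ι, _, Q, a, h⟩
        refine ⟨ι, inferInstance, Q, fun i => (a i)⁻¹, fun P => ?_⟩
        rw [Pi.neg_apply, h, ← Finset.sum_neg_distrib]
        refine Finset.sum_congr rfl fun i _ => ?_
        rw [Units.val_inv_eq_inv_val, bd₁_inv] }
  change c ∈ G
  have hsingle : ∀ P : HtPrime A (n + 1), (Pi.single P 1 : HtPrime A (n + 1) → ℤ) ∈ G := by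
    intro P
    have := hN P
    obtain ⟨Q, a, b, -, h1, -, h2⟩ := relation_unit hn hdim P 1
    refine ⟨Unit, inferInstance, fun _ => Q, fun _ => b, fun P' => ?_⟩
    rw [Fintype.sum_unique]
    by_cases hP' : P' = P
    · subst hP'
      rw [Pi.single_eq_same]
      exact h1.symm
    · rw [Pi.single_eq_of_ne hP']
      exact (h2 P' hP').symm
  have hc : c = ∑ P ∈ hfin.toFinset, c P • (Pi.single P 1 : HtPrime A (n + 1) → ℤ) := by
    funext P
    rw [Finset.sum_apply]
    by_cases hP : c P = 0
    · rw [hP, Finset.sum_eq_zero]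
      intro P' hP'
      rw [Pi.smul_apply, Pi.single_eq_of_ne, smul_zero]
      rintro rfl
      exact (hfin.mem_toFinset.1 hP') hP
    · rw [Finset.sum_eq_single P, Pi.smul_apply, Pi.single_eq_same, smul_eq_mul, mul_one]
      · intro P' _ hne
        rw [Pi.smul_apply, Pi.single_eq_of_ne hne.symm, smul_zero]
      · intro h
        exact absurd (hfin.mem_toFinset.2 hP) h
  rw [hc]
  exact G.sum_mem fun P _ => G.zsmul_mem (hsingle P) _

end main

end Vale.Agent.P178
end
end
end

section

section

namespace Vale.Agent.P178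

open Module

section general

variable {D N M : Type*} [CommRing D] [AddCommGroup N] [Module D N] [AddCommGroup M] [Module D M]

theorem mapQ_injective_of {p : Submodule D N} {q : Submodule D M} (f : N →ₗ[D] M)
    (h : p ≤ q.comap f) (h' : q.comap f ≤ p) : Function.Injective (p.mapQ q f h) := by
  rw [← LinearMap.ker_eq_bot, Submodule.ker_mapQ, eq_bot_iff, Submodule.map_le_iff_le_comap]
  intro x hx
  have hx' : x ∈ p := h' hx
  simpa using hx'

theorem exact_mapQ_factor {p : Submodule D N} {q q' : Submodule D M} (f : N →ₗ[D] M)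
    (h : p ≤ q.comap f) (hqq : q ≤ q') (hrange : q' = LinearMap.range f ⊔ q) :
    Function.Exact (p.mapQ q f h) (Submodule.factor hqq) := by
  intro y
  obtain ⟨y, rfl⟩ := q.mkQ_surjective y
  constructor
  · intro hy
    have h1 : y ∈ q' := by
      have : q'.mkQ y = 0 := hy
      simpa using this
    rw [hrange] at h1
    obtain ⟨_, ⟨x, rfl⟩, z, hz, hxz⟩ := Submodule.mem_sup.mp h1
    refine ⟨p.mkQ x, ?_⟩
    change q.mkQ (f x) = q.mkQ y
    rw [← hxz, map_add]
    have : q.mkQ z = 0 := by simpa using hz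
    rw [this, add_zero]
  · rintro ⟨x, hx⟩
    obtain ⟨x, rfl⟩ := p.mkQ_surjective x
    have h1 : q.mkQ (f x) = q.mkQ y := hx
    rw [← h1]
    change q'.mkQ (f x) = 0
    have : f x ∈ q' := by rw [hrange]; exact Submodule.mem_sup_left ⟨x, rfl⟩
    simpa using this

/-- Invariance of the length of `N / a N` under passage to a submodule of finite colength. -/
theorem length_quotient_smul_eq (a : D) (hinj : ∀ x : N, a • x = 0 → x = 0)
    (N' : Submodule D N) (hfin : Module.length D (N ⧸ N') ≠ ⊤) :
    Module.length D (N ⧸ LinearMap.range (LinearMap.lsmul D N a)) =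
      Module.length D (N' ⧸ LinearMap.range (LinearMap.lsmul D N' a)) := by
  let f : N →ₗ[D] N := LinearMap.lsmul D N a
  let f' : N' →ₗ[D] N' := LinearMap.lsmul D N' a
  let R : Submodule D N := N'.map f
  have hRN' : R ≤ N' := by
    rintro _ ⟨x, hx, rfl⟩
    exact N'.smul_mem a hx
  -- first sequence
  have h1 : Module.length D (N ⧸ R) =
      Module.length D (N' ⧸ LinearMap.range f') + Module.length D (N ⧸ N') := by
    have hle : LinearMap.range f' ≤ R.comap N'.subtype := by
      rintro _ ⟨x, rfl⟩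
      exact ⟨x, x.2, rfl⟩
    refine Module.length_eq_add_of_exact ((LinearMap.range f').mapQ R N'.subtype hle)
      (Submodule.factor hRN') (mapQ_injective_of _ _ ?_) (Submodule.factor_surjective hRN')
      (exact_mapQ_factor _ _ hRN' ?_)
    · rintro x ⟨y, hy, hyx⟩
      exact ⟨⟨y, hy⟩, Subtype.ext hyx⟩
    · rw [Submodule.range_subtype]
      exact (sup_eq_left.mpr hRN').symm
  -- second sequence
  have hRf : R ≤ LinearMap.range f := by
    rintro _ ⟨x, _, rfl⟩
    exact ⟨x, rfl⟩
  have h2 : Module.length D (N ⧸ R) =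
      Module.length D (N ⧸ N') + Module.length D (N ⧸ LinearMap.range f) := by
    have hle : N' ≤ R.comap f := fun x hx => ⟨x, hx, rfl⟩
    refine Module.length_eq_add_of_exact (N'.mapQ R f hle)
      (Submodule.factor hRf) (mapQ_injective_of _ _ ?_) (Submodule.factor_surjective hRf)
      (exact_mapQ_factor _ _ hRf ?_)
    · rintro x ⟨y, hy, hyx⟩
      have h3 : a • (y - x) = 0 := by
        rw [smul_sub, sub_eq_zero]; exact hyx
      have h4 := hinj _ h3
      rw [sub_eq_zero] at h4
      exact h4 ▸ hy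
    · exact (sup_eq_left.mpr hRf).symm
  rw [h1, add_comm (Module.length D (N ⧸ N'))] at h2
  exact (ENat.add_left_injective_of_ne_top hfin h2).symm

/-- A module all of whose finitely generated submodules have bounded length is finite. -/
theorem finite_of_bounded_length (L : ℕ)
    (h : ∀ P : Submodule D N, P.FG → Module.length D P ≤ L) : Module.Finite D N := by
  by_contra hnf
  have hnfg : ¬ (⊤ : Submodule D N).FG := fun hfg => hnf ⟨hfg⟩
  have key : ∀ n : ℕ, ∃ P : Submodule D N, P.FG ∧ (n : ℕ∞) ≤ Module.length D P := by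
    intro n
    induction n with
    | zero => exact ⟨⊥, Submodule.fg_bot, by simp⟩
    | succ n ih =>
      obtain ⟨P, hP, hn⟩ := ih
      have hne : P ≠ ⊤ := fun heq => hnfg (heq ▸ hP)
      obtain ⟨x, -, hx⟩ := SetLike.exists_of_lt (lt_top_iff_ne_top.mpr hne)
      let P' : Submodule D N := P ⊔ Submodule.span D {x}
      have hP' : P'.FG := hP.sup (Submodule.fg_span_singleton x)
      refine ⟨P', hP', ?_⟩
      have hlt : P < P' := by
        refine lt_of_le_of_ne le_sup_left fun heq => hx ?_
        rw [heq]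
        exact Submodule.mem_sup_right (Submodule.mem_span_singleton_self x)
      rw [Module.length_submodule] at hn ⊢
      have h3 : Order.height P < ⊤ := by
        have := h P hP
        rw [Module.length_submodule] at this
        exact lt_of_le_of_lt this (ENat.natCast_lt_top L)
      have h4 := Order.height_strictMono hlt h3
      push_cast
      exact Order.add_one_le_of_lt (lt_of_le_of_lt hn h4)
  obtain ⟨P, hP, hn⟩ := key (L + 1)
  have h5 := hn.trans (h P hP)
  have h6 : L + 1 ≤ L := by exact_mod_cast h5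
  omega

end general

section domain

variable {D : Type*} [CommRing D] [IsDomain D] [IsNoetherianRing D] [Ring.KrullDimLE 1 D]
  {K : Type*} [Field K] [Algebra D K] [IsFractionRing D K]

theorem length_quotient_ideal_ne_top (I : Ideal D) (hI : I ≠ ⊥) :
    Module.length D (D ⧸ I) ≠ ⊤ := by
  obtain ⟨x, hxI, hx⟩ := Submodule.exists_mem_ne_zero_of_ne_bot hI
  have h1 : Module.length D (D ⧸ Ideal.span {x}) ≠ ⊤ := by
    rw [Module.length_ne_top_iff]
    exact isFiniteLength_quotient_span_singleton D (mem_nonZeroDivisors_of_ne_zero hx)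
  have hle : Ideal.span {x} ≤ I := by
    rw [Ideal.span_le, Set.singleton_subset_iff]; exact hxI
  have h2 : Module.length D (D ⧸ I) ≤ Module.length D (D ⧸ Ideal.span {x}) :=
    Module.length_le_of_surjective (Submodule.factor hle) (Submodule.factor_surjective hle)
  exact ne_top_of_le_ne_top h1 h2

theorem length_quotient_smul_ideal (a : D) (ha : a ≠ 0) (I : Ideal D) (hI : I ≠ ⊥) :
    Module.length D (I ⧸ LinearMap.range (LinearMap.lsmul D I a)) =
      Module.length D (D ⧸ Ideal.span {a}) := by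
  have h := length_quotient_smul_eq (N := D) a
    (fun x hx => (mul_eq_zero.mp hx).resolve_left ha) I (length_quotient_ideal_ne_top I hI)
  rw [← h]
  have h2 : LinearMap.range (LinearMap.lsmul D D a) = Ideal.span {a} := by
    ext x
    rw [Ideal.mem_span_singleton']
    constructor
    · rintro ⟨y, hy⟩
      exact ⟨y, by rw [← hy]; exact mul_comm _ _⟩
    · rintro ⟨y, hy⟩
      exact ⟨y, by rw [← hy]; exact mul_comm _ _⟩
  rw [h2]

/-- Key bound of the Krull-Akizuki theorem for finitely generated submodules. -/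
theorem length_quotient_smul_le (a : D) (ha : a ≠ 0) (M : Submodule D K) (hM : M.FG) :
    Module.length D (M ⧸ LinearMap.range (LinearMap.lsmul D M a)) ≤
      Module.length D (D ⧸ Ideal.span {a}) := by
  rcases eq_or_ne M ⊥ with rfl | hM0
  · rw [Module.length_eq_zero]
    exact bot_le
  -- clear denominators
  obtain ⟨b, hb, hbM⟩ : ∃ b : D, b ≠ 0 ∧ ∀ x ∈ M, ∃ y : D, algebraMap D K y = b • x := by
    obtain ⟨b, hb, hbM⟩ := FractionalIdeal.isFractional_of_fg (S := nonZeroDivisors D) hM
    exact ⟨b, nonZeroDivisors.ne_zero hb, fun x hx => hbM x hx⟩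
  let I : Ideal D := (M.map (LinearMap.lsmul D K b)).comap (Algebra.linearMap D K)
  have hbK : algebraMap D K b ≠ 0 := by
    rw [Ne, FaithfulSMul.algebraMap_eq_zero_iff]; exact hb
  have hinj : Function.Injective (algebraMap D K) := IsFractionRing.injective D K
  choose y hy using fun x : M => hbM x x.2
  have hyI : ∀ x, y x ∈ I := fun x => ⟨x, x.2, (hy x).symm⟩
  let e : M →ₗ[D] I :=
    { toFun := fun x => ⟨y x, hyI x⟩
      map_add' := by
        intro x x'
        apply Subtype.ext
        apply hinj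
        change algebraMap D K (y (x + x')) = algebraMap D K (y x + y x')
        rw [map_add, hy, hy, hy, Submodule.coe_add, smul_add]
      map_smul' := by
        intro r x
        apply Subtype.ext
        apply hinj
        change algebraMap D K (y (r • x)) = algebraMap D K (r * y x)
        rw [map_mul, hy, hy, Submodule.coe_smul, smul_comm, Algebra.smul_def r] }
  have heinj : Function.Injective e := by
    intro x x' h
    have h1 : y x = y x' := congrArg Subtype.val h
    have h2 : b • (x : K) = b • (x' : K) := by rw [← hy, ← hy, h1]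
    rw [Algebra.smul_def, Algebra.smul_def] at h2
    exact Subtype.ext (mul_left_cancel₀ hbK h2)
  have hesurj : Function.Surjective e := by
    rintro ⟨z, ⟨x, hx, hxz⟩⟩
    refine ⟨⟨x, hx⟩, Subtype.ext (hinj ?_)⟩
    change algebraMap D K (y ⟨x, hx⟩) = algebraMap D K z
    rw [hy]
    exact hxz
  let E : M ≃ₗ[D] I := LinearEquiv.ofBijective e ⟨heinj, hesurj⟩
  have hI : I ≠ ⊥ := by
    intro h
    obtain ⟨x, hx, hx0⟩ := Submodule.exists_mem_ne_zero_of_ne_bot hM0
    have h1 : e ⟨x, hx⟩ = e 0 := by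
      apply Subtype.ext
      have h2 : ((e ⟨x, hx⟩ : I) : D) ∈ (⊥ : Ideal D) := h ▸ (e ⟨x, hx⟩).2
      rw [map_zero, (Submodule.mem_bot D).mp h2]
      rfl
    have h2 := heinj h1
    exact hx0 (congrArg Subtype.val h2)
  rw [← length_quotient_smul_ideal a ha I hI]
  apply le_of_eq
  have hmap : (LinearMap.range (LinearMap.lsmul D M a)).map (E : M →ₗ[D] I) =
      LinearMap.range (LinearMap.lsmul D I a) := by
    ext z
    constructor
    · rintro ⟨_, ⟨x, rfl⟩, rfl⟩
      exact ⟨E x, by
        change a • E x = E (a • x)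
        rw [map_smul]⟩
    · rintro ⟨z', rfl⟩
      obtain ⟨x, rfl⟩ := E.surjective z'
      exact ⟨a • x, ⟨x, rfl⟩, by
        change E (a • x) = a • E x
        rw [map_smul]⟩
  exact (Submodule.Quotient.equiv _ _ E hmap).length_eq

/-- For any submodule `W` of `K`, the module `W / a W` is finitely generated. -/
theorem finite_quotient_smul (a : D) (ha : a ≠ 0) (W : Submodule D K) :
    Module.Finite D (W ⧸ LinearMap.range (LinearMap.lsmul D W a)) := by
  obtain ⟨L, hL⟩ := ENat.ne_top_iff_exists.mp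
    (length_quotient_ideal_ne_top (Ideal.span {a}) (by simpa using ha))
  apply finite_of_bounded_length L
  intro P hP
  -- lift generators of `P`
  let R := LinearMap.range (LinearMap.lsmul D W a)
  obtain ⟨M', hM', hM'P⟩ : ∃ M' : Submodule D W, M'.FG ∧ M'.map R.mkQ = P := by
    obtain ⟨s, hs⟩ := hP
    classical
    choose t ht using fun x : W ⧸ R => R.mkQ_surjective x
    refine ⟨Submodule.span D (s.image t), ⟨s.image t, rfl⟩, ?_⟩
    rw [Submodule.map_span, ← hs]
    congr 1
    rw [Finset.coe_image, Set.image_image]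
    ext x
    constructor
    · rintro ⟨y, hy, rfl⟩
      change R.mkQ (t y) ∈ _
      rw [ht]; exact hy
    · intro hx
      exact ⟨x, hx, ht x⟩
  let M : Submodule D K := M'.map W.subtype
  have hM : M.FG := hM'.map _
  have h1 := length_quotient_smul_le a ha M hM
  rw [← hL] at h1
  refine le_trans ?_ h1
  -- surjection `M / a M → P`
  have hMW : ∀ x : M, (x : K) ∈ W := by
    rintro ⟨_, x, hx, rfl⟩
    exact x.2
  have hMM' : ∀ x : M, (⟨x, hMW x⟩ : W) ∈ M' := by
    rintro ⟨_, x, hx, rfl⟩
    exact hx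
  let f : M →ₗ[D] P :=
    { toFun := fun x => ⟨R.mkQ ⟨x, hMW x⟩, hM'P ▸ Submodule.mem_map_of_mem (hMM' x)⟩
      map_add' := by
        intro x x'
        apply Subtype.ext
        change R.mkQ ⟨((x + x' : M) : K), hMW (x + x')⟩ =
          R.mkQ ⟨x, hMW x⟩ + R.mkQ ⟨x', hMW x'⟩
        rw [← map_add]
        rfl
      map_smul' := by
        intro r x
        apply Subtype.ext
        change R.mkQ ⟨((r • x : M) : K), hMW (r • x)⟩ = r • R.mkQ ⟨x, hMW x⟩
        rw [← map_smul]
        rfl }
  have hf : Function.Surjective f := by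
    rintro ⟨z, hz⟩
    rw [← hM'P] at hz
    obtain ⟨x, hx, rfl⟩ := hz
    exact ⟨⟨x, x, hx, rfl⟩, rfl⟩
  have hker : LinearMap.range (LinearMap.lsmul D M a) ≤ LinearMap.ker f := by
    rintro _ ⟨x, rfl⟩
    rw [LinearMap.mem_ker]
    apply Subtype.ext
    change R.mkQ ⟨((a • x : M) : K), hMW (a • x)⟩ = 0
    have : (⟨((a • x : M) : K), hMW (a • x)⟩ : W) ∈ R := ⟨⟨x, hMW x⟩, rfl⟩
    simpa using this
  refine Module.length_le_of_surjective
    ((LinearMap.range (LinearMap.lsmul D M a)).liftQ f hker) ?_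
  intro z
  obtain ⟨x, hx⟩ := hf z
  exact ⟨Submodule.Quotient.mk x, hx⟩

end domain

end Vale.Agent.P178
end
end

section

section

namespace Vale.Agent.P178

open IsLocalRing

section general

variable {R : Type*} [CommRing R] (I : Ideal R)

theorem isPrecomplete_of_surjective {M N : Type*} [AddCommGroup M] [Module R M]
    [AddCommGroup N] [Module R N] [IsPrecomplete I M] (f : M →ₗ[R] N)
    (hf : Function.Surjective f) : IsPrecomplete I N := by
  rw [← AdicCompletion.of_surjective_iff]
  intro y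
  obtain ⟨x, rfl⟩ := AdicCompletion.map_surjective I hf y
  obtain ⟨z, rfl⟩ := AdicCompletion.of_surjective I M x
  exact ⟨f z, (AdicCompletion.map_of ..).symm⟩

theorem isPrecomplete_pi [IsPrecomplete I R] (k : ℕ) : IsPrecomplete I (Fin k → R) := by
  rw [isPrecomplete_iff]
  intro f hf
  have h1 : ∀ i : Fin k, ∃ L : R, ∀ n, f n i ≡ L [SMOD (I ^ n • ⊤ : Submodule R R)] := by
    intro i
    refine IsPrecomplete.prec ‹_› (f := fun n => f n i) ?_
    intro m n hmn
    have h := hf hmn
    rw [SModEq.sub_mem] at h ⊢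
    have h2 : (LinearMap.proj (R := R) (φ := fun _ : Fin k => R) i) (f m - f n) ∈
        Submodule.map (LinearMap.proj (R := R) (φ := fun _ : Fin k => R) i)
          (I ^ m • ⊤ : Submodule R (Fin k → R)) := Submodule.mem_map_of_mem h
    rw [Submodule.map_smul''] at h2
    exact Submodule.smul_mono le_rfl le_top h2
  choose L hL using h1
  refine ⟨L, fun n => ?_⟩
  rw [SModEq.sub_mem]
  have h3 : f n - L = ∑ i, (f n i - L i) • (Pi.single i (1 : R) : Fin k → R) := by
    rw [← (Pi.basisFun R (Fin k)).sum_repr (f n - L)]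
    simp
  rw [h3]
  refine Submodule.sum_mem _ fun i _ => ?_
  refine Submodule.smul_mem_smul ?_ trivial
  have h4 := hL i n
  rw [SModEq.sub_mem] at h4
  simpa using h4

theorem finite_of_finite_quotient [IsPrecomplete I R] (N : Type*) [AddCommGroup N] [Module R N]
    [IsHausdorff I N] [Module.Finite R (N ⧸ (I • ⊤ : Submodule R N))] : Module.Finite R N := by
  obtain ⟨k, g, hg⟩ := Module.Finite.exists_fin' R (N ⧸ (I • ⊤ : Submodule R N))
  have := isPrecomplete_pi I k
  obtain ⟨f, hf⟩ := Module.projective_lifting_property (I • ⊤ : Submodule R N).mkQ g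
    (Submodule.mkQ_surjective _)
  have h1 : Function.Surjective f := by
    apply surjective_of_mkQ_comp_surjective (I := I)
    rw [hf]
    exact hg
  exact Module.Finite.of_surjective f h1

theorem isPrecomplete_quotient [IsPrecomplete I R] (P : Ideal R) :
    IsPrecomplete (I.map (Ideal.Quotient.mk P)) (R ⧸ P) := by
  have h1 : IsPrecomplete I (R ⧸ P) := isPrecomplete_of_surjective I P.mkQ P.mkQ_surjective
  exact IsPrecomplete.map_algebraMap_iff.mpr h1

end general

section domain

variable {D : Type*} [CommRing D] [IsDomain D] [IsNoetherianRing D] [Ring.KrullDimLE 1 D]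
  [IsLocalRing D]
  {K : Type*} [Field K] [Algebra D K] [IsFractionRing D K]

/-- Every nonzero ideal of a one-dimensional local domain contains a power of the
maximal ideal. -/
theorem exists_pow_le (J : Ideal D) (hJ : J ≠ ⊥) : ∃ s : ℕ, maximalIdeal D ^ s ≤ J := by
  apply Ideal.exists_pow_le_of_le_radical_of_fg
  · rw [Ideal.radical_eq_sInf]
    refine le_sInf ?_
    rintro p ⟨hJp, hp⟩
    have hp0 : p ≠ ⊥ := fun h => hJ (le_bot_iff.mp (h ▸ hJp))
    have := hp
    have hpm : p.IsMaximal := hp.isMaximal_of_ne_bot hp0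
    exact (eq_maximalIdeal hpm).ge
  · exact IsNoetherian.noetherian _

/-- The integral closure `W` of a one-dimensional local domain is separated. -/
theorem isHausdorff_integralClosure : IsHausdorff (maximalIdeal D) (integralClosure D K) := by
  refine ⟨fun x hx => ?_⟩
  by_contra hx0
  simp only [SModEq.zero] at hx
  rcases eq_or_ne (maximalIdeal D) ⊥ with hm | hm
  · have h1 := hx 1
    rw [hm] at h1
    simp at h1
    exact hx0 h1
  obtain ⟨a, ham, ha⟩ := Submodule.exists_mem_ne_zero_of_ne_bot hm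
  have hinj : Function.Injective (algebraMap D K) := IsFractionRing.injective D K
  -- `x` divides a nonzero element `b` of `D`
  obtain ⟨b, hb, w, hbw⟩ : ∃ b : D, b ≠ 0 ∧ ∃ w : integralClosure D K,
      algebraMap D (integralClosure D K) b = x * w := by
    have hxK : (x : K) ≠ 0 := fun h => hx0 (Subtype.ext h)
    obtain ⟨b, c, hc, hbc⟩ := IsFractionRing.div_surjective (A := D) ((x : K)⁻¹)
    have hc0 : algebraMap D K c ≠ 0 := by
      rw [Ne, FaithfulSMul.algebraMap_eq_zero_iff]; exact nonZeroDivisors.ne_zero hc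
    refine ⟨c, nonZeroDivisors.ne_zero hc, algebraMap D _ b, ?_⟩
    apply Subtype.ext
    change algebraMap D K c = x * algebraMap D K b
    rw [div_eq_iff hc0] at hbc
    rw [hbc, ← mul_assoc, mul_inv_cancel₀ hxK, one_mul]
  obtain ⟨s, hs⟩ := exists_pow_le (Ideal.span {b * a}) (by simpa using mul_ne_zero hb ha)
  have h1 : x ∈ (Ideal.span {b * a} • ⊤ : Submodule D (integralClosure D K)) :=
    Submodule.smul_mono_left hs (hx s)
  rw [Submodule.ideal_span_singleton_smul] at h1
  obtain ⟨y, -, hy⟩ := h1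
  have h2 : algebraMap D (integralClosure D K) (b * a) * y = x := by
    rw [← hy]; exact (Algebra.smul_def _ _).symm
  have h3 : algebraMap D (integralClosure D K) b *
      (algebraMap D (integralClosure D K) a * (y * w)) =
      algebraMap D (integralClosure D K) b * 1 := by
    rw [mul_one]
    nth_rewrite 2 [hbw]
    rw [← h2, map_mul]
    ring
  have h4 : algebraMap D (integralClosure D K) b ≠ 0 := by
    rw [Ne, FaithfulSMul.algebraMap_eq_zero_iff]; exact hb
  have h5 := mul_left_cancel₀ h4 h3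
  have h6 : IsUnit (algebraMap D (integralClosure D K) a) := IsUnit.of_mul_eq_one _ h5
  have h7 : IsUnit a := (isUnit_map_iff (algebraMap D (integralClosure D K)) a).mp h6
  exact (mem_maximalIdeal a).mp ham h7

theorem finite_integralClosure_of_precomplete [IsPrecomplete (maximalIdeal D) D] :
    Module.Finite D (integralClosure D K) := by
  rcases eq_or_ne (maximalIdeal D) ⊥ with hm | hm
  · have hf : IsField D := by
      rw [IsLocalRing.isField_iff_maximalIdeal_eq]; exact hm
    have hbij := hf.localization_map_bijective (Rₘ := K) (M := nonZeroDivisors D)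
      (fun h => nonZeroDivisors.ne_zero h rfl)
    have h1 : Function.Surjective (Algebra.linearMap D (integralClosure D K)) := by
      intro x
      obtain ⟨y, hy⟩ := hbij.2 (x : K)
      exact ⟨y, Subtype.ext hy⟩
    exact Module.Finite.of_surjective _ h1
  obtain ⟨a, ham, ha⟩ := Submodule.exists_mem_ne_zero_of_ne_bot hm
  have := isHausdorff_integralClosure (D := D) (K := K)
  have h1 : Module.Finite D (integralClosure D K ⧸
      LinearMap.range (LinearMap.lsmul D (integralClosure D K) a)) :=
    finite_quotient_smul a ha (Subalgebra.toSubmodule (integralClosure D K))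
  have hle : LinearMap.range (LinearMap.lsmul D (integralClosure D K) a) ≤
      (maximalIdeal D • ⊤ : Submodule D (integralClosure D K)) := by
    rintro _ ⟨x, rfl⟩
    exact Submodule.smul_mem_smul ham trivial
  have h2 : Module.Finite D (integralClosure D K ⧸
      (maximalIdeal D • ⊤ : Submodule D (integralClosure D K))) :=
    Module.Finite.of_surjective (Submodule.factor hle) (Submodule.factor_surjective hle)
  exact finite_of_finite_quotient (maximalIdeal D) (integralClosure D K)

end domain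

/-- **Complete local rings are N-1 in dimension one.** For a prime `P` of a complete Noetherian
local ring `A` with `dim A / P ≤ 1`, the normalization of `A / P` is a finite module. -/
theorem finite_integralClosure_of_isAdicComplete {A : Type*} [CommRing A] [IsLocalRing A]
    [IsNoetherianRing A] [IsAdicComplete (maximalIdeal A) A] (P : Ideal A) [P.IsPrime]
    [Ring.KrullDimLE 1 (A ⧸ P)] (K : Type*) [Field K] [Algebra (A ⧸ P) K]
    [IsFractionRing (A ⧸ P) K] : Module.Finite (A ⧸ P) (integralClosure (A ⧸ P) K) := by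
  have : Nontrivial (A ⧸ P) := Ideal.Quotient.nontrivial_iff.mpr (Ideal.IsPrime.ne_top ‹_›)
  have : IsLocalRing (A ⧸ P) :=
    IsLocalRing.of_surjective' (Ideal.Quotient.mk P) Ideal.Quotient.mk_surjective
  have : IsPrecomplete (maximalIdeal (A ⧸ P)) (A ⧸ P) := by
    have h1 := isPrecomplete_quotient (maximalIdeal A) P
    have h2 : (maximalIdeal A).map (Ideal.Quotient.mk P) = maximalIdeal (A ⧸ P) := by
      apply eq_maximalIdeal
      refine Ideal.IsMaximal.map_of_surjective_of_ker_le Ideal.Quotient.mk_surjective ?_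
      rw [Ideal.mk_ker]
      exact IsLocalRing.le_maximalIdeal (Ideal.IsPrime.ne_top ‹_›)
    rwa [h2] at h1
  exact finite_integralClosure_of_precomplete

end Vale.Agent.P178
end
end

section

section

universe u

noncomputable section

namespace Vale.Agent.P178

open IsLocalRing

variable {A : Type u} [CommRing A] [IsRegularLocalRing A] {n : ℕ}

/-- Surjectivity onto the `K₁` term of the closed point. -/
theorem exists_symbol_closedPoint (hdim : ringKrullDim A = n + 2)
    (x : (kappa (closedPoint A))ˣ) :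
    ∃ (P : HtPrime A (n + 1)) (a b : (kappa P.1)ˣ), bd₂ P.1 (closedPoint A) a b = x := by
  obtain ⟨P₁, hP₁, hdvr⟩ := exists_regular_curve A (n + 1) (by rw [hdim]; push_cast; ring)
  obtain ⟨t, ht⟩ := (IsPrincipalIdealRing.principal (maximalIdeal (A ⧸ P₁.asIdeal)))
  have ht' : maximalIdeal (A ⧸ P₁.asIdeal) = Ideal.span {t} := ht
  have htirr : Irreducible t := (IsDiscreteValuationRing.irreducible_iff_uniformizer t).2 ht'
  have hkerk : RingHom.ker (algebraMap A (kappa (closedPoint A))) = maximalIdeal A := by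
    ext a
    rw [RingHom.mem_ker, IsScalarTower.algebraMap_apply A (A ⧸ (closedPoint A).asIdeal)
      (kappa (closedPoint A)), IsFractionRing.to_map_eq_zero_iff]
    exact Ideal.Quotient.eq_zero_iff_mem
  let ψ : A ⧸ P₁.asIdeal →+* kappa (closedPoint A) :=
    Ideal.Quotient.lift P₁.asIdeal (algebraMap A (kappa (closedPoint A))) (fun a ha => by
      rw [← RingHom.mem_ker, hkerk]
      exact le_maximalIdeal P₁.2.ne_top ha)
  have hψA : ∀ a : A, ψ (algebraMap A (A ⧸ P₁.asIdeal) a) =
      algebraMap A (kappa (closedPoint A)) a := fun a => rfl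
  have hcomap : (Ideal.span {t}).comap (algebraMap A (A ⧸ P₁.asIdeal)) =
      (closedPoint A).asIdeal := by
    rw [← ht']
    exact comap_eq_maximalIdeal (A := A) _
  have hker : RingHom.ker ψ = Ideal.span {t} := by
    rw [← ht']
    have h1 : (RingHom.ker ψ).comap (algebraMap A (A ⧸ P₁.asIdeal)) = maximalIdeal A := by
      rw [← hkerk]
      ext a
      rfl
    have h2 : (RingHom.ker ψ).IsPrime := RingHom.ker_isPrime _
    exact IsLocalRing.eq_maximalIdeal (isMaximal_of_comap_eq _ h1)
  obtain ⟨u₀, hu₀⟩ := algebraMap_kappa_closedPoint_surjective (x : kappa (closedPoint A))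
  have hu1 : ψ (algebraMap A (A ⧸ P₁.asIdeal) u₀) ≠ 0 := by
    rw [hψA, hu₀]; exact x.ne_zero
  have hu2 : algebraMap (A ⧸ P₁.asIdeal) (kappa P₁) (algebraMap A (A ⧸ P₁.asIdeal) u₀) ≠ 0 := by
    rw [Ne, IsFractionRing.to_map_eq_zero_iff]
    intro h
    exact hu1 (by rw [h, map_zero])
  have ht1 : algebraMap (A ⧸ P₁.asIdeal) (kappa P₁) t ≠ 0 := by
    rw [Ne, IsFractionRing.to_map_eq_zero_iff]; exact htirr.ne_zero
  refine ⟨⟨P₁, hP₁⟩, Units.mk0 _ hu2, Units.mk0 _ ht1, ?_⟩
  have h1 := bd₂_right P₁ (closedPoint A) htirr.prime hcomap ψ (fun a => hψA a) hker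
    (by
      intro y
      obtain ⟨r, rfl⟩ := algebraMap_kappa_closedPoint_surjective y
      refine ⟨algebraMap A (A ⧸ P₁.asIdeal) r, 1, ?_, ?_⟩
      · rw [map_one]; exact one_ne_zero
      · rw [map_one, div_one, hψA]) (b := algebraMap A (A ⧸ P₁.asIdeal) u₀)
    (by
      intro q hq hqc hmem
      have h2 : q = maximalIdeal (A ⧸ P₁.asIdeal) := by
        have : q.IsMaximal := isMaximal_of_comap_eq (A := A) q hqc
        exact IsLocalRing.eq_maximalIdeal this
      rw [h2, ht', ← hker] at hmem
      exact hu1 hmem)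
  rw [Algebra.norm_self, MonoidHom.id_apply, hψA, hu₀] at h1
  exact h1

/-- A complete local ring has finite normalizations in dimension one. -/
theorem finite_nrm_of_complete [IsAdicComplete (maximalIdeal A) A]
    (hdim : ringKrullDim A = n + 2) (P : HtPrime A (n + 1)) :
    Module.Finite (A ⧸ P.1.asIdeal) (Nrm P.1) := by
  have hP := isCurve_of_height hdim P
  have : Ring.KrullDimLE 1 (A ⧸ P.1.asIdeal) := by
    refine Ring.krullDimLE_one_iff_of_noZeroDivisors.2 fun q hq0 hq => ?_
    have h1 : q.comap (algebraMap A (A ⧸ P.1.asIdeal)) = maximalIdeal A := by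
      refine hP.eq _ inferInstance (lt_of_le_of_ne ?_ ?_)
      · intro x hx
        rw [Ideal.mem_comap]
        have : algebraMap A (A ⧸ P.1.asIdeal) x = 0 := Ideal.Quotient.eq_zero_iff_mem.2 hx
        rw [this]
        exact zero_mem _
      · intro h
        apply hq0
        rw [eq_bot_iff]
        intro y hy
        obtain ⟨x, rfl⟩ := Ideal.Quotient.mk_surjective y
        have hx : x ∈ P.1.asIdeal := by
          rw [h]; exact hy
        exact Ideal.Quotient.eq_zero_iff_mem.2 hx
    exact isMaximal_of_comap_eq (A := A) q h1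
  exact finite_integralClosure_of_isAdicComplete P.1.asIdeal (kappa P.1)

end Vale.Agent.P178
end
end
end

section

section

universe u

noncomputable section

namespace Vale.Agent.P178

open IsLocalRing

variable {A : Type u} [CommRing A]

namespace Bridge

theorem gres_of_mem {K : Type u} [Field K] (V : ValuationSubring K) {a : K} (ha : a ∈ V) :
    Gersten.res V a = (IsLocalRing.residue V ⟨a, ha⟩ : IsLocalRing.ResidueField V) :=
  dif_pos ha

/-- The place in the sense of the statement attached to a place. -/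
def toG {Q P : PrimeSpectrum A} (v : Place Q P) :
    Gersten.Place (Gersten.toKappa Q) (Gersten.toKappa P) where
  V := v.V
  dvr := v.dvr
  mem := v.mem
  map := v.resMap
  map_eq x := (v.resMap_algebraMap x).trans (gres_of_mem v.V (v.mem x)).symm

theorem toG_injective {Q P : PrimeSpectrum A} :
    Function.Injective (toG (Q := Q) (P := P)) := by
  intro v w h
  have hV : v.V = w.V := congrArg Gersten.Place.V h
  obtain ⟨V, dvr, mem, cen⟩ := v
  obtain ⟨V', dvr', mem', cen'⟩ := w
  have h2 : V = V' := hV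
  subst h2
  rfl

theorem map_unique {P : PrimeSpectrum A} {F : Type u} [Field F] (φ ψ : kappa P →+* F)
    (h : ∀ x : A, φ (algebraMap A (kappa P) x) = ψ (algebraMap A (kappa P) x)) : φ = ψ := by
  refine IsLocalization.ringHom_ext (nonZeroDivisors (A ⧸ P.asIdeal)) ?_
  refine Ideal.Quotient.ringHom_ext ?_
  ext x
  exact h x

theorem toG_surjective {Q P : PrimeSpectrum A} :
    Function.Surjective (toG (Q := Q) (P := P)) := by
  intro w
  obtain ⟨V, dvr, mem, map, map_eq⟩ := w
  have hcen : ∀ x : A, algebraMap A (kappa Q) x ∈ V.nonunits ↔ x ∈ P.asIdeal := by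
    intro x
    have h1 : map (algebraMap A (kappa P) x) =
        (IsLocalRing.residue V ⟨algebraMap A (kappa Q) x, mem x⟩ : IsLocalRing.ResidueField V) :=
      (map_eq x).trans (gres_of_mem V (mem x))
    have h2 : algebraMap A (kappa Q) x ∈ V.nonunits ↔
        (IsLocalRing.residue V ⟨algebraMap A (kappa Q) x, mem x⟩ : IsLocalRing.ResidueField V)
          = 0 := by
      rw [IsLocalRing.residue_eq_zero_iff]
      exact ValuationSubring.coe_mem_nonunits_iff (A := V)
        (a := ⟨algebraMap A (kappa Q) x, mem x⟩)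
    rw [h2]
    have h3 : algebraMap A (kappa P) x = 0 ↔ x ∈ P.asIdeal := by
      rw [IsScalarTower.algebraMap_apply A (A ⧸ P.asIdeal) (kappa P),
        IsFractionRing.to_map_eq_zero_iff]
      exact Ideal.Quotient.eq_zero_iff_mem
    rw [← h3]
    constructor
    · intro h4
      rw [h4] at h1
      exact (map_eq_zero_iff map map.injective).1 h1
    · intro h4
      rw [← h1, h4]
      exact map_zero map
  let v : Place Q P := ⟨V, dvr, mem, hcen⟩
  refine ⟨v, ?_⟩
  have h5 : v.resMap = map := map_unique v.resMap map fun x =>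
    (v.resMap_algebraMap x).trans ((map_eq x).trans (gres_of_mem V (mem x))).symm
  have h6 : toG v = ⟨V, dvr, mem, v.resMap, (toG v).map_eq⟩ := rfl
  rw [h6]
  congr

theorem toG_bijective {Q P : PrimeSpectrum A} :
    Function.Bijective (toG (Q := Q) (P := P)) := ⟨toG_injective, toG_surjective⟩

theorem toG_order {Q P : PrimeSpectrum A} (v : Place Q P) (a : kappa Q) :
    (toG v).order a = v.val a * v.deg := rfl

theorem toG_symbol {Q P : PrimeSpectrum A} (v : Place Q P) (a b : kappa Q) :
    (toG v).symbol a b = v.norm (v.tame a b) := rfl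

theorem norm_ne_zero {Q P : PrimeSpectrum A} (v : Place Q P)
    {x : IsLocalRing.ResidueField v.V} (hx : x ≠ 0) : v.norm x ≠ 0 := by
  intro h
  have h1 : v.norm x * v.norm x⁻¹ = 1 := by
    rw [← v.norm_mul, mul_inv_cancel₀ hx, v.norm_one]
  rw [h, zero_mul] at h1
  exact zero_ne_one h1

theorem tame_ne_zero {Q P : PrimeSpectrum A} (v : Place Q P) {a b : kappa Q} (ha : a ≠ 0)
    (hb : b ≠ 0) : v.tame a b ≠ 0 := by
  have h1 : (-1 : kappa Q) ≠ 0 := neg_ne_zero.2 one_ne_zero
  exact v.res_ne_zero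
    (div_ne_zero (mul_ne_zero (zpow_ne_zero _ h1) (zpow_ne_zero _ ha)) (zpow_ne_zero _ hb))
    (v.val_tame_arg ha hb)

theorem bd₂_ne_zero (Q P : PrimeSpectrum A) {a b : kappa Q} (ha : a ≠ 0) (hb : b ≠ 0) :
    bd₂ Q P a b ≠ 0 := by
  refine finprod_induction (p := fun x : kappa P => x ≠ 0) one_ne_zero
    (fun x y hx hy => mul_ne_zero hx hy) fun v => ?_
  exact norm_ne_zero v (tame_ne_zero v ha hb)

theorem toUnit_val {K : Type u} [Field K] {x : K} (hx : x ≠ 0) :
    ((Gersten.toUnit x : Kˣ) : K) = x := by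
  rw [Gersten.toUnit, dif_neg hx, Units.val_mk0]

theorem gbd₁_eq (Q P : PrimeSpectrum A) (a : (kappa Q)ˣ) :
    Gersten.bd₁ Q P a = bd₁ Q P (a : kappa Q) := by
  refine Eq.symm (finsum_eq_of_bijective toG toG_bijective fun v => ?_)
  exact (toG_order v (a : kappa Q)).symm

theorem gprod_eq (Q P : PrimeSpectrum A) (a b : kappa Q) :
    (∏ᶠ v : Gersten.Place (Gersten.toKappa Q) (Gersten.toKappa P), v.symbol a b) =
      bd₂ Q P a b := by
  refine Eq.symm (finprod_eq_of_bijective toG toG_bijective fun v => ?_)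
  exact (toG_symbol v a b).symm

/-- Change of the type of a unit. -/
def old {P : PrimeSpectrum A} (x : Gersten.K₁ P) : (kappa P)ˣ := x

theorem gbd₂_val (Q P : PrimeSpectrum A) (a b : (kappa Q)ˣ) :
    (old (Gersten.bd₂ Q P a b) : kappa P) = bd₂ Q P (a : kappa Q) (b : kappa Q) := by
  have h1 : old (Gersten.bd₂ Q P a b) =
      (Gersten.toUnit (bd₂ Q P (a : kappa Q) (b : kappa Q)) : (kappa P)ˣ) := by
    rw [← gprod_eq]
    rfl
  rw [h1]
  exact toUnit_val (bd₂_ne_zero Q P a.ne_zero b.ne_zero)

theorem gbd₂_eq (Q P : PrimeSpectrum A) (a b : (kappa Q)ˣ) (x : (kappa P)ˣ)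
    (h : bd₂ Q P (a : kappa Q) (b : kappa Q) = x) :
    Gersten.bd₂ Q P a b = x :=
  Units.ext (u := old (Gersten.bd₂ Q P a b)) ((gbd₂_val Q P a b).trans h)

/-- The two versions of the set of primes of height `h`. -/
def ptEquiv (A : Type u) [CommRing A] (h : ℕ) : HtPrime A h ≃ Gersten.Pt A h where
  toFun P := ⟨P.1, P.2⟩
  invFun P := ⟨P.P, P.height⟩
  left_inv _ := rfl
  right_inv _ := rfl

section closure

variable {n : ℕ}

open Gersten in
theorem mem_closure_of_isBdry (u : (P : Pt A (n + 1)) → K₁ P.P)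
    (h : IsBdry (fun P : HtPrime A (n + 1) => (u ⟨P.1, P.2⟩ : (kappa P.1)ˣ) : C₁ A n)) :
    u ∈ Subgroup.closure {w : (P : Pt A (n + 1)) → K₁ P.P |
      ∃ (Q : Pt A n) (a b : K₁ Q.P), ∀ P : Pt A (n + 1), w P = Gersten.bd₂ Q.P P.P a b} := by
  obtain ⟨ι, _, Q, a, b, hu⟩ := h
  let w : ι → (P : Pt A (n + 1)) → K₁ P.P := fun i P => Gersten.bd₂ (Q i).1 P.P (a i) (b i)
  have h1 : u = ∏ i, w i := by
    funext P
    rw [Finset.prod_apply]
    refine Units.ext ?_
    refine (hu ⟨P.P, P.height⟩).trans ?_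
    have h2 : ∀ i, P178.bd₂ (Q i).1 P.P (a i) (b i) = (old (w i P) : P178.kappa P.P) :=
      fun i => (gbd₂_val (Q i).1 P.P (a i) (b i)).symm
    rw [Finset.prod_congr rfl fun i _ => h2 i]
    exact (map_prod (Units.coeHom (P178.kappa P.P)) (fun i => old (w i P)) _).symm
  rw [h1]
  refine Subgroup.prod_mem _ fun i _ => Subgroup.subset_closure ?_
  exact ⟨⟨(Q i).1, (Q i).2⟩, a i, b i, fun P => rfl⟩

open Gersten in
theorem mem_closure_of_exists (c : Pt A (n + 1) → ℤ)
    (h : ∃ (r : ℕ) (Q : Fin r → HtPrime A n) (a : (i : Fin r) → (kappa (Q i).1)ˣ),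
      ∀ P : HtPrime A (n + 1), c ⟨P.1, P.2⟩ = ∑ i, P178.bd₁ (Q i).1 P.1 (a i)) :
    c ∈ AddSubgroup.closure {w : Pt A (n + 1) → ℤ |
        ∃ (Q : Pt A n) (a : K₁ Q.P), ∀ P : Pt A (n + 1), w P = Gersten.bd₁ Q.P P.P a} := by
  obtain ⟨r, Q, a, hc⟩ := h
  let w : Fin r → Pt A (n + 1) → ℤ := fun i P => Gersten.bd₁ (Q i).1 P.P (a i)
  have h1 : c = ∑ i, w i := by
    funext P
    rw [Finset.sum_apply]
    refine (hc ⟨P.P, P.height⟩).trans ?_
    exact Finset.sum_congr rfl fun i _ => (gbd₁_eq (Q i).1 P.P (a i)).symm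
  rw [h1]
  refine AddSubgroup.sum_mem _ fun i _ => AddSubgroup.subset_closure ?_
  exact ⟨⟨(Q i).1, (Q i).2⟩, a i, fun P => rfl⟩

end closure

end Bridge

end Vale.Agent.P178
end
end
end

section

section

universe u

noncomputable section

namespace Vale.Agent.P178

open IsLocalRing Gersten

variable {A : Type u} [CommRing A] [IsRegularLocalRing A] {n : ℕ}

theorem finite_hyp (hdim : ringKrullDim A = n + 2)
    (hA : IsAdicComplete (maximalIdeal A) A ∨ ∀ P : Ideal A, P.IsPrime → P.height = (n + 1 : ℕ) →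
      Module.Finite (A ⧸ P) (integralClosure (A ⧸ P) (FractionRing (A ⧸ P))))
    (P : HtPrime A (n + 1)) : Module.Finite (A ⧸ P.1.asIdeal) (Nrm P.1) := by
  rcases hA with hA | hA
  · exact finite_nrm_of_complete hdim P
  · exact hA P.1.asIdeal P.1.2 P.2

theorem tail_K₁ (hdim : ringKrullDim A = n + 2) (x : K₁ (closedPoint A)) :
    ∃ (P : Pt A (n + 1)) (a b : K₁ P.P), Gersten.bd₂ P.P (closedPoint A) a b = x := by
  obtain ⟨P, a, b, h⟩ := exists_symbol_closedPoint hdim (Bridge.old x)
  exact ⟨⟨P.1, P.2⟩, a, b, Bridge.gbd₂_eq P.1 (closedPoint A) a b (Bridge.old x) h⟩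

theorem tail_K₀ (hdim : ringKrullDim A = n + 2) :
    ∃ (P : Pt A (n + 1)) (t : K₁ P.P), Gersten.bd₁ P.P (closedPoint A) t = 1 := by
  obtain ⟨P, t, h⟩ := exists_degree_one hdim
  exact ⟨⟨P.1, P.2⟩, t, (Bridge.gbd₁_eq P.1 (closedPoint A) t).trans h⟩

theorem tail_middle (hn : 1 ≤ n) (hdim : ringKrullDim A = n + 2)
    (hN : ∀ P : HtPrime A (n + 1), Module.Finite (A ⧸ P.1.asIdeal) (Nrm P.1))
    (u : (P : Pt A (n + 1)) → K₁ P.P) (hfin : {P | u P ≠ 1}.Finite)
    (hu : ∑ᶠ P : Pt A (n + 1), Gersten.bd₁ P.P (closedPoint A) (u P) = 0) :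
    u ∈ Subgroup.closure {w : (P : Pt A (n + 1)) → K₁ P.P |
      ∃ (Q : Pt A n) (a b : K₁ Q.P), ∀ P : Pt A (n + 1), w P = Gersten.bd₂ Q.P P.P a b} := by
  refine Bridge.mem_closure_of_isBdry u (isBdry_of_degree_zero hn hdim hN _ ?_ ?_)
  · have h1 : {P : HtPrime A (n + 1) | (Bridge.old (u ⟨P.1, P.2⟩)) ≠ 1} =
        (Bridge.ptEquiv A (n + 1)) ⁻¹' {P | u P ≠ 1} := rfl
    have h2 : ({P : HtPrime A (n + 1) | (Bridge.old (u ⟨P.1, P.2⟩)) ≠ 1}).Finite := by
      rw [h1]
      exact hfin.preimage (Bridge.ptEquiv A (n + 1)).injective.injOn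
    exact h2
  · rw [← hu]
    exact finsum_eq_of_bijective (Bridge.ptEquiv A (n + 1)) (Bridge.ptEquiv A (n + 1)).bijective
      fun P => (Bridge.gbd₁_eq P.1 (closedPoint A) (Bridge.old (u ⟨P.1, P.2⟩))).symm

theorem tail_cycles (hn : 1 ≤ n) (hdim : ringKrullDim A = n + 2)
    (hN : ∀ P : HtPrime A (n + 1), Module.Finite (A ⧸ P.1.asIdeal) (Nrm P.1))
    (c : Pt A (n + 1) → ℤ) (hfin : {P | c P ≠ 0}.Finite) :
    c ∈ AddSubgroup.closure {w : Pt A (n + 1) → ℤ |
      ∃ (Q : Pt A n) (a : K₁ Q.P), ∀ P : Pt A (n + 1), w P = Gersten.bd₁ Q.P P.P a} := by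
  refine Bridge.mem_closure_of_exists c (exists_divisor hn hdim hN (fun P => c ⟨P.1, P.2⟩) ?_)
  have h1 : {P : HtPrime A (n + 1) | c ⟨P.1, P.2⟩ ≠ 0} =
      (Bridge.ptEquiv A (n + 1)) ⁻¹' {P | c P ≠ 0} := rfl
  rw [h1]
  exact hfin.preimage (Bridge.ptEquiv A (n + 1)).injective.injOn

end Vale.Agent.P178
end
end
end
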